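import Mathlib

/-!
# P321: the algebra of finitely supported signed measures on binary words

`Meas` is the monoid algebra of the free monoid on `Bool`; multiplication is convolution under
concatenation.  `E f F` is the integral of `F`, `l1` the total variation norm and `NB f W A` the
quadratic bound `(E f F)^2 ≤ A * E W (F^2)` for all `F` (for `W ≥ 0` this says that `f` has a
density with respect to `W` of squared norm at most `A`).
-/

namespace Vale.Agent.P321

/-- Finitely supported signed measures on binary words, with convolution. -/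
abbrev Meas := MonoidAlgebra ℝ (FreeMonoid Bool)

/-- Binary words. -/
abbrev Word := FreeMonoid Bool

open Classical in
/-- Indicator of a single word. -/
noncomputable def indW (w : Word) : Word → ℝ := fun u => if u = w then 1 else 0

/-- Integral of `F` against `f`. -/
noncomputable def E (f : Meas) (F : Word → ℝ) : ℝ := f.coeff.sum fun w c => c * F w

/-- Total mass. -/
noncomputable def mass (f : Meas) : ℝ := E f fun _ => 1

/-- Total variation norm. -/
noncomputable def l1 (f : Meas) : ℝ := f.coeff.sum fun _ c => |c|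

/-- Pointwise nonnegative. -/
def Pos (f : Meas) : Prop := ∀ w, 0 ≤ f.coeff w

/-- Pointwise domination `|f| ≤ a W`. -/
def Dom (f W : Meas) (a : ℝ) : Prop := ∀ w, |f.coeff w| ≤ a * W.coeff w

/-- Quadratic (density) bound. -/
def NB (f W : Meas) (A : ℝ) : Prop := ∀ F : Word → ℝ, (E f F) ^ 2 ≤ A * E W (F ^ 2)

/-! ### Integrals -/

lemma E_zero (F : Word → ℝ) : E 0 F = 0 := by simp [E]

lemma E_add (f g : Meas) (F : Word → ℝ) : E (f + g) F = E f F + E g F := by
  unfold E
  rw [MonoidAlgebra.coeff_add, Finsupp.sum_add_index' (by simp) (by intros; ring)]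

lemma E_smul (c : ℝ) (f : Meas) (F : Word → ℝ) : E (c • f) F = c * E f F := by
  unfold E
  rw [MonoidAlgebra.coeff_smul, Finsupp.sum_smul_index (by simp), Finsupp.mul_sum]
  exact Finsupp.sum_congr fun w _ => by ring

lemma E_neg (f : Meas) (F : Word → ℝ) : E (-f) F = -E f F := by
  have : (-f : Meas) = (-1 : ℝ) • f := by simp
  rw [this, E_smul]; ring

lemma E_sub (f g : Meas) (F : Word → ℝ) : E (f - g) F = E f F - E g F := by
  rw [sub_eq_add_neg, E_add, E_neg, sub_eq_add_neg]

lemma E_finset_sum {ι : Type*} (s : Finset ι) (f : ι → Meas) (F : Word → ℝ) :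
    E (∑ i ∈ s, f i) F = ∑ i ∈ s, E (f i) F := by
  classical
  induction s using Finset.induction_on with
  | empty => simp [E_zero]
  | insert a s ha ih => simp [Finset.sum_insert ha, E_add, ih]

lemma E_single (w : Word) (c : ℝ) (F : Word → ℝ) :
    E (MonoidAlgebra.single w c) F = c * F w := by simp [E]

lemma E_one (F : Word → ℝ) : E 1 F = F 1 := by simp [MonoidAlgebra.one_def, E_single]

lemma E_congr (f : Meas) {F G : Word → ℝ} (h : ∀ w ∈ f.coeff.support, F w = G w) :
    E f F = E f G := Finsupp.sum_congr fun w hw => by rw [h w hw]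

lemma E_add_fun (f : Meas) (F G : Word → ℝ) : E f (fun w => F w + G w) = E f F + E f G := by
  simp only [E, Finsupp.sum, ← Finset.sum_add_distrib, mul_add]

lemma E_sub_fun (f : Meas) (F G : Word → ℝ) : E f (fun w => F w - G w) = E f F - E f G := by
  simp only [E, Finsupp.sum, ← Finset.sum_sub_distrib, mul_sub]

lemma E_const_mul (f : Meas) (c : ℝ) (F : Word → ℝ) : E f (fun w => c * F w) = c * E f F := by
  simp only [E, Finsupp.sum, Finset.mul_sum]
  exact Finset.sum_congr rfl fun w _ => by ring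

lemma E_const (f : Meas) (c : ℝ) : E f (fun _ => c) = c * mass f := by
  rw [mass, ← E_const_mul]; simp

lemma E_swap (f g : Meas) (H : Word → Word → ℝ) :
    E f (fun u => E g (fun v => H u v)) = E g (fun v => E f (fun u => H u v)) := by
  simp only [E, Finsupp.sum, Finset.mul_sum]
  rw [Finset.sum_comm]
  exact Finset.sum_congr rfl fun v _ => Finset.sum_congr rfl fun u _ => by ring

lemma E_mul (f g : Meas) (F : Word → ℝ) :
    E (f * g) F = E f (fun u => E g (fun v => F (u * v))) := by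
  classical
  have hfg : f * g = ∑ u ∈ f.coeff.support, ∑ v ∈ g.coeff.support,
      MonoidAlgebra.single (u * v) (f.coeff u * g.coeff v) := by
    rw [MonoidAlgebra.mul_def]; simp [Finsupp.sum]
  rw [hfg]
  simp only [E_finset_sum, E_single]
  simp only [E, Finsupp.sum, Finset.mul_sum]
  exact Finset.sum_congr rfl fun u _ => Finset.sum_congr rfl fun v _ => by ring

lemma coeff_eq_E (f : Meas) (w : Word) : f.coeff w = E f (indW w) := by
  classical
  simp only [E, Finsupp.sum, indW, mul_ite, mul_one, mul_zero]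
  rw [Finset.sum_ite_eq']
  split <;> simp_all

/-! ### Mass -/

lemma mass_add (f g : Meas) : mass (f + g) = mass f + mass g := E_add _ _ _
lemma mass_sub (f g : Meas) : mass (f - g) = mass f - mass g := E_sub _ _ _
lemma mass_smul (c : ℝ) (f : Meas) : mass (c • f) = c * mass f := E_smul _ _ _
lemma mass_one : mass (1 : Meas) = 1 := E_one _
lemma mass_zero : mass (0 : Meas) = 0 := E_zero _
lemma mass_neg (f : Meas) : mass (-f) = -mass f := E_neg _ _

lemma mass_sum {ι : Type*} (s : Finset ι) (f : ι → Meas) :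
    mass (∑ i ∈ s, f i) = ∑ i ∈ s, mass (f i) := E_finset_sum _ _ _

lemma mass_mul (f g : Meas) : mass (f * g) = mass f * mass g := by
  simp only [mass, E_mul]
  rw [E_const]; rw [mass]; ring

lemma mass_pow (f : Meas) (n : ℕ) : mass (f ^ n) = mass f ^ n := by
  induction n with
  | zero => simp [mass_one]
  | succ n ih => rw [pow_succ, mass_mul, ih, pow_succ]

/-! ### Positivity and order -/

lemma E_nonneg {f : Meas} (hf : Pos f) {F : Word → ℝ} (hF : ∀ w, 0 ≤ F w) : 0 ≤ E f F :=
  Finset.sum_nonneg fun w _ => mul_nonneg (hf w) (hF w)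

lemma E_sq_nonneg {f : Meas} (hf : Pos f) (F : Word → ℝ) : 0 ≤ E f (F ^ 2) :=
  E_nonneg hf fun w => by simp only [Pi.pow_apply]; positivity

lemma E_mono_fun {f : Meas} (hf : Pos f) {F G : Word → ℝ} (h : ∀ w, F w ≤ G w) :
    E f F ≤ E f G :=
  Finset.sum_le_sum fun w _ => mul_le_mul_of_nonneg_left (h w) (hf w)

lemma Pos.mass_nonneg {f : Meas} (hf : Pos f) : 0 ≤ mass f := E_nonneg hf fun _ => zero_le_one

lemma pos_zero : Pos 0 := fun w => by simp

lemma pos_single {w : Word} {c : ℝ} (hc : 0 ≤ c) : Pos (MonoidAlgebra.single w c) := by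
  classical
  intro u; rw [MonoidAlgebra.coeff_single, Finsupp.single_apply]; split <;> simp [hc]

lemma pos_one : Pos 1 := by rw [MonoidAlgebra.one_def]; exact pos_single zero_le_one

lemma Pos.add {f g : Meas} (hf : Pos f) (hg : Pos g) : Pos (f + g) := fun w => by
  simp only [MonoidAlgebra.coeff_add, Finsupp.add_apply]; exact add_nonneg (hf w) (hg w)

lemma Pos.smul {f : Meas} (hf : Pos f) {c : ℝ} (hc : 0 ≤ c) : Pos (c • f) := fun w => by
  simp only [MonoidAlgebra.coeff_smul, Finsupp.smul_apply, smul_eq_mul]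
  exact mul_nonneg hc (hf w)

lemma Pos.sum {ι : Type*} {s : Finset ι} {f : ι → Meas} (h : ∀ i ∈ s, Pos (f i)) :
    Pos (∑ i ∈ s, f i) := fun w => by
  simp only [MonoidAlgebra.coeff_sum, Finsupp.finsetSum_apply]
  exact Finset.sum_nonneg fun i hi => h i hi w

lemma Pos.mul {f g : Meas} (hf : Pos f) (hg : Pos g) : Pos (f * g) := fun w => by
  rw [coeff_eq_E, E_mul]
  refine E_nonneg hf fun u => E_nonneg hg fun v => ?_
  unfold indW; split <;> simp

lemma Pos.pow {f : Meas} (hf : Pos f) (n : ℕ) : Pos (f ^ n) := by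
  induction n with
  | zero => simpa using pos_one
  | succ n ih => rw [pow_succ]; exact ih.mul hf

/-! ### The `l1` norm -/

lemma l1_nonneg (f : Meas) : 0 ≤ l1 f := Finset.sum_nonneg fun _ _ => abs_nonneg _

open Classical in
/-- The sign of the coefficients of `f`. -/
noncomputable def sgn (f : Meas) : Word → ℝ := fun w => if 0 ≤ f.coeff w then 1 else -1

lemma abs_sgn (f : Meas) (w : Word) : |sgn f w| = 1 := by unfold sgn; split <;> simp

lemma E_sgn (f : Meas) : E f (sgn f) = l1 f := by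
  refine Finsupp.sum_congr fun w _ => ?_
  unfold sgn; split
  · rw [mul_one, abs_of_nonneg ‹_›]
  · rw [abs_of_neg (not_le.1 ‹_›)]; ring

lemma abs_E_le (f : Meas) {F : Word → ℝ} {b : ℝ} (h : ∀ w, |F w| ≤ b) :
    |E f F| ≤ b * l1 f := by
  simp only [E, l1, Finsupp.sum, Finset.mul_sum]
  refine (Finset.abs_sum_le_sum_abs _ _).trans (Finset.sum_le_sum fun w _ => ?_)
  rw [abs_mul, mul_comm b]; exact mul_le_mul_of_nonneg_left (h w) (abs_nonneg _)

lemma abs_mass_le (f : Meas) : |mass f| ≤ l1 f := by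
  simpa [mass] using abs_E_le f (F := fun _ => 1) (b := 1) (by simp)

lemma l1_zero : l1 (0 : Meas) = 0 := by simp [l1]

lemma l1_add_le (f g : Meas) : l1 (f + g) ≤ l1 f + l1 g := by
  rw [← E_sgn, E_add]
  have h : ∀ w, |sgn (f + g) w| ≤ 1 := fun w => (abs_sgn _ w).le
  have := le_abs_self (E f (sgn (f + g))); have := abs_E_le f h
  have := le_abs_self (E g (sgn (f + g))); have := abs_E_le g h
  linarith

lemma l1_smul (c : ℝ) (f : Meas) : l1 (c • f) ≤ |c| * l1 f := by
  rw [← E_sgn, E_smul]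
  refine (le_abs_self _).trans ?_
  rw [abs_mul]
  refine mul_le_mul_of_nonneg_left ?_ (abs_nonneg _)
  simpa using abs_E_le f (F := sgn (c • f)) (b := 1) fun w => (abs_sgn _ w).le

lemma l1_neg (f : Meas) : l1 (-f) = l1 f := by simp [l1, Finsupp.sum]

lemma l1_sub_comm (f g : Meas) : l1 (f - g) = l1 (g - f) := by rw [← l1_neg, neg_sub]

lemma l1_sub_le (f g : Meas) : l1 (f - g) ≤ l1 f + l1 g := by
  rw [sub_eq_add_neg]; exact (l1_add_le _ _).trans (by rw [l1_neg])

lemma l1_triangle (f g h : Meas) : l1 (f - h) ≤ l1 (f - g) + l1 (g - h) := by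
  simpa using l1_add_le (f - g) (g - h)

lemma l1_sum_le {ι : Type*} (s : Finset ι) (f : ι → Meas) :
    l1 (∑ i ∈ s, f i) ≤ ∑ i ∈ s, l1 (f i) := by
  classical
  induction s using Finset.induction_on with
  | empty => simp [l1_zero]
  | insert a s ha ih =>
    simp only [Finset.sum_insert ha]; exact (l1_add_le _ _).trans (by linarith)

lemma l1_mul_le (f g : Meas) : l1 (f * g) ≤ l1 f * l1 g := by
  rw [← E_sgn, E_mul, mul_comm]
  refine (le_abs_self _).trans (abs_E_le f fun u => ?_)
  simpa using abs_E_le g (F := fun v => sgn (f * g) (u * v)) (b := 1) fun v => (abs_sgn _ _).le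

lemma Pos.l1_eq {f : Meas} (hf : Pos f) : l1 f = mass f := by
  simp only [l1, mass, E, mul_one]
  exact Finsupp.sum_congr fun w _ => abs_of_nonneg (hf w)

lemma l1_pow_le (f : Meas) (n : ℕ) : l1 (f ^ n) ≤ l1 f ^ n := by
  induction n with
  | zero => simp [pos_one.l1_eq, mass_one]
  | succ n ih =>
    rw [pow_succ, pow_succ]
    exact (l1_mul_le _ _).trans (mul_le_mul_of_nonneg_right ih (l1_nonneg _))

/-! ### Domination -/

lemma Dom.refl {W : Meas} (hW : Pos W) : Dom W W 1 := fun w => by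
  rw [abs_of_nonneg (hW w), one_mul]

lemma Dom.mono {f W : Meas} {a b : ℝ} (h : Dom f W a) (hW : Pos W) (hab : a ≤ b) : Dom f W b :=
  fun w => (h w).trans (mul_le_mul_of_nonneg_right hab (hW w))

lemma Dom.add {f g W : Meas} {a b : ℝ} (h : Dom f W a) (h' : Dom g W b) :
    Dom (f + g) W (a + b) := fun w => by
  simp only [MonoidAlgebra.coeff_add, Finsupp.add_apply, add_mul]
  exact (abs_add_le _ _).trans (add_le_add (h w) (h' w))

lemma Dom.neg {f W : Meas} {a : ℝ} (h : Dom f W a) : Dom (-f) W a := fun w => by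
  simpa using h w

lemma Dom.sub {f g W : Meas} {a b : ℝ} (h : Dom f W a) (h' : Dom g W b) :
    Dom (f - g) W (a + b) := by rw [sub_eq_add_neg]; exact h.add h'.neg

lemma Dom.smul {f W : Meas} {a : ℝ} (h : Dom f W a) (c : ℝ) : Dom (c • f) W (|c| * a) := fun w => by
  simp only [MonoidAlgebra.coeff_smul, Finsupp.smul_apply, smul_eq_mul, abs_mul, mul_assoc]
  exact mul_le_mul_of_nonneg_left (h w) (abs_nonneg _)

lemma Dom.sum {ι : Type*} {s : Finset ι} {f : ι → Meas} {W : Meas} {a : ι → ℝ}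
    (h : ∀ i ∈ s, Dom (f i) W (a i)) : Dom (∑ i ∈ s, f i) W (∑ i ∈ s, a i) := fun w => by
  simp only [MonoidAlgebra.coeff_sum, Finsupp.finsetSum_apply, Finset.sum_mul]
  exact (Finset.abs_sum_le_sum_abs _ _).trans (Finset.sum_le_sum fun i hi => h i hi w)

lemma Dom.abs_E_le {f W : Meas} {a : ℝ} (h : Dom f W a) (F : Word → ℝ) :
    |E f F| ≤ a * E W (fun w => |F w|) := by
  classical
  let s := f.coeff.support ∪ W.coeff.support
  have e1 : E f F = ∑ w ∈ s, f.coeff w * F w :=
    Finsupp.sum_of_support_subset _ Finset.subset_union_left _ (by simp)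
  have e2 : E W (fun w => |F w|) = ∑ w ∈ s, W.coeff w * |F w| :=
    Finsupp.sum_of_support_subset _ Finset.subset_union_right _ (by simp)
  rw [e1, e2, Finset.mul_sum]
  refine (Finset.abs_sum_le_sum_abs _ _).trans (Finset.sum_le_sum fun w _ => ?_)
  rw [abs_mul, ← mul_assoc]
  exact mul_le_mul_of_nonneg_right (h w) (abs_nonneg _)

lemma Dom.mul {f g V W : Meas} {a b : ℝ} (hV : Pos V) (ha : 0 ≤ a) (h : Dom f V a)
    (h' : Dom g W b) : Dom (f * g) (V * W) (a * b) := fun w => by
  have hi : ∀ x, 0 ≤ indW w x := fun x => by unfold indW; split <;> simp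
  rw [coeff_eq_E, coeff_eq_E (V * W), E_mul, E_mul]
  refine (h.abs_E_le _).trans ?_
  rw [mul_assoc, ← E_const_mul V b]
  refine mul_le_mul_of_nonneg_left (E_mono_fun hV fun u => ?_) ha
  refine (h'.abs_E_le _).trans (le_of_eq ?_)
  congr 1
  exact E_congr _ fun v _ => abs_of_nonneg (hi _)

lemma Dom.l1_le {f W : Meas} {a : ℝ} (h : Dom f W a) : l1 f ≤ a * mass W := by
  rw [← E_sgn, mass]
  refine (le_abs_self _).trans ((h.abs_E_le _).trans (le_of_eq ?_))
  congr 1
  exact E_congr _ fun w _ => abs_sgn f w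

/-! ### Quadratic bounds -/

lemma NB.nonneg_rhs {f W : Meas} {A : ℝ} (h : NB f W A) (F : Word → ℝ) :
    0 ≤ A * E W (F ^ 2) := (sq_nonneg _).trans (h F)

lemma NB.mono {f W : Meas} {A B : ℝ} (h : NB f W A) (hW : Pos W) (hAB : A ≤ B) : NB f W B :=
  fun F => (h F).trans (mul_le_mul_of_nonneg_right hAB (E_sq_nonneg hW F))

/-- Change of reference measure. -/
lemma NB.change {f W W' : Meas} {A c : ℝ} (h : NB f W A) (hA : 0 ≤ A) (hW : Dom W W' c) :
    NB f W' (A * c) := fun F => by
  have h1 := (le_abs_self _).trans (hW.abs_E_le (F ^ 2))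
  have h2 : E W' (fun w => |(F ^ 2) w|) = E W' (F ^ 2) :=
    E_congr _ fun w _ => by simp
  rw [h2] at h1
  exact (h F).trans (by rw [mul_assoc]; exact mul_le_mul_of_nonneg_left h1 hA)

lemma nb_zero {W : Meas} (hW : Pos W) {A : ℝ} (hA : 0 ≤ A) : NB 0 W A := fun F => by
  simpa [E_zero] using mul_nonneg hA (E_sq_nonneg hW F)

lemma NB.neg {f W : Meas} {A : ℝ} (h : NB f W A) : NB (-f) W A := fun F => by
  rw [E_neg, neg_sq]; exact h F

lemma NB.smul {f W : Meas} {A : ℝ} (h : NB f W A) (c : ℝ) : NB (c • f) W (c ^ 2 * A) :=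
  fun F => by
  rw [E_smul, mul_pow, mul_assoc]; exact mul_le_mul_of_nonneg_left (h F) (sq_nonneg _)

lemma sq_add_le_of_sq_le {x y a b T : ℝ} (ha : 0 ≤ a) (hb : 0 ≤ b) (hT : 0 ≤ T)
    (hx : x ^ 2 ≤ a ^ 2 * T) (hy : y ^ 2 ≤ b ^ 2 * T) : (x + y) ^ 2 ≤ (a + b) ^ 2 * T := by
  have hs := Real.sq_sqrt hT
  have hx' : |x| ≤ a * Real.sqrt T :=
    abs_le_of_sq_le_sq (by rw [mul_pow, hs]; exact hx) (mul_nonneg ha (Real.sqrt_nonneg _))
  have hy' : |y| ≤ b * Real.sqrt T :=
    abs_le_of_sq_le_sq (by rw [mul_pow, hs]; exact hy) (mul_nonneg hb (Real.sqrt_nonneg _))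
  calc (x + y) ^ 2 = |x + y| ^ 2 := (sq_abs _).symm
    _ ≤ (a * Real.sqrt T + b * Real.sqrt T) ^ 2 :=
        pow_le_pow_left₀ (abs_nonneg _) ((abs_add_le _ _).trans (add_le_add hx' hy')) _
    _ = (a + b) ^ 2 * T := by rw [← add_mul, mul_pow, hs]

/-- Triangle inequality. -/
lemma NB.add {f g W : Meas} {a b : ℝ} (hW : Pos W) (ha : 0 ≤ a) (hb : 0 ≤ b)
    (h : NB f W (a ^ 2)) (h' : NB g W (b ^ 2)) : NB (f + g) W ((a + b) ^ 2) := fun F => by
  rw [E_add]; exact sq_add_le_of_sq_le ha hb (E_sq_nonneg hW F) (h F) (h' F)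

lemma NB.sum {ι : Type*} {s : Finset ι} {f : ι → Meas} {W : Meas} {a : ι → ℝ} (hW : Pos W)
    (ha : ∀ i ∈ s, 0 ≤ a i) (h : ∀ i ∈ s, NB (f i) W (a i ^ 2)) :
    NB (∑ i ∈ s, f i) W ((∑ i ∈ s, a i) ^ 2) := by
  classical
  induction s using Finset.induction_on with
  | empty => simpa using nb_zero hW le_rfl
  | insert x s hx ih =>
    simp only [Finset.sum_insert hx]
    exact NB.add hW (ha x (Finset.mem_insert_self _ _))
      (Finset.sum_nonneg fun i hi => ha i (Finset.mem_insert_of_mem hi))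
      (h x (Finset.mem_insert_self _ _))
      (ih (fun i hi => ha i (Finset.mem_insert_of_mem hi))
        (fun i hi => h i (Finset.mem_insert_of_mem hi)))

lemma E_sq_le {W : Meas} (hW : Pos W) (F : Word → ℝ) : (E W F) ^ 2 ≤ mass W * E W (F ^ 2) := by
  simp only [E, mass, Finsupp.sum, mul_one, Pi.pow_apply]
  refine Finset.sum_sq_le_sum_mul_sum_of_sq_le_mul _ (fun w _ => hW w)
    (fun w _ => mul_nonneg (hW w) (sq_nonneg _)) fun w _ => le_of_eq (by ring)

lemma nb_self {W : Meas} (hW : Pos W) : NB W W (mass W) := E_sq_le hW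

lemma nb_one : NB 1 1 1 := by simpa [mass_one] using nb_self pos_one

lemma Dom.nb {f W : Meas} {a : ℝ} (h : Dom f W a) (hW : Pos W) :
    NB f W (a ^ 2 * mass W) := fun F => by
  have h2 := h.abs_E_le F
  calc (E f F) ^ 2 = |E f F| ^ 2 := (sq_abs _).symm
    _ ≤ (a * E W (fun w => |F w|)) ^ 2 := pow_le_pow_left₀ (abs_nonneg _) h2 2
    _ ≤ a ^ 2 * (mass W * E W ((fun w => |F w|) ^ 2)) := by
        rw [mul_pow]; exact mul_le_mul_of_nonneg_left (E_sq_le hW _) (sq_nonneg _)
    _ = a ^ 2 * mass W * E W (F ^ 2) := by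
        rw [← mul_assoc]; congr 1; exact E_congr _ fun w _ => by simp

lemma NB.l1_sq_le {f W : Meas} {A : ℝ} (h : NB f W A) : l1 f ^ 2 ≤ A * mass W := by
  have h1 := h (sgn f)
  rw [E_sgn] at h1
  refine h1.trans (le_of_eq ?_)
  congr 1
  exact E_congr _ fun w _ => by simp [Pi.pow_apply, ← sq_abs (sgn f w), abs_sgn]

lemma NB.l1_le {f W : Meas} {a : ℝ} (h : NB f W (a ^ 2)) (ha : 0 ≤ a) (hW : mass W = 1) :
    l1 f ≤ a :=
  (pow_le_pow_iff_left₀ (l1_nonneg f) ha two_ne_zero).1 (by simpa [hW] using h.l1_sq_le)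

/-- Submultiplicativity. -/
lemma NB.mul {f g V W : Meas} {A B : ℝ} (hV : Pos V) (hW : Pos W) (hA : 0 ≤ A)
    (h : NB f V A) (h' : NB g W B) : NB (f * g) (V * W) (A * B) := fun F => by
  rw [E_mul, E_mul]
  refine (h _).trans ?_
  rw [mul_assoc, ← E_const_mul V B]
  exact mul_le_mul_of_nonneg_left (E_mono_fun hV fun u => h' fun v => F (u * v)) hA

/-- Orthogonality: `U₁ * Y` is orthogonal to `v * X` when `v` has mass zero. -/
lemma NB.orth {U₁ U₂ v X Y : Meas} {A B C : ℝ} (h1 : Pos U₁) (h2 : Pos U₂) (m1 : mass U₁ = 1)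
    (mv : mass v = 0) (hA : 0 ≤ A) (hB : 0 ≤ B) (hC : 0 ≤ C)
    (hv : NB v U₁ A) (hX : NB X U₂ B) (hY : NB Y U₂ C) :
    NB (U₁ * Y + v * X) (U₁ * U₂) (A * B + C) := fun F => by
  obtain ⟨G, hG⟩ : ∃ G : Word → ℝ, ∀ b, G b = E U₁ (fun u => F (u * b)) := ⟨_, fun _ => rfl⟩
  set T := E (U₁ * U₂) (F ^ 2)
  set S := E U₂ (G ^ 2)
  have eY : E (U₁ * Y) F = E Y G := by
    rw [E_mul, E_swap]; exact E_congr _ fun b _ => (hG b).symm
  have eX : E (v * X) F = E X (fun b => E v (fun u => F (u * b) - G b)) := by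
    rw [E_mul, E_swap]
    exact E_congr _ fun b _ => by rw [E_sub_fun, E_const, mv]; ring
  obtain ⟨D, hD⟩ : ∃ D : Word → ℝ,
      ∀ b, D b = E U₁ ((fun u => F (u * b) - G b) ^ 2) := ⟨_, fun _ => rfl⟩
  have hDe : ∀ b, D b = E U₁ (fun u => (F ^ 2) (u * b)) - G b ^ 2 := by
    intro b
    have : ((fun u => F (u * b) - G b) ^ 2) =
        fun u => ((F ^ 2) (u * b) - (2 * G b) * F (u * b)) + G b ^ 2 := by
      funext u; simp only [Pi.pow_apply]; ring
    rw [hD, this, E_add_fun, E_sub_fun, E_const_mul, E_const, m1, ← hG]; ring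
  have hT : T = E U₂ D + S := by
    simp only [T, S]
    rw [E_mul, E_swap, ← E_add_fun]
    exact E_congr _ fun b _ => by simp [hDe]
  have hx2 : (E (v * X) F) ^ 2 ≤ (A * B) * E U₂ D := by
    rw [eX, mul_comm A B, mul_assoc, ← E_const_mul U₂ A]
    refine (hX _).trans (mul_le_mul_of_nonneg_left (E_mono_fun h2 fun b => ?_) hB)
    rw [hD]; exact hv _
  have hy2 : (E (U₁ * Y) F) ^ 2 ≤ C * S := by rw [eY]; exact hY G
  have hS : 0 ≤ S := E_sq_nonneg h2 G
  have hP : 0 ≤ E U₂ D := E_nonneg h2 fun b => by rw [hD]; exact E_sq_nonneg h1 _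
  rw [E_add, hT]
  generalize E (v * X) F = x at *
  generalize E (U₁ * Y) F = y at *
  generalize E U₂ D = P at *
  have hxy : (x * y) ^ 2 ≤ ((A * B) * P) * (C * S) := by
    rw [mul_pow]; exact mul_le_mul hx2 hy2 (sq_nonneg _) (mul_nonneg (mul_nonneg hA hB) hP)
  have h2xy : 2 * (x * y) ≤ (A * B) * S + C * P := by
    have h3 : |2 * (x * y)| ≤ (A * B) * S + C * P :=
      abs_le_of_sq_le_sq (by nlinarith [hxy, sq_nonneg ((A * B) * S - C * P)])
        (add_nonneg (mul_nonneg (mul_nonneg hA hB) hS) (mul_nonneg hC hP))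
    exact (le_abs_self _).trans h3
  nlinarith

/-- Adding a mass-zero part to the reference measure. -/
lemma NB.add_self {v W : Meas} {A : ℝ} (hW : Pos W) (mW : mass W = 1) (mv : mass v = 0)
    (hA : 0 ≤ A) (h : NB v W A) : NB (W + v) W (1 + A) := by
  simpa [add_comm] using NB.orth hW pos_one mW mv hA zero_le_one zero_le_one h nb_one nb_one

/-- Orthogonality of translates with separated windows. -/
lemma NB.bessel {G : Meas} (hG : Pos G) (mG : mass G = 1) {w : ℕ} {v X : ℕ → Meas} {A B : ℕ → ℝ}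
    (s : Finset ℕ) (M : ℕ) (hsep : ∀ i ∈ s, ∀ j ∈ s, i < j → i + w ≤ j)
    (hM : ∀ i ∈ s, i + w ≤ M) (mv : ∀ i ∈ s, mass (v i) = 0)
    (hA : ∀ i ∈ s, 0 ≤ A i) (hB : ∀ i ∈ s, 0 ≤ B i)
    (hv : ∀ i ∈ s, NB (v i) (G ^ w) (A i))
    (hX : ∀ i ∈ s, NB (X i) (G ^ (M - i - w)) (B i)) :
    NB (∑ i ∈ s, G ^ i * v i * X i) (G ^ M) (∑ i ∈ s, A i * B i) := by
  classical
  suffices key : ∀ o, (∀ i ∈ s, o ≤ i) → NB (∑ i ∈ s, G ^ (i - o) * v i * X i) (G ^ (M - o))
      (∑ i ∈ s, A i * B i) by simpa using key 0 fun i _ => Nat.zero_le i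
  induction s using Finset.induction_on_min with
  | empty => intro o _; simpa using nb_zero (hG.pow _) le_rfl
  | insert a s ha ih =>
    intro o ho
    have has : a ∉ s := fun h => lt_irrefl a (ha a h)
    have ain := Finset.mem_insert_self a s
    have hoa : o ≤ a := ho a ain
    have hwa : a + w ≤ M := hM a ain
    have sub : ∀ {i}, i ∈ s → i ∈ insert a s := fun h => Finset.mem_insert_of_mem h
    have hlow : ∀ i ∈ s, a + w ≤ i := fun i hi => hsep a ain i (sub hi) (ha i hi)
    have hrec := ih (fun i hi j hj => hsep i (sub hi) j (sub hj)) (fun i hi => hM i (sub hi))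
      (fun i hi => mv i (sub hi)) (fun i hi => hA i (sub hi)) (fun i hi => hB i (sub hi))
      (fun i hi => hv i (sub hi)) (fun i hi => hX i (sub hi)) (a + w) hlow
    have hr : M - (a + w) = M - a - w := by omega
    rw [hr] at hrec
    have key := NB.orth (hG.pow w) (hG.pow (M - a - w)) (by rw [mass_pow, mG, one_pow])
      (mv a ain) (hA a ain) (hB a ain)
      (Finset.sum_nonneg fun i hi => mul_nonneg (hA i (sub hi)) (hB i (sub hi)))
      (hv a ain) (hX a ain) hrec
    have key2 := NB.mul (hG.pow (a - o)) ((hG.pow w).mul (hG.pow (M - a - w)))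
      (hG.pow _).mass_nonneg (nb_self (hG.pow (a - o))) key
    rw [mass_pow, mG, one_pow, one_mul] at key2
    have eW : G ^ (a - o) * (G ^ w * G ^ (M - a - w)) = G ^ (M - o) := by
      rw [← pow_add, ← pow_add]; congr 1; omega
    rw [eW] at key2
    have eS : ∑ i ∈ insert a s, G ^ (i - o) * v i * X i = G ^ (a - o) *
        (G ^ w * (∑ i ∈ s, G ^ (i - (a + w)) * v i * X i) + v a * X a) := by
      rw [Finset.sum_insert has, mul_add, ← mul_assoc, ← pow_add, Finset.mul_sum, add_comm,
        ← mul_assoc]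
      congr 1
      refine Finset.sum_congr rfl fun i hi => ?_
      rw [← mul_assoc, ← mul_assoc, ← pow_add]
      have := hlow i hi
      congr 3; omega
    rw [eS, Finset.sum_insert has]
    exact key2

/-- A product of perturbations of probability measures. -/
lemma NB.prod_sub {G v : ℕ → Meas} {A : ℕ → ℝ} (n : ℕ) (hG : ∀ i, Pos (G i))
    (mG : ∀ i, mass (G i) = 1) (mv : ∀ i, mass (v i) = 0) (hA : ∀ i, 0 ≤ A i)
    (hv : ∀ i, NB (v i) (G i) (A i)) :
    NB (((List.range n).map fun i => G i + v i).prod - ((List.range n).map G).prod)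
      ((List.range n).map G).prod ((∏ i ∈ Finset.range n, (1 + A i)) - 1) := by
  induction n generalizing G v A with
  | zero => simpa using nb_zero pos_one le_rfl
  | succ n ih =>
    have hrec := @ih (fun i => G (i + 1)) (fun i => v (i + 1)) (fun i => A (i + 1))
      (fun i => hG _) (fun i => mG _) (fun i => mv _) (fun i => hA _) (fun i => hv _)
    rw [Finset.prod_range_succ', List.range_succ_eq_map]
    simp only [List.map_cons, List.prod_cons, List.map_map, Function.comp_def]
    set P := ((List.range n).map fun i => G (i + 1) + v (i + 1)).prod with hP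
    set Q := ((List.range n).map fun i => G (i + 1)).prod with hQ
    set R := ∏ i ∈ Finset.range n, (1 + A (i + 1))
    have hR : 1 ≤ R := Finset.one_le_prod fun i _ => le_add_of_nonneg_right (hA _)
    have qpos : Pos Q := by
      refine List.prod_induction Pos (fun _ _ => Pos.mul) pos_one fun x hx => ?_
      simp only [List.mem_map] at hx; obtain ⟨i, -, rfl⟩ := hx; exact hG _
    have qmass : mass Q = 1 := by
      refine List.prod_induction (fun x => mass x = 1) ?_ mass_one fun x hx => ?_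
      · intro a b ha hb; rw [mass_mul, ha, hb, one_mul]
      · simp only [List.mem_map] at hx; obtain ⟨i, -, rfl⟩ := hx; exact mG _
    have pmass : mass P = 1 := by
      refine List.prod_induction (fun x => mass x = 1) ?_ mass_one fun x hx => ?_
      · intro a b ha hb; rw [mass_mul, ha, hb, one_mul]
      · simp only [List.mem_map] at hx; obtain ⟨i, -, rfl⟩ := hx; rw [mass_add, mG, mv, add_zero]
    have hPQ : mass (P - Q) = 0 := by rw [mass_sub, pmass, qmass, sub_self]
    have hPb : NB P Q (1 + (R - 1)) := by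
      simpa using NB.add_self qpos qmass hPQ (by linarith) hrec
    have key := NB.orth (hG 0) qpos (mG 0) (mv 0) (hA 0) (by linarith) (by linarith)
      (hv 0) hPb hrec
    have e : (G 0 + v 0) * P - G 0 * Q = G 0 * (P - Q) + v 0 * P := by noncomm_ring
    rw [e]
    refine key.mono ((hG 0).mul qpos) (le_of_eq ?_)
    ring

/-- A dominated measure that is `l1`-close to a bounded one is bounded. -/
lemma NB.of_dom_close {f g W : Meas} {A lam e : ℝ} (hW : Pos W) (hl : 0 ≤ lam) (hA : 0 ≤ A)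
    (h : Dom f W lam) (hg : NB g W A) (he : l1 (f - g) ≤ e) : NB f W (A + 2 * lam * e) := by
  classical
  obtain ⟨D, hD⟩ : ∃ D : Word → ℝ, ∀ w, D w = f.coeff w / W.coeff w := ⟨_, fun _ => rfl⟩
  have key : ∀ w, f.coeff w = W.coeff w * D w := by
    intro w
    rw [hD]
    rcases eq_or_ne (W.coeff w) 0 with h0 | h0
    · have h1 := h w; rw [h0, mul_zero, abs_nonpos_iff] at h1; simp [h0, h1]
    · field_simp
  have hsub : f.coeff.support ⊆ W.coeff.support := fun w hw => by
    simp only [Finsupp.mem_support_iff] at hw ⊢; intro h0; exact hw (by rw [key w, h0, zero_mul])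
  have hEf : ∀ F : Word → ℝ, E f F = E W (fun w => D w * F w) := by
    intro F
    rw [E, Finsupp.sum_of_support_subset _ hsub _ (by simp)]
    exact Finset.sum_congr rfl fun w _ => by rw [key w, mul_assoc]
  set S := E W (D ^ 2)
  have hS : E f D = S := by rw [hEf]; exact E_congr _ fun w _ => (sq (D w)).symm
  have hDb : ∀ w, |D w| ≤ lam := by
    intro w; rw [hD]
    rcases (hW w).eq_or_lt with h0 | h0
    · simp [← h0, hl]
    · rw [abs_div, abs_of_pos h0, div_le_iff₀ h0]; exact h w
  have h1 : |E (f - g) D| ≤ lam * e :=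
    (abs_E_le _ hDb).trans (mul_le_mul_of_nonneg_left he hl)
  rw [E_sub, hS] at h1
  have h2 : (E g D) ^ 2 ≤ A * S := hg D
  have hS0 : 0 ≤ S := E_sq_nonneg hW D
  have hle : 0 ≤ lam * e := le_trans (abs_nonneg _) h1
  have hS2 : S ≤ A + 2 * lam * e := by
    have h3 := (abs_le.1 h1).2
    by_contra hc
    push Not at hc
    have h4 : S - lam * e ≤ E g D := by linarith
    have h5 : (S - lam * e) ^ 2 ≤ A * S :=
      (pow_le_pow_left₀ (by linarith) h4 2).trans h2
    nlinarith
  intro F
  rw [hEf]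
  calc (E W fun w => D w * F w) ^ 2 ≤ S * E W (F ^ 2) := by
        simp only [S, E, Finsupp.sum, Pi.pow_apply]
        exact Finset.sum_sq_le_sum_mul_sum_of_sq_le_mul _ (fun w _ => mul_nonneg (hW w) (sq_nonneg _))
          (fun w _ => mul_nonneg (hW w) (sq_nonneg _)) fun w _ => le_of_eq (by ring)
    _ ≤ (A + 2 * lam * e) * E W (F ^ 2) :=
        mul_le_mul_of_nonneg_right hS2 (E_sq_nonneg hW F)

end Vale.Agent.P321

namespace Vale.Agent.P321

/-! ### Consequences -/

lemma NB.sum_card {ι : Type*} {s : Finset ι} {f : ι → Meas} {W : Meas} {A : ι → ℝ}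
    (h : ∀ i ∈ s, NB (f i) W (A i)) :
    NB (∑ i ∈ s, f i) W (s.card * ∑ i ∈ s, A i) := fun F => by
  rw [E_finset_sum, mul_assoc, Finset.sum_mul]
  exact sq_sum_le_card_mul_sum_sq.trans
    (mul_le_mul_of_nonneg_left (Finset.sum_le_sum fun i hi => h i hi F) (Nat.cast_nonneg _))

lemma NB.pow_sub {W v : Meas} {A : ℝ} (hW : Pos W) (mW : mass W = 1) (mv : mass v = 0)
    (hA : 0 ≤ A) (h : NB v W A) (n : ℕ) :
    NB ((W + v) ^ n - W ^ n) (W ^ n) ((1 + A) ^ n - 1) := by
  simpa using NB.prod_sub (G := fun _ => W) (v := fun _ => v) (A := fun _ => A) n (fun _ => hW)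
    (fun _ => mW) (fun _ => mv) (fun _ => hA) (fun _ => h)

lemma NB.pow {f W : Meas} {A : ℝ} (hW : Pos W) (hA : 0 ≤ A) (h : NB f W A) (n : ℕ) :
    NB (f ^ n) (W ^ n) (A ^ n) := by
  induction n with
  | zero => simpa using nb_one
  | succ n ih =>
    rw [pow_succ, pow_succ, pow_succ]
    exact NB.mul (hW.pow n) hW (pow_nonneg hA n) ih h

lemma Dom.pow {f W : Meas} {a : ℝ} (hW : Pos W) (ha : 0 ≤ a) (h : Dom f W a) (n : ℕ) :
    Dom (f ^ n) (W ^ n) (a ^ n) := by
  induction n with
  | zero => simpa using Dom.refl pos_one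
  | succ n ih => rw [pow_succ, pow_succ, pow_succ]; exact Dom.mul (hW.pow n) (pow_nonneg ha n) ih h

/-- Orthogonality of translates: a translate average of a part of length `len`. -/
lemma NB.translates {G : Meas} (hG : Pos G) (mG : mass G = 1) {f : Meas} {len o M S : ℕ}
    {a B : ℝ} (c : ℕ → ℝ) (X : ℕ → Meas) (hlen : 0 < len) (mf : mass f = 0) (ha : 0 ≤ a)
    (hB : 0 ≤ B) (hf : NB f (G ^ len) a) (hM : ∀ s < S, o + s + len ≤ M)
    (hX : ∀ s < S, NB (X s) (G ^ (M - (o + s) - len)) B) :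
    NB (∑ s ∈ Finset.range S, c s • (G ^ (o + s) * f * X s)) (G ^ M)
      (len * (a * B * ∑ s ∈ Finset.range S, c s ^ 2)) := by
  classical
  have hfib : ∀ s ∈ Finset.range S, s % len ∈ Finset.range len :=
    fun s _ => Finset.mem_range.2 (Nat.mod_lt _ hlen)
  have key : ∀ r ∈ Finset.range len,
      NB (∑ s ∈ Finset.range S with s % len = r, c s • (G ^ (o + s) * f * X s)) (G ^ M)
        (a * B * ∑ s ∈ Finset.range S with s % len = r, c s ^ 2) := by
    intro r _
    set t := (Finset.range S).filter (fun s => s % len = r)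
    have hinj : Set.InjOn (fun s => o + s) (t : Set ℕ) := fun x _ y _ h => Nat.add_left_cancel h
    have hb := NB.bessel hG mG (w := len) (v := fun i => c (i - o) • f) (X := fun i => X (i - o))
      (A := fun i => c (i - o) ^ 2 * a) (B := fun _ => B) (t.image (fun s => o + s)) M
      (by
        intro i hi j hj hij
        simp only [t, Finset.mem_image, Finset.mem_filter] at hi hj
        obtain ⟨x, ⟨-, hx⟩, rfl⟩ := hi; obtain ⟨y, ⟨-, hy⟩, rfl⟩ := hj
        have hxy : len ∣ y - x := (Nat.modEq_iff_dvd' (by omega)).1 (hx.trans hy.symm)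
        have := Nat.le_of_dvd (by omega) hxy
        omega)
      (by
        intro i hi
        simp only [t, Finset.mem_image, Finset.mem_filter, Finset.mem_range] at hi
        obtain ⟨x, ⟨hx, -⟩, rfl⟩ := hi; exact hM x hx)
      (fun i _ => by rw [mass_smul, mf, mul_zero])
      (fun i _ => mul_nonneg (sq_nonneg _) ha) (fun i _ => hB)
      (fun i _ => hf.smul _)
      (by
        intro i hi
        simp only [t, Finset.mem_image, Finset.mem_filter, Finset.mem_range] at hi
        obtain ⟨x, ⟨hx, -⟩, rfl⟩ := hi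
        simpa using hX x hx)
    rw [Finset.sum_image hinj, Finset.sum_image hinj] at hb
    simp only [add_tsub_cancel_left, Algebra.mul_smul_comm, Algebra.smul_mul_assoc] at hb
    refine hb.mono (hG.pow M) (le_of_eq ?_)
    rw [Finset.mul_sum]
    exact Finset.sum_congr rfl fun s _ => by ring
  have h2 := NB.sum_card key
  rw [Finset.sum_fiberwise_of_maps_to hfib, ← Finset.mul_sum,
    Finset.sum_fiberwise_of_maps_to hfib, Finset.card_range] at h2
  exact h2

lemma l1_mul_sub_mul (f g f' g' : Meas) :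
    l1 (f * g - f' * g') ≤ l1 (f - f') * l1 g + l1 f' * l1 (g - g') := by
  have e : f * g - f' * g' = (f - f') * g + f' * (g - g') := by noncomm_ring
  rw [e]; exact (l1_add_le _ _).trans (add_le_add (l1_mul_le _ _) (l1_mul_le _ _))

lemma l1_pow_sub_pow {f g : Meas} (hf : l1 f ≤ 1) (hg : l1 g ≤ 1) (n : ℕ) :
    l1 (f ^ n - g ^ n) ≤ n * l1 (f - g) := by
  induction n with
  | zero => simp [l1_zero]
  | succ n ih =>
    rw [pow_succ, pow_succ]
    refine (l1_mul_sub_mul _ _ _ _).trans ?_
    have h1 : l1 (f ^ n - g ^ n) * l1 f ≤ n * l1 (f - g) :=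
      (mul_le_of_le_one_right (l1_nonneg _) hf).trans ih
    have h2 : l1 (g ^ n) * l1 (f - g) ≤ l1 (f - g) :=
      mul_le_of_le_one_left (l1_nonneg _) ((l1_pow_le g n).trans (pow_le_one₀ (l1_nonneg _) hg))
    push_cast; linarith

lemma l1_prod_sub_prod {f g : ℕ → Meas} (hf : ∀ i, l1 (f i) ≤ 1) (hg : ∀ i, l1 (g i) ≤ 1)
    (n : ℕ) : l1 (((List.range n).map f).prod - ((List.range n).map g).prod)
      ≤ ∑ i ∈ Finset.range n, l1 (f i - g i) := by
  induction n with
  | zero => simp [l1_zero]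
  | succ n ih =>
    rw [List.range_succ, List.map_append, List.map_append, List.prod_append, List.prod_append,
      Finset.sum_range_succ]
    simp only [List.map_cons, List.map_nil, List.prod_cons, List.prod_nil, mul_one]
    refine (l1_mul_sub_mul _ _ _ _).trans ?_
    have hG : l1 ((List.range n).map g).prod ≤ 1 := by
      refine List.prod_induction (fun x => l1 x ≤ 1) ?_ ?_ fun x hx => ?_
      · intro a b ha hb; exact (l1_mul_le _ _).trans (mul_le_one₀ ha (l1_nonneg _) hb)
      · simp [pos_one.l1_eq, mass_one]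
      · simp only [List.mem_map] at hx; obtain ⟨i, -, rfl⟩ := hx; exact hg _
    have h1 := (mul_le_of_le_one_right (l1_nonneg (((List.range n).map f).prod -
      ((List.range n).map g).prod)) (hf n)).trans ih
    have h2 := mul_le_of_le_one_left (l1_nonneg (f n - g n)) hG
    linarith

/-! ### The deletion channel -/

/-- The law of the trace of one bit. -/
noncomputable def chBit (q : ℝ) (b : Bool) : Meas :=
  q • (1 : Meas) + MonoidAlgebra.single (FreeMonoid.of b) (1 - q)

/-- The law of a trace of the word `x`. -/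
noncomputable def chLaw (q : ℝ) (x : List Bool) : Meas := (x.map (chBit q)).prod

lemma chLaw_append (q : ℝ) (x y : List Bool) : chLaw q (x ++ y) = chLaw q x * chLaw q y := by
  simp [chLaw]

lemma mass_chBit (q : ℝ) (b : Bool) : mass (chBit q b) = 1 := by
  rw [chBit, mass_add, mass_smul, mass_one, mass, E_single]; ring

lemma pos_chBit {q : ℝ} (h0 : 0 ≤ q) (h1 : q ≤ 1) (b : Bool) : Pos (chBit q b) :=
  (pos_one.smul h0).add (pos_single (sub_nonneg.2 h1))

lemma mass_chLaw (q : ℝ) (x : List Bool) : mass (chLaw q x) = 1 := by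
  induction x with
  | nil => simpa [chLaw] using mass_one
  | cons b x ih =>
    simp only [chLaw, List.map_cons, List.prod_cons, mass_mul, mass_chBit, one_mul]
    exact ih

lemma pos_chLaw {q : ℝ} (h0 : 0 ≤ q) (h1 : q ≤ 1) (x : List Bool) : Pos (chLaw q x) := by
  induction x with
  | nil => simpa [chLaw] using pos_one
  | cons b x ih =>
    simp only [chLaw, List.map_cons, List.prod_cons]
    exact (pos_chBit h0 h1 b).mul ih

lemma l1_chLaw {q : ℝ} (h0 : 0 ≤ q) (h1 : q ≤ 1) (x : List Bool) : l1 (chLaw q x) = 1 := by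
  rw [(pos_chLaw h0 h1 x).l1_eq, mass_chLaw]

end Vale.Agent.P321
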