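import Vale.Agent.P321.Basic

/-!
# P321: smoothing of binomial mixtures, and smoothing from an overlap

`smooth_of_overlap`: if `c` is the common part of `G ^ N` and `G ^ (N + 1)` then
`c * (1 + G) / 2 ≤ G ^ (N + 1)`, so high powers of `G` contain many lazy steps.
-/

open Finset

noncomputable section

namespace Vale.Agent.P321

/-- Binomial weight. -/
def bnw (N : ℕ) (θ : ℝ) (k : ℕ) : ℝ := N.choose k * θ ^ k * (1 - θ) ^ (N - k)

namespace Smoothing

lemma bnw_nonneg {θ : ℝ} (h0 : 0 ≤ θ) (h1 : θ ≤ 1) (N k : ℕ) : 0 ≤ bnw N θ k :=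
  mul_nonneg (mul_nonneg (Nat.cast_nonneg _) (pow_nonneg h0 _)) (pow_nonneg (sub_nonneg.2 h1) _)

lemma bnw_eq_zero {θ : ℝ} {N k : ℕ} (h : N < k) : bnw N θ k = 0 := by
  simp [bnw, Nat.choose_eq_zero_of_lt h]

lemma bnw_sum (N : ℕ) (θ : ℝ) : ∑ k ∈ range (N + 1), bnw N θ k = 1 := by
  have h := add_pow θ (1 - θ) N
  rw [add_sub_cancel, one_pow] at h
  rw [h]
  exact sum_congr rfl fun k _ => by rw [bnw]; ring

lemma bnw_var (N : ℕ) (θ : ℝ) :
    ∑ k ∈ range (N + 1), bnw N θ k * ((k : ℝ) - N * θ) ^ 2 = N * (θ * (1 - θ)) := by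
  have h := congrArg (Polynomial.eval θ) (bernsteinPolynomial.variance ℝ N)
  simp only [bernsteinPolynomial, Polynomial.eval_finsetSum, Polynomial.eval_mul,
    Polynomial.eval_pow, Polynomial.eval_sub, Polynomial.eval_X, Polynomial.eval_one,
    Polynomial.eval_natCast, nsmul_eq_mul] at h
  rw [← mul_assoc, ← h]
  exact sum_congr rfl fun k _ => by rw [bnw]; ring

lemma bnw_diff (N k : ℕ) (θ : ℝ) (hk : k ≤ N + 1) :
    ((if k = 0 then 0 else bnw N θ (k - 1)) - bnw N θ k) * ((N + 1) * (θ * (1 - θ))) =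
      bnw (N + 1) θ k * (k - (N + 1) * θ) := by
  cases k with
  | zero => simp [bnw, pow_succ]; ring
  | succ j =>
    have c1 : ((N : ℝ) + 1) * (N.choose j : ℝ) = ((N + 1).choose (j + 1) : ℝ) * (j + 1) := by
      exact_mod_cast Nat.add_one_mul_choose_eq N j
    have c2 : ((N + 1).choose (j + 1) : ℝ) = (N.choose j : ℝ) + (N.choose (j + 1) : ℝ) := by
      exact_mod_cast Nat.choose_succ_succ' N j
    simp only [Nat.succ_ne_zero, if_false, Nat.sub_zero, bnw, Nat.succ_sub_succ]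
    rcases eq_or_lt_of_le (Nat.le_of_succ_le_succ hk) with rfl | hlt
    · simp only [Nat.choose_self, Nat.choose_succ_self, Nat.sub_self, pow_zero, pow_succ]
      push_cast
      ring
    · obtain ⟨m, rfl⟩ : ∃ m, N = j + 1 + m := Nat.exists_eq_add_of_le hlt
      rw [show j + 1 + m - j = m + 1 by omega, show j + 1 + m - (j + 1) = m by omega]
      simp only [pow_succ]
      push_cast at c1 ⊢
      linear_combination (θ * θ ^ j * (1 - θ) * (1 - θ) ^ m) *
        (c1 + ((j : ℝ) + 1 + m + 1) * θ * c2)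

lemma abs_dev_le (M : ℕ) {θ : ℝ} (h0 : 0 ≤ θ) (h1 : θ ≤ 1) :
    ∑ k ∈ range (M + 1), bnw M θ k * |(k : ℝ) - M * θ| ≤ Real.sqrt (M * (θ * (1 - θ))) := by
  have h := Finset.sum_mul_sq_le_sq_mul_sq (range (M + 1)) (fun k => Real.sqrt (bnw M θ k))
    (fun k => Real.sqrt (bnw M θ k) * |(k : ℝ) - M * θ|)
  simp only [mul_pow, sq_abs, Real.sq_sqrt (bnw_nonneg h0 h1 M _), ← mul_assoc,
    Real.mul_self_sqrt (bnw_nonneg h0 h1 M _), bnw_sum, bnw_var, one_mul] at h
  exact Real.le_sqrt_of_sq_le (h.trans_eq (mul_assoc _ _ _))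

lemma L1_sum {ι : Type*} {S : Finset ι} {f : ι → Meas} {a : ι → ℝ} (h : ∀ i ∈ S, L1 (f i) (a i)) :
    L1 (∑ i ∈ S, f i) (∑ i ∈ S, a i) := (l1_sum_le S f).trans (sum_le_sum h)

lemma L1_smul {f : Meas} {a : ℝ} (hf : L1 f a) (c : ℝ) : L1 (c • f) (|c| * a) :=
  (l1_smul c f).trans (mul_le_mul_of_nonneg_left hf (abs_nonneg c))

lemma L1_prob {G : Meas} (hG : Prob G) : L1 G 1 := (hG.1.l1_eq.trans hG.2).le

lemma pos_of_forall {f : Meas} (h : ∀ F : Word → ℝ, (∀ w, 0 ≤ F w) → 0 ≤ E f F) : Pos f :=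
  fun w => by
    rw [coeff_eq_E]
    refine h _ fun u => ?_
    unfold indW
    split <;> norm_num

lemma lazy_expand (θ : ℝ) (Q : Meas) (N : ℕ) :
    ((1 - θ) • (1 : Meas) + θ • Q) ^ N = ∑ k ∈ range (N + 1), bnw N θ k • Q ^ k := by
  rw [add_comm ((1 - θ) • (1 : Meas)), (((Commute.one_right Q).smul_left θ).smul_right (1 - θ)).add_pow]
  refine sum_congr rfl fun k _ => ?_
  rw [_root_.smul_pow, _root_.smul_pow, one_pow, smul_mul_smul_comm, mul_one, smul_mul_assoc,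
    ← (Nat.cast_commute _ _).eq, ← nsmul_eq_mul, ← Nat.cast_smul_eq_nsmul ℝ, smul_smul, bnw]
  congr 1
  ring

lemma lazy_diff (θ : ℝ) (Q : Meas) (N : ℕ) :
    ((1 - θ) • (1 : Meas) + θ • Q) ^ N * (1 - Q) =
      ∑ k ∈ range (N + 2), (bnw N θ k - if k = 0 then 0 else bnw N θ (k - 1)) • Q ^ k := by
  rw [lazy_expand, mul_sub, mul_one, sum_mul]
  simp only [sub_smul, sum_sub_distrib]
  rw [sum_range_succ _ (N + 1), bnw_eq_zero (Nat.lt_succ_self N), zero_smul, add_zero,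
    sum_range_succ' _ (N + 1)]
  simp [pow_succ]

/-- Smoothing by a lazy step. -/
lemma lazy_L1 {θ : ℝ} {Q : Meas} (hQ : Prob Q) (N : ℕ)
    (hshift : ∑ k ∈ range (N + 2), |(if k = 0 then 0 else bnw N θ (k - 1)) - bnw N θ k| ≤
      1 / Real.sqrt ((N + 1) * (θ * (1 - θ)))) :
    L1 (((1 - θ) • (1 : Meas) + θ • Q) ^ N * (1 - Q)) (1 / Real.sqrt ((N + 1) * (θ * (1 - θ)))) := by
  rw [lazy_diff]
  refine le_trans (L1_sum fun k _ => L1_smul (L1_prob (hQ.pow k)) _) (le_trans ?_ hshift)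
  exact le_of_eq (sum_congr rfl fun k _ => by rw [mul_one, abs_sub_comm])

lemma sum_binom_inv_le {s : ℝ} (hs : 0 < s) (hs1 : s ≤ 1) (K : ℕ) :
    ∑ i ∈ range (K + 1), bnw K s i / ((i : ℝ) + 1) ≤ 1 / (((K : ℝ) + 1) * s) := by
  have hK : (0 : ℝ) < ((K : ℝ) + 1) * s := by positivity
  rw [le_div_iff₀ hK, sum_mul]
  calc ∑ i ∈ range (K + 1), bnw K s i / ((i : ℝ) + 1) * (((K : ℝ) + 1) * s)
      = ∑ i ∈ range (K + 1), bnw (K + 1) s (i + 1) := by
        refine sum_congr rfl fun i _ => ?_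
        have h1 : ((K : ℝ) + 1) * (K.choose i : ℝ) = ((K + 1).choose (i + 1) : ℝ) * ((i : ℝ) + 1) := by
          exact_mod_cast Nat.add_one_mul_choose_eq K i
        rw [bnw, bnw, Nat.succ_sub_succ, pow_succ, div_mul_eq_mul_div,
          div_eq_iff (by positivity : (i : ℝ) + 1 ≠ 0)]
        linear_combination (s ^ i * (1 - s) ^ (K - i) * s) * h1
    _ ≤ ∑ i ∈ range (K + 2), bnw (K + 1) s i := by
        rw [sum_range_succ' _ (K + 1)]
        linarith [bnw_nonneg hs.le hs1 (K + 1) 0]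
    _ = 1 := bnw_sum _ _

end Smoothing

open Smoothing

theorem bnw_shift {θ : ℝ} (h0 : 0 < θ) (h1 : θ < 1) (N : ℕ) :
    ∑ k ∈ Finset.range (N + 2), |(if k = 0 then 0 else bnw N θ (k - 1)) - bnw N θ k| ≤
      1 / Real.sqrt ((N + 1) * (θ * (1 - θ))) := by
  have hv : 0 < ((N : ℝ) + 1) * (θ * (1 - θ)) := by
    have := mul_pos h0 (sub_pos.2 h1); positivity
  have hdev := abs_dev_le (N + 1) h0.le h1.le
  push_cast at hdev
  calc _ = ∑ k ∈ range (N + 1 + 1),
        bnw (N + 1) θ k * |(k : ℝ) - (N + 1) * θ| / ((N + 1) * (θ * (1 - θ))) := by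
        refine sum_congr rfl fun k hk => ?_
        rw [eq_div_iff hv.ne', ← abs_of_pos hv, ← abs_mul,
          bnw_diff N k θ (Nat.lt_succ_iff.1 (mem_range.1 hk)), abs_mul,
          abs_of_nonneg (bnw_nonneg h0.le h1.le _ _)]
    _ ≤ Real.sqrt ((N + 1) * (θ * (1 - θ))) / ((N + 1) * (θ * (1 - θ))) := by
        rw [← sum_div]; exact div_le_div_of_nonneg_right hdev hv.le
    _ = _ := Real.sqrt_div_self'

theorem bnw_le {θ : ℝ} (h0 : 0 < θ) (h1 : θ < 1) (N k : ℕ) :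
    bnw N θ k ≤ 1 / Real.sqrt ((N + 1) * (θ * (1 - θ))) := by
  rcases lt_or_ge N k with hk | hk
  · rw [bnw_eq_zero hk]; positivity
  refine le_trans ?_ (bnw_shift h0 h1 N)
  have htel : bnw N θ k =
      ∑ j ∈ range (k + 1), -((if j = 0 then 0 else bnw N θ (j - 1)) - bnw N θ j) := by
    clear hk
    induction k with
    | zero => simp
    | succ m ih => rw [sum_range_succ, ← ih]; simp
  rw [htel]
  exact (sum_le_sum fun j _ => neg_le_abs _).trans (sum_le_sum_of_subset_of_nonneg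
    (range_subset_range.2 (by omega)) fun _ _ _ => abs_nonneg _)

theorem bnw_tail {θ : ℝ} (h0 : 0 < θ) (h1 : θ < 1) (N : ℕ) {R : ℝ} (hR : 0 < R)
    (S : Finset ℕ) (hS : ∀ k ∈ S, R ≤ |(k : ℝ) - θ * N|) :
    ∑ k ∈ S, bnw N θ k ≤ N * (θ * (1 - θ)) / R ^ 2 := by
  rw [le_div_iff₀ (by positivity), sum_mul, ← bnw_var N θ]
  have hnn : ∀ k, 0 ≤ bnw N θ k * ((k : ℝ) - N * θ) ^ 2 :=
    fun k => mul_nonneg (bnw_nonneg h0.le h1.le _ _) (sq_nonneg _)
  refine le_trans (sum_le_sum fun k hk => mul_le_mul_of_nonneg_left ?_ (bnw_nonneg h0.le h1.le N k))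
    (le_trans (sum_le_sum_of_subset_of_nonneg (subset_union_left (s₂ := range (N + 1)))
      fun k _ _ => hnn k) (le_of_eq ?_))
  · rw [mul_comm (N : ℝ), ← sq_abs ((k : ℝ) - θ * N)]
    exact pow_le_pow_left₀ hR.le (hS k hk) 2
  · refine (sum_subset subset_union_right fun k _ hk => ?_).symm
    rw [mem_range, not_lt] at hk
    rw [bnw_eq_zero hk, zero_mul]

/-- `01` is a mixture of the empty word and a law `Q`, and one `1` is dominated by `Q`. -/
theorem bg_split {q : ℝ} (h0 : 0 < q) (h1 : q < 1) :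
    ∃ θ C : ℝ, 0 < θ ∧ θ < 1 ∧ ∃ Q : Meas, Prob Q ∧
      bgLaw q = (1 - θ) • 1 + θ • Q ∧
      Pos (C • Q - law q (FreeMonoid.of true)) ∧
      Pos (C • bgLaw q - law q (FreeMonoid.of true)) := by
  set θ := 1 - q ^ 2 / 2 with hθ
  have hθ0 : 0 < θ := by nlinarith
  have hθ1 : θ ≤ 1 := by nlinarith
  have hX : ∀ F : Word → ℝ, E (bgLaw q) F =
      q * (q * F 1 + (1 - q) * F (FreeMonoid.of true)) +
      (1 - q) * (q * F (FreeMonoid.of false) + (1 - q) * F w01) := by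
    intro F
    simp only [bgLaw, w01, law, map_mul, FreeMonoid.lift_eval_of, chBit, mul_add, add_mul, smul_mul_assoc, mul_smul_comm,
      MonoidAlgebra.single_mul_single, one_mul, mul_one, E_add, E_smul, E_single, E_one]
    ring
  have hc : ∀ F : Word → ℝ, E (law q (FreeMonoid.of true)) F =
      q * F 1 + (1 - q) * F (FreeMonoid.of true) := by
    intro F
    simp only [law, FreeMonoid.lift_eval_of, chBit, E_add, E_smul, E_single, E_one]
  have hXmass : mass (bgLaw q) = 1 := by rw [mass, hX]; ring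
  refine ⟨θ, 2 / q ^ 2, hθ0, by nlinarith, θ⁻¹ • (bgLaw q - (q ^ 2 / 2) • 1), ⟨pos_of_forall fun F hF => ?_, ?_⟩,
    ?_, pos_of_forall fun F hF => ?_, pos_of_forall fun F hF => ?_⟩
  · rw [E_smul, E_sub, E_smul, E_one, hX]
    refine mul_nonneg (inv_nonneg.2 hθ0.le) ?_
    nlinarith [hF 1, mul_nonneg (mul_nonneg h0.le (sub_nonneg.2 h1.le)) (hF (FreeMonoid.of true)),
      mul_nonneg (mul_nonneg h0.le (sub_nonneg.2 h1.le)) (hF (FreeMonoid.of false)),
      mul_nonneg (sq_nonneg (1 - q)) (hF w01), mul_nonneg (sq_nonneg q) (hF 1)]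
  · rw [mass, E_smul, E_sub, E_smul, E_one, ← mass, hXmass, mul_one, ← hθ, inv_mul_cancel₀ hθ0.ne']
  · rw [smul_smul, mul_inv_cancel₀ hθ0.ne', one_smul, hθ, sub_sub_cancel, add_sub_cancel]
  · rw [E_sub, E_smul, E_smul, E_sub, E_smul, E_one, hX, hc, sub_nonneg]
    have hq : 0 ≤ 2 / q ^ 2 := by positivity
    have e : q * F 1 + (1 - q) * F (FreeMonoid.of true) ≤
        2 / q ^ 2 * (q ^ 2 / 2 * F 1 + q * (1 - q) * F (FreeMonoid.of true)) := by
      rw [mul_add, ← mul_assoc, show 2 / q ^ 2 * (q ^ 2 / 2) = 1 by field_simp,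
        show 2 / q ^ 2 * (q * (1 - q) * F (FreeMonoid.of true)) =
          2 / q * ((1 - q) * F (FreeMonoid.of true)) by field_simp]
      refine add_le_add (mul_le_mul_of_nonneg_right h1.le (hF 1)) (le_mul_of_one_le_left
        (mul_nonneg (sub_nonneg.2 h1.le) (hF _)) ?_)
      rw [le_div_iff₀ h0]; linarith
    refine e.trans (mul_le_mul_of_nonneg_left ((le_mul_of_one_le_left ?_ (one_le_inv₀ hθ0 |>.2 hθ1)).trans
      (mul_le_mul_of_nonneg_left ?_ (inv_nonneg.2 hθ0.le))) hq)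
    · nlinarith [hF 1, hF (FreeMonoid.of true), mul_nonneg h0.le (sub_nonneg.2 h1.le)]
    · nlinarith [mul_nonneg (mul_nonneg h0.le (sub_nonneg.2 h1.le)) (hF (FreeMonoid.of false)),
        mul_nonneg (sq_nonneg (1 - q)) (hF w01)]
  · rw [E_sub, E_smul, hX, hc, sub_nonneg, mul_add (2 / q ^ 2)]
    refine le_add_of_le_of_nonneg ?_ (mul_nonneg (by positivity) (mul_nonneg (sub_nonneg.2 h1.le)
      (add_nonneg (mul_nonneg h0.le (hF _)) (mul_nonneg (sub_nonneg.2 h1.le) (hF _)))))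
    rw [← mul_assoc, show 2 / q ^ 2 * q = 2 / q by field_simp]
    refine le_mul_of_one_le_left (add_nonneg (mul_nonneg h0.le (hF _))
      (mul_nonneg (sub_nonneg.2 h1.le) (hF _))) ?_
    rw [le_div_iff₀ h0]; linarith

theorem bg_smooth {q : ℝ} (h0 : 0 < q) (h1 : q < 1) :
    ∃ C : ℝ, 0 < C ∧ Smooth (bgLaw q) C := by
  obtain ⟨θ, C₀, hθ0, hθ1, Q, hQ, hX, -, -⟩ := bg_split h0 h1
  have hθ1' : 0 < 1 - θ := sub_pos.2 hθ1
  refine ⟨θ / (1 - θ), by positivity, fun N hN => ?_⟩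
  have e : bgLaw q ^ N - bgLaw q ^ (N + 1) = θ • (bgLaw q ^ N * (1 - Q)) := by
    rw [pow_succ, ← mul_smul_comm]
    conv_lhs => rw [← mul_one (bgLaw q ^ N), mul_assoc, one_mul, ← mul_sub]
    rw [hX]
    congr 1
    module
  rw [e, hX]
  refine le_trans (L1_smul (lazy_L1 hQ N (bnw_shift hθ0 hθ1 N)) θ) ?_
  have hN' : (0 : ℝ) < N := Nat.cast_pos.2 hN
  rw [abs_of_pos hθ0, mul_one_div, div_le_iff₀ (by positivity), ← Real.sqrt_mul (by positivity),
    Real.le_sqrt hθ0.le (by positivity)]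
  calc θ ^ 2 = θ / (1 - θ) / N * (N * (θ * (1 - θ))) := by field_simp
    _ ≤ _ := mul_le_mul_of_nonneg_left
      (mul_le_mul_of_nonneg_right (by linarith) (by positivity)) (by positivity)

namespace Smoothing

/-- The induction behind `smooth_of_overlap`. -/
lemma amplify_sum {G c R : Meas} {s : ℝ} {M : ℕ} (hG : Prob G) (hc : L1 c s) (hR : L1 R (1 - s))
    (hT : G ^ M = c * ((1 - 1 / 2 : ℝ) • (1 : Meas) + (1 / 2 : ℝ) • G) + R) (K j : ℕ) :
    L1 ((G ^ M) ^ K * ((1 - 1 / 2 : ℝ) • (1 : Meas) + (1 / 2 : ℝ) • G) ^ j * (1 - G))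
      (∑ i ∈ range (K + 1), bnw K s i * (2 / Real.sqrt ((i : ℝ) + j + 1))) := by
  set S := (1 - 1 / 2 : ℝ) • (1 : Meas) + (1 / 2 : ℝ) • G with hS
  induction K generalizing j with
  | zero =>
    rw [pow_zero, one_mul, zero_add, range_one, sum_singleton]
    refine le_trans (lazy_L1 (θ := 1 / 2) hG j
      (bnw_shift (by norm_num) (by norm_num) j)) (le_of_eq ?_)
    rw [Real.sqrt_mul (by positivity), show (1 / 2 * (1 - 1 / 2) : ℝ) = (1 / 2) ^ 2 by norm_num,
      Real.sqrt_sq (by norm_num)]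
    simp [bnw]
    field_simp
  | succ k ih =>
    have hcomm : Commute S ((G ^ M) ^ k) :=
      (((((Commute.one_left G).smul_left _).add_left ((Commute.refl G).smul_left _))).pow_right M).pow_right k
    have hx : S * ((G ^ M) ^ k * S ^ j * (1 - G)) = (G ^ M) ^ k * S ^ (j + 1) * (1 - G) := by
      rw [← mul_assoc, ← mul_assoc, hcomm.eq, mul_assoc ((G ^ M) ^ k) S, ← pow_succ']
    have e : (G ^ M) ^ (k + 1) * S ^ j * (1 - G) =
        c * ((G ^ M) ^ k * S ^ (j + 1) * (1 - G)) + R * ((G ^ M) ^ k * S ^ j * (1 - G)) := by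
      conv_lhs => rw [pow_succ', mul_assoc, mul_assoc, ← mul_assoc ((G ^ M) ^ k)]
      nth_rewrite 1 [hT]
      rw [add_mul, mul_assoc c S, hx]
    rw [e]
    refine le_trans (L1.add (L1.mul hc (ih (j + 1))) (L1.mul hR (ih j))) (le_of_eq ?_)
    simp only [bnw, mul_assoc (Nat.choose _ _ : ℝ)]
    rw [Finset.sum_choose_succ_mul
      (fun i i' => s ^ i * (1 - s) ^ i' * (2 / Real.sqrt ((i : ℝ) + j + 1))) k, mul_sum, mul_sum,
      add_comm]
    refine congrArg₂ (· + ·) (sum_congr rfl fun i hi => ?_) (sum_congr rfl fun i hi => ?_)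
    · rw [Nat.succ_sub (Nat.lt_succ_iff.1 (mem_range.1 hi)), pow_succ]
      ring
    · push_cast
      rw [show (i : ℝ) + ((j : ℝ) + 1) + 1 = (i : ℝ) + 1 + j + 1 by ring, pow_succ]
      ring

end Smoothing

/-- An overlap of two consecutive powers gives smoothing of all powers. -/
theorem smooth_of_overlap {s : ℝ} (h0 : 0 < s) (h1 : s ≤ 1) :
    ∃ C : ℝ, 0 < C ∧ ∀ (G : Meas) (N : ℕ), Prob G → 1 ≤ N →
      L1 (G ^ N - G ^ (N + 1)) (2 - 2 * s) → Smooth G (C * N) := by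
  refine ⟨8 / s, by positivity, fun G N hG hN hov n hn => ?_⟩
  obtain ⟨c, hc, hca, hcb, hcm⟩ := exists_common (hG.pow N) (hG.pow (N + 1)) h0.le hov
  set S := (1 - 1 / 2 : ℝ) • (1 : Meas) + (1 / 2 : ℝ) • G with hS
  set R := G ^ (N + 1) - c * S with hR
  have hRe : R = (1 / 2 : ℝ) • (G ^ (N + 1) - c) + (1 / 2 : ℝ) • ((G ^ N - c) * G) := by
    rw [hR, hS, sub_mul, ← pow_succ, mul_add, mul_smul_comm, mul_smul_comm, mul_one]
    module
  have hRpos : Pos R := by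
    rw [hRe]
    exact (hcb.smul (by norm_num)).add ((hca.mul hG.1).smul (by norm_num))
  have hRmass : mass R = 1 - s := by
    rw [hRe, mass_add, mass_smul, mass_smul, mass_mul, mass_sub, mass_sub, hcm, hG.2,
      (hG.pow N).2, (hG.pow (N + 1)).2]
    ring
  set K := n / (N + 1) with hK
  have hKn : (N + 1) * K ≤ n := Nat.mul_div_le n _
  have main := amplify_sum (M := N + 1) hG (hc.l1_eq.trans hcm).le (hRpos.l1_eq.trans hRmass).le
    (by rw [hR]; abel) K 0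
  simp only [pow_zero, mul_one, ← pow_mul, Nat.cast_zero, add_zero] at main
  obtain ⟨t, ht⟩ := Nat.exists_eq_add_of_le hKn
  have hlt' : n < (N + 1) * (K + 1) := Nat.lt_mul_div_succ _ (Nat.succ_pos N)
  clear_value K
  subst ht
  have e : G ^ ((N + 1) * K + t) - G ^ ((N + 1) * K + t + 1) =
      G ^ t * (G ^ ((N + 1) * K) * (1 - G)) := by
    rw [← mul_assoc, ← pow_add, add_comm t, mul_sub, mul_one, ← pow_succ]
  rw [e]
  refine le_trans (L1.mul (L1_prob (hG.pow t)) main) ?_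
  rw [one_mul]
  have hcs := Finset.sum_mul_sq_le_sq_mul_sq (range (K + 1)) (fun i => Real.sqrt (bnw K s i))
    (fun i => Real.sqrt (bnw K s i) * (2 / Real.sqrt ((i : ℝ) + 1)))
  simp only [mul_pow, Real.sq_sqrt (bnw_nonneg h0.le h1 K _), ← mul_assoc, bnw_sum, one_mul,
    Real.mul_self_sqrt (bnw_nonneg h0.le h1 K _)] at hcs
  refine Real.le_sqrt_of_sq_le (hcs.trans ?_)
  have hn' : (0 : ℝ) < (((N + 1) * K + t : ℕ) : ℝ) := Nat.cast_pos.2 hn
  have hlt : (((N + 1) * K + t : ℕ) : ℝ) ≤ 2 * N * ((K : ℝ) + 1) := by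
    have h2 := hlt'
    have h3 : (N + 1) * (K + 1) ≤ 2 * N * (K + 1) := Nat.mul_le_mul_right _ (by omega)
    exact_mod_cast h2.le.trans h3
  calc ∑ i ∈ range (K + 1), bnw K s i * (2 / Real.sqrt ((i : ℝ) + 1)) ^ 2
      = 4 * ∑ i ∈ range (K + 1), bnw K s i / ((i : ℝ) + 1) := by
        rw [mul_sum]
        refine sum_congr rfl fun i _ => ?_
        rw [div_pow, Real.sq_sqrt (by positivity)]
        ring
    _ ≤ 4 * (1 / (((K : ℝ) + 1) * s)) :=
        mul_le_mul_of_nonneg_left (sum_binom_inv_le h0 h1 K) (by norm_num)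
    _ ≤ _ := by
        rw [mul_one_div, div_mul_eq_mul_div, div_div, div_le_div_iff₀ (by positivity) (by positivity)]
        nlinarith

end Vale.Agent.P321
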