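import Vale.Agent.P321.Kernel
import Vale.Agent.P321.Smoothing

/-!
# P321: the first level

The two base words differ by a translation of one defect by one period; translating the defect by
the smoothing kernel costs little, and the translated defect is small in `L²` and, after clipping,
pointwise.
-/

noncomputable section

namespace Vale.Agent.P321

open Finset

/-- The total variation error of the first level. -/
def baseErr (r h T : ℕ) (lam : ℝ) (C : ℝ) : ℝ :=
  C * (((T : ℝ) / Real.sqrt h) ^ r + Real.exp (-(lam ^ 2 * T) / C))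

lemma smooth_le_mono {G : Meas} {g g' : ℝ} (h : Smooth G g) (hg : g ≤ g') : Smooth G g' :=
  fun N hN => (h N hN).trans (Real.sqrt_le_sqrt (div_le_div_of_nonneg_right hg (Nat.cast_nonneg N)))

lemma exp_le_add_exp_sq (x : ℝ) : Real.exp x ≤ x + Real.exp (x ^ 2) := by
  rcases le_total |x| 1 with h | h
  · have := (abs_le.1 (Real.abs_exp_sub_one_sub_id_le h)).2
    linarith [Real.add_one_le_exp (x ^ 2)]
  · rcases le_total x 0 with h0 | h0
    · rw [abs_of_nonpos h0] at h
      nlinarith [Real.add_one_le_exp (x ^ 2), Real.exp_le_one_iff.2 h0]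
    · rw [abs_of_nonneg h0] at h
      linarith [Real.exp_le_exp.2 (show x ≤ x ^ 2 by nlinarith)]

lemma mul_le_exp_div {t : ℝ} (ht : 0 < t) (c : ℝ) {a : ℝ} (ha : 0 ≤ a) (ha1 : a ≤ 1) :
    c * a ≤ Real.exp (t * c) / t := by
  rw [le_div_iff₀ ht]
  rcases le_total c 0 with h | h
  · exact (mul_nonpos_of_nonpos_of_nonneg (mul_nonpos_of_nonpos_of_nonneg h ha) ht.le).trans
      (Real.exp_pos _).le
  · nlinarith [Real.add_one_le_exp (t * c), mul_le_mul_of_nonneg_left ha1 h]

lemma exists_density {v X : Meas} {a : ℝ} (hX : Pos X) (ha : 0 ≤ a) (h : Dom v X a) :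
    ∃ ρ : Word → ℝ, (∀ u, |ρ u| ≤ a) ∧ ∀ F, E v F = E X (fun u => ρ u * F u) := by
  classical
  have key : ∀ u, v.coeff u = X.coeff u * (v.coeff u / X.coeff u) := by
    intro u
    rcases eq_or_ne (X.coeff u) 0 with h0 | h0
    · have h1 := h u; rw [h0, mul_zero, abs_nonpos_iff] at h1; simp [h0, h1]
    · field_simp
  refine ⟨fun u => v.coeff u / X.coeff u, fun u => ?_, fun F => ?_⟩
  · rcases (hX u).eq_or_lt with h0 | h0
    · simp [← h0, ha]
    · rw [abs_div, abs_of_pos h0, div_le_iff₀ h0]; exact h u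
  · rw [E, Finsupp.sum_of_support_subset (s := X.coeff.support) _ ?_ _ (by simp)]
    · refine Finset.sum_congr rfl fun u _ => ?_
      show v.coeff u * F u = X.coeff u * (v.coeff u / X.coeff u * F u)
      rw [← mul_assoc, ← key]
    · intro u hu
      simp only [Finsupp.mem_support_iff] at hu ⊢
      intro h0; exact hu (by rw [key u, h0, zero_mul])

/-- Exponential moment bound for a weighted sum of translates of a mass-zero dominated piece. -/
lemma ev_translates_le {X v : Meas} {a t : ℝ} (hX : Prob X) (hv : mass v = 0) (ha : 0 ≤ a)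
    (hd : Dom v X a) (ht : 0 < t) (w : ℕ → ℝ) (n : ℕ) (F : Word → ℝ)
    (hF : ∀ u, 0 ≤ F u) (hF1 : ∀ u, F u ≤ 1) (c : ℝ) :
    E (∑ s ∈ range n, w s • (X ^ s * v * X ^ (n - 1 - s))) F + c * E (X ^ n) F ≤
      Real.exp (t * c + t ^ 2 * a ^ 2 * ∑ s ∈ range n, w s ^ 2) / t := by
  obtain ⟨ρ, hρ, hρE⟩ := exists_density hX.1 ha hd
  induction n generalizing F c with
  | zero => simpa [E_zero, E_one] using mul_le_exp_div ht c (hF 1) (hF1 1)
  | succ n ih =>
    set P := ∑ s ∈ range n, w s • (X ^ s * v * X ^ (n - 1 - s))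
    set S := ∑ s ∈ range n, w s ^ 2
    have e : ∑ s ∈ range (n + 1), w s • (X ^ s * v * X ^ (n + 1 - 1 - s)) =
        P * X + w n • (X ^ n * v) := by
      rw [Finset.sum_range_succ, Nat.add_sub_cancel, Nat.sub_self, pow_zero, mul_one,
        Finset.sum_mul]
      congr 1
      refine Finset.sum_congr rfl fun s hs => ?_
      rw [Algebra.smul_mul_assoc, mul_assoc (X ^ s * v), ← pow_succ]
      have := Finset.mem_range.1 hs
      rw [show n - 1 - s + 1 = n - s by omega]
    have key : ∀ y, E P (fun u => F (u * y)) + (c + w n * ρ y) * E (X ^ n) (fun u => F (u * y)) ≤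
        Real.exp (t * c + t ^ 2 * a ^ 2 * S) / t * Real.exp (t * w n * ρ y) := by
      intro y
      refine (ih (fun u => F (u * y)) (fun u => hF _) (fun u => hF1 _) (c + w n * ρ y)).trans
        (le_of_eq ?_)
      rw [div_mul_eq_mul_div, ← Real.exp_add]
      congr 2; ring
    have hmgf : E X (fun y => Real.exp (t * w n * ρ y)) ≤ Real.exp (t ^ 2 * a ^ 2 * w n ^ 2) := by
      have hb : ∀ y, Real.exp (t * w n * ρ y) ≤
          t * w n * ρ y + Real.exp (t ^ 2 * a ^ 2 * w n ^ 2) := by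
        intro y
        refine (exp_le_add_exp_sq _).trans (add_le_add le_rfl (Real.exp_le_exp.2 ?_))
        calc (t * w n * ρ y) ^ 2 = t ^ 2 * w n ^ 2 * |ρ y| ^ 2 := by rw [sq_abs]; ring
          _ ≤ t ^ 2 * w n ^ 2 * a ^ 2 :=
              mul_le_mul_of_nonneg_left (pow_le_pow_left₀ (abs_nonneg _) (hρ y) 2) (by positivity)
          _ = _ := by ring
      refine (E_mono_fun hX.1 hb).trans (le_of_eq ?_)
      have h0 : E X (fun y => ρ y) = 0 := by
        rw [← hv, mass, hρE]; simp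
      rw [E_add_fun, E_const_mul, h0, E_const, hX.2]; ring
    have hsum : E (∑ s ∈ range (n + 1), w s • (X ^ s * v * X ^ (n + 1 - 1 - s))) F +
        c * E (X ^ (n + 1)) F =
        E X (fun y => E P (fun u => F (u * y)) +
          (c + w n * ρ y) * E (X ^ n) (fun u => F (u * y))) := by
      rw [e, E_add, E_smul, pow_succ, E_mul, E_mul, E_mul, E_swap P, E_swap (X ^ n) v,
        E_swap (X ^ n) X, hρE, ← E_const_mul, ← E_const_mul, ← E_add_fun, ← E_add_fun]
      exact E_congr _ fun y _ => by ring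
    rw [hsum]
    refine (E_mono_fun hX.1 key).trans ?_
    rw [E_const_mul, Finset.sum_range_succ]
    refine (mul_le_mul_of_nonneg_left hmgf (by positivity)).trans (le_of_eq ?_)
    rw [div_mul_eq_mul_div, ← Real.exp_add]
    congr 2; ring

/-- The translated defect. -/
def shifted (X v : Meas) (h L : ℕ) (w : ℕ → ℝ) : Meas :=
  ∑ s ∈ range (L + 1), w s • (X ^ (h + s) * v * X ^ (h - s))

lemma shifted_eq (X v : Meas) {h L : ℕ} (hL : L ≤ h) (w : ℕ → ℝ) :
    shifted X v h L w = X ^ h * Tr X L w v * X ^ (h - L) := by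
  rw [shifted, Tr, Finset.mul_sum, Finset.sum_mul]
  refine Finset.sum_congr rfl fun s hs => ?_
  have := Finset.mem_range.1 hs
  rw [Algebra.mul_smul_comm, Algebra.smul_mul_assoc, ← mul_assoc, ← mul_assoc, ← pow_add,
    mul_assoc (X ^ (h + s) * v), ← pow_add]
  congr 3; omega

lemma mass_shifted {X v : Meas} (hv : mass v = 0) (h L : ℕ) (w : ℕ → ℝ) :
    mass (shifted X v h L w) = 0 := by
  simp [shifted, mass_sum, mass_smul, mass_mul, hv]

lemma nle_shifted {X v : Meas} {a : ℝ} (hX : Prob X) (hv : mass v = 0) (hn : Nle v X a)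
    {h L : ℕ} (hL : L ≤ h) (w : ℕ → ℝ) :
    Nle (shifted X v h L w) (X ^ (2 * h + 1)) (a * wsq L w) := by
  have hn' : NB v (X ^ 1) (a ^ 2) := by rw [pow_one]; exact hn
  have := NB.translates hX.1 hX.2 (f := v) (len := 1) (o := h) (M := 2 * h + 1) (S := L + 1)
    (a := a ^ 2) (B := 1) w (fun s => X ^ (h - s)) one_pos hv (sq_nonneg _) zero_le_one hn'
    (fun s hs => by omega) (fun s hs => by
      rw [show 2 * h + 1 - (h + s) - 1 = h - s by omega]
      simpa [mass_pow, hX.2] using nb_self (hX.1.pow (h - s)))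
  refine this.mono (hX.1.pow _) (le_of_eq ?_)
  rw [mul_pow, wsq, Real.sq_sqrt (Finset.sum_nonneg fun i _ => sq_nonneg _)]
  push_cast; ring

lemma spread_shifted {X v : Meas} {a : ℝ} (hX : Prob X) (hv : mass v = 0) (ha : 0 ≤ a)
    (hn : Nle v X a) {h L : ℕ} (hL : L ≤ h) (w : ℕ → ℝ) {φ : ℝ}
    (hφ : a * ∑ s ∈ range (L + 1), |w s| ≤ φ) {D : Meas} {ε : ℝ}
    (hD : L1 (D - shifted X v h L w) ε) :
    Spread X (2 * h + 1) D φ ε := by
  refine ⟨shifted X v h L w, hD, mass_shifted hv h L w, fun L' w' Y n' b hb hY => ?_⟩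
  set W := X ^ (L' + (2 * h + 1) + n')
  have hW : Pos W := hX.1.pow _
  have hq : 0 ≤ wsq L' w' := Real.sqrt_nonneg _
  have hterm : ∀ s ∈ range (L + 1),
      NB (w s • Tr X L' w' (X ^ (h + s) * v * X ^ (h - s) * Y)) W
        ((|w s| * (a * wsq L' w' * b)) ^ 2) := by
    intro s hs
    have hs' := Finset.mem_range.1 hs
    have hn' : NB v (X ^ 1) (a ^ 2) := by rw [pow_one]; exact hn
    have ht := NB.translates hX.1 hX.2 (f := v) (len := 1) (o := h + s)
      (M := L' + (2 * h + 1) + n') (S := L' + 1) (a := a ^ 2) (B := b ^ 2) w'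
      (fun t => X ^ (h - s) * Y * X ^ (L' - t)) one_pos hv (sq_nonneg _) (sq_nonneg _) hn'
      (fun t ht => by omega) (fun t ht => by
        have h1 := NB.mul ((hX.1.pow (h - s)).mul (hX.1.pow n')) (hX.1.pow (L' - t))
          (A := b ^ 2) (B := 1) (sq_nonneg b)
          (by
            have := NB.mul (hX.1.pow (h - s)) (hX.1.pow n') (A := 1) (B := b ^ 2) zero_le_one
              (by simpa [mass_pow, hX.2] using nb_self (hX.1.pow (h - s))) hY
            simpa using this)
          (by simpa [mass_pow, hX.2] using nb_self (hX.1.pow (L' - t)))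
        rw [← pow_add, ← pow_add, mul_one] at h1
        rwa [show L' + (2 * h + 1) + n' - (h + s + t) - 1 = h - s + n' + (L' - t) by omega])
    have he : Tr X L' w' (X ^ (h + s) * v * X ^ (h - s) * Y) =
        ∑ t ∈ range (L' + 1), w' t • (X ^ (h + s + t) * v * (X ^ (h - s) * Y * X ^ (L' - t))) := by
      refine Finset.sum_congr rfl fun t _ => ?_
      rw [show h + s + t = t + (h + s) by omega]
      simp only [← mul_assoc, ← pow_add]
    rw [← he] at ht
    refine (ht.smul (w s)).mono hW (le_of_eq ?_)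
    have hwsq : wsq L' w' ^ 2 = ∑ t ∈ range (L' + 1), w' t ^ 2 :=
      Real.sq_sqrt (Finset.sum_nonneg fun i _ => sq_nonneg _)
    rw [mul_pow, mul_pow, mul_pow, sq_abs, hwsq]
    push_cast; ring
  have hsum := NB.sum hW (fun s _ => by positivity) hterm
  have heq : ∑ s ∈ range (L + 1), w s • Tr X L' w' (X ^ (h + s) * v * X ^ (h - s) * Y) =
      Tr X L' w' (shifted X v h L w * Y) := by
    simp only [Tr, shifted, Finset.sum_mul, Finset.mul_sum, Algebra.smul_mul_assoc,
      Algebra.mul_smul_comm, Finset.smul_sum]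
    rw [Finset.sum_comm]
    exact Finset.sum_congr rfl fun t _ => Finset.sum_congr rfl fun s _ => smul_comm _ _ _
  rw [heq, ← Finset.sum_mul] at hsum
  refine hsum.mono hW (pow_le_pow_left₀ (by positivity) ?_ 2)
  have := mul_le_mul_of_nonneg_right hφ (mul_nonneg hq hb)
  linarith

open Classical in
/-- Truncation of `f` at `± lam W`. -/
def clip (f W : Meas) (lam : ℝ) : Meas :=
  ∑ u ∈ f.coeff.support, MonoidAlgebra.single u (max (-(lam * W.coeff u))
    (min (f.coeff u) (lam * W.coeff u)))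

lemma clip_coeff {f W : Meas} {lam : ℝ} (hW : Pos W) (hl : 0 ≤ lam) (u : Word) :
    (clip f W lam).coeff u = max (-(lam * W.coeff u)) (min (f.coeff u) (lam * W.coeff u)) := by
  classical
  simp only [clip, MonoidAlgebra.coeff_sum, Finsupp.finsetSum_apply, MonoidAlgebra.coeff_single,
    Finsupp.single_apply, Finset.sum_ite_eq']
  split
  · rfl
  · next hu =>
    rw [Finsupp.notMem_support_iff.1 hu, min_eq_left (mul_nonneg hl (hW u)),
      max_eq_right (neg_nonpos.2 (mul_nonneg hl (hW u)))]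

lemma dom_clip {f W : Meas} {lam : ℝ} (hW : Pos W) (hl : 0 ≤ lam) :
    Dom (clip f W lam) W lam := fun u => by
  rw [clip_coeff hW hl]
  have := mul_nonneg hl (hW u)
  exact abs_le.2 ⟨le_max_left _ _, max_le (by linarith) (min_le_right _ _)⟩

lemma l1_sub_clip {f W : Meas} {lam e : ℝ} (hW : Pos W) (hl : 0 ≤ lam)
    (h : ∀ F : Word → ℝ, (∀ u, 0 ≤ F u) → (∀ u, F u ≤ 1) → E f F - lam * E W F ≤ e)
    (h' : ∀ F : Word → ℝ, (∀ u, 0 ≤ F u) → (∀ u, F u ≤ 1) → -E f F - lam * E W F ≤ e) :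
    l1 (f - clip f W lam) ≤ 2 * e := by
  classical
  obtain ⟨F, hF⟩ : ∃ F : Word → ℝ, ∀ u, F u = if lam * W.coeff u < f.coeff u then 1 else 0 :=
    ⟨_, fun _ => rfl⟩
  obtain ⟨G, hG⟩ : ∃ G : Word → ℝ, ∀ u, G u = if f.coeff u < -(lam * W.coeff u) then 1 else 0 :=
    ⟨_, fun _ => rfl⟩
  set s := f.coeff.support ∪ W.coeff.support
  have hs : ∀ (g : Meas) (H : Word → ℝ), g.coeff.support ⊆ s →
      E g H = ∑ u ∈ s, g.coeff u * H u := fun g H hsub =>
    Finsupp.sum_of_support_subset _ hsub _ (by simp)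
  have hsub : (f - clip f W lam).coeff.support ⊆ s := fun u hu => by
    refine Finset.mem_union_left _ (Finsupp.mem_support_iff.2 fun h0 => ?_)
    have := mul_nonneg hl (hW u)
    apply Finsupp.mem_support_iff.1 hu
    rw [MonoidAlgebra.coeff_sub, Finsupp.sub_apply, clip_coeff hW hl, h0, min_eq_left this,
      max_eq_right (neg_nonpos.2 this), sub_zero]
  have key : ∀ u, |(f - clip f W lam).coeff u| =
      (f.coeff u * F u - lam * (W.coeff u * F u)) +
        (-(f.coeff u * G u) - lam * (W.coeff u * G u)) := by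
    intro u
    have := mul_nonneg hl (hW u)
    rw [MonoidAlgebra.coeff_sub, Finsupp.sub_apply, clip_coeff hW hl, hF, hG]
    by_cases c1 : lam * W.coeff u < f.coeff u
    · rw [if_pos c1, if_neg (by linarith), min_eq_right c1.le, max_eq_right (by linarith),
        abs_of_pos (by linarith)]
      ring
    · rw [if_neg c1, min_eq_left (not_lt.1 c1)]
      by_cases c2 : f.coeff u < -(lam * W.coeff u)
      · rw [if_pos c2, max_eq_left c2.le, abs_of_neg (by linarith)]; ring
      · rw [if_neg c2, max_eq_right (not_lt.1 c2), sub_self, abs_zero]; ring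
  have hl1 : l1 (f - clip f W lam) = ∑ u ∈ s, |(f - clip f W lam).coeff u| :=
    Finsupp.sum_of_support_subset _ hsub _ (by simp)
  rw [hl1, Finset.sum_congr rfl (fun u _ => key u), Finset.sum_add_distrib,
    Finset.sum_sub_distrib, Finset.sum_sub_distrib, Finset.sum_neg_distrib, ← Finset.mul_sum,
    ← Finset.mul_sum, ← hs f F Finset.subset_union_left, ← hs W F Finset.subset_union_right,
    ← hs f G Finset.subset_union_left, ← hs W G Finset.subset_union_right]
  have r1 := h F (fun u => by rw [hF]; split <;> norm_num) (fun u => by rw [hF]; split <;> norm_num)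
  have r2 := h' G (fun u => by rw [hG]; split <;> norm_num) (fun u => by rw [hG]; split <;> norm_num)
  linarith

/-- The translated defect is close to a pointwise small mass-zero measure. -/
lemma exists_clipped {X v : Meas} {a K lam : ℝ} {T : ℕ} (hX : Prob X) (hv : mass v = 0)
    (ha : 0 < a) (hd : Dom v X a) (hK : 0 < K) (hT : 1 ≤ T) (hlam : 0 < lam) (hl1 : lam ≤ 1)
    (hA1 : 1 ≤ a ^ 2 * K) (hlT : 64 * (a ^ 2 * K) ≤ lam ^ 2 * T) {h L : ℕ} (hL : L ≤ h) (w : ℕ → ℝ)
    (hw : ∑ s ∈ range (L + 1), w s ^ 2 ≤ K / T) :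
    ∃ g : Meas, mass g = 0 ∧ Bd g (X ^ (2 * h + 1)) lam ∧
      L1 (g - shifted X v h L w)
        (64 * (a ^ 2 * K) * Real.exp (-(lam ^ 2 * T) / (16 * (a ^ 2 * K)))) := by
  set W := X ^ (2 * h + 1)
  have hW : Pos W := hX.1.pow _
  have mW : mass W = 1 := by rw [mass_pow, hX.2, one_pow]
  set A := a ^ 2 * K
  have hA : 0 < A := mul_pos (pow_pos ha 2) hK
  have hT0 : (1 : ℝ) ≤ T := by exact_mod_cast hT
  set t := lam * T / (4 * A)
  have ht : 0 < t := by positivity
  set Ee := Real.exp (-(lam ^ 2 * T) / (16 * A))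
  set e0 := Ee / t
  have hbound : ∀ w' : ℕ → ℝ, (∑ s ∈ range (L + 1), w' s ^ 2 ≤ K / T) → ∀ F : Word → ℝ,
      (∀ u, 0 ≤ F u) → (∀ u, F u ≤ 1) →
      E (shifted X v h L w') F - lam / 2 * E W F ≤ e0 := by
    intro w' hw' F hF hF1
    have hWsplit : W = X ^ h * (X ^ (L + 1) * X ^ (h - L)) := by
      rw [← pow_add, ← pow_add, show h + (L + 1 + (h - L)) = 2 * h + 1 by omega]
    rw [shifted_eq X v hL, hWsplit, mul_assoc, E_mul, E_mul (X ^ h), ← E_const_mul, ← E_sub_fun]
    have hbig : ∀ u, E (Tr X L w' v * X ^ (h - L)) (fun y => F (u * y)) -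
        lam / 2 * E (X ^ (L + 1) * X ^ (h - L)) (fun y => F (u * y)) ≤ e0 := by
      intro u
      rw [E_mul, E_mul (X ^ (L + 1)), E_swap (Tr X L w' v), E_swap (X ^ (L + 1)), ← E_const_mul,
        ← E_sub_fun]
      refine (E_mono_fun (hX.1.pow _) fun z => ?_).trans
        (le_of_eq (by rw [E_const, mass_pow, hX.2, one_pow, mul_one]))
      have hb := ev_translates_le hX hv ha.le hd ht w' (L + 1) (fun y => F (u * (y * z)))
        (fun _ => hF _) (fun _ => hF1 _) (-(lam / 2))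
      have hTr : Tr X L w' v = ∑ s ∈ range (L + 1), w' s • (X ^ s * v * X ^ (L + 1 - 1 - s)) := by
        simp [Tr]
      rw [← hTr] at hb
      have hexp : t * -(lam / 2) + t ^ 2 * a ^ 2 * ∑ s ∈ range (L + 1), w' s ^ 2 ≤
          -(lam ^ 2 * T) / (16 * A) := by
        have h1 : t ^ 2 * a ^ 2 * ∑ s ∈ range (L + 1), w' s ^ 2 ≤ t ^ 2 * a ^ 2 * (K / T) :=
          mul_le_mul_of_nonneg_left hw' (by positivity)
        have h2 : t * -(lam / 2) + t ^ 2 * a ^ 2 * (K / T) = -(lam ^ 2 * T) / (16 * A) := by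
          simp only [t, A]
          field_simp
          ring
        linarith
      have := hb.trans (div_le_div_of_nonneg_right (Real.exp_le_exp.2 hexp) ht.le)
      linarith
    refine (E_mono_fun (hX.1.pow _) hbig).trans (le_of_eq ?_)
    rw [E_const, mass_pow, hX.2, one_pow, mul_one]
  have hneg : ∀ F : Word → ℝ, -E (shifted X v h L w) F = E (shifted X v h L fun s => -w s) F := by
    intro F
    simp [shifted, E_finset_sum, E_smul, E_neg, Finset.sum_neg_distrib]
  have hl2 : 0 ≤ lam / 2 := by linarith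
  set f := shifted X v h L w
  set g0 := clip f W (lam / 2)
  have hclose : l1 (f - g0) ≤ 2 * e0 := l1_sub_clip hW hl2 (hbound w hw) fun F hF hF1 => by
    rw [hneg]
    exact hbound _ (by simpa using hw) F hF hF1
  set δ := mass g0
  have hδ : |δ| ≤ 2 * e0 := by
    have : δ = mass (g0 - f) := by rw [mass_sub, mass_shifted hv, sub_zero]
    rw [this]
    exact (abs_mass_le _).trans (by rw [l1_sub_comm]; exact hclose)
  have het : e0 = 4 * A * Ee / (lam * T) := by simp only [e0, t]; field_simp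
  have hE1 : Ee ≤ 1 := Real.exp_le_one_iff.2 (by
    exact div_nonpos_of_nonpos_of_nonneg (by nlinarith) (by positivity))
  have hsmall : 2 * e0 ≤ lam / 2 := by
    rw [het, mul_div_assoc', div_le_iff₀ (by positivity)]
    nlinarith
  have hlamT : 1 * (4 * A * Ee) ≤ lam * T * (16 * A * Ee) := by
    have : 1 / 4 ≤ lam * T := by
      have h1 : lam ^ 2 * T ≤ lam * T := by nlinarith
      by_contra hlt
      push Not at hlt
      nlinarith
    have hAE : 0 ≤ A * Ee := mul_nonneg hA.le (Real.exp_pos _).le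
    nlinarith [mul_le_mul_of_nonneg_right this hAE]
  have he64 : 4 * e0 ≤ 64 * A * Ee := by
    rw [het, mul_div_assoc', div_le_iff₀ (by positivity)]
    linarith
  refine ⟨g0 - δ • W, ?_, ?_, ?_⟩
  · rw [mass_sub, mass_smul, mW, mul_one, sub_self]
  · have := (dom_clip (f := f) hW hl2).sub ((Dom.refl hW).smul δ)
    exact this.mono hW (by linarith)
  · show l1 (g0 - δ • W - f) ≤ _
    rw [show g0 - δ • W - f = (g0 - f) + -(δ • W) by abel]
    refine (l1_add_le _ _).trans ?_
    rw [l1_neg, l1_sub_comm g0]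
    have h3 := l1_smul δ W
    rw [hW.l1_eq, mW, mul_one] at h3
    linarith

lemma tr_dker {X v : Meas} {L : ℕ} {w : ℕ → ℝ} (hw : w (L + 1) = 0) :
    Tr X L w (X * v - v * X) = Tr X (L + 1) (dker w) v := by
  simp only [Tr, dker, mul_sub, sub_mul, smul_sub, sub_smul, Finset.sum_sub_distrib]
  refine congrArg₂ (· - ·) ?_ ?_
  · rw [Finset.sum_range_succ' (fun s => (if s = 0 then 0 else w (s - 1)) •
      (X ^ s * v * X ^ (L + 1 - s))) (L + 1)]
    simp only [if_pos, zero_smul, add_zero, Nat.add_sub_cancel, Nat.succ_ne_zero, if_false]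
    refine Finset.sum_congr rfl fun s _ => ?_
    rw [Nat.add_sub_add_right, ← mul_assoc, ← pow_succ]
  · rw [Finset.sum_range_succ (fun s => w s • (X ^ s * v * X ^ (L + 1 - s))) (L + 1), hw, zero_smul,
      add_zero]
    refine Finset.sum_congr rfl fun s hs => ?_
    have := Finset.mem_range.1 hs
    rw [show L + 1 - s = L - s + 1 by omega, pow_succ']
    simp only [mul_assoc]

lemma rate_le {C₀ : ℝ} (hC₀ : 0 ≤ C₀) {r h T N : ℕ} (hh : 0 < h) (hN : 1 ≤ N)
    (hhN : h ≤ 2 * r * N) :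
    (4 * (T : ℝ) * Real.sqrt (C₀ / N)) ^ r ≤
      (4 * Real.sqrt (2 * r * C₀)) ^ r * ((T : ℝ) / Real.sqrt h) ^ r := by
  have hh0 : (0 : ℝ) < h := by exact_mod_cast hh
  have hN0 : (0 : ℝ) < N := by exact_mod_cast hN
  rw [← mul_pow]
  refine pow_le_pow_left₀ (by positivity) ?_ r
  rw [show 4 * Real.sqrt (2 * r * C₀) * ((T : ℝ) / Real.sqrt h) =
    4 * T * (Real.sqrt (2 * r * C₀) / Real.sqrt h) by ring]
  refine mul_le_mul_of_nonneg_left ?_ (by positivity)
  rw [← Real.sqrt_div' _ hh0.le]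
  refine Real.sqrt_le_sqrt ?_
  rw [div_le_div_iff₀ hN0 hh0]
  have : (h : ℝ) ≤ 2 * r * N := by exact_mod_cast hhN
  nlinarith

lemma base_l1_pad_le {X A : Meas} {e : ℝ} (hX : Prob X) (i j : ℕ) (h : l1 A ≤ e) :
    l1 (X ^ i * A * X ^ j) ≤ e := by
  refine (l1_mul_le _ _).trans ?_
  rw [(hX.1.pow _).l1_eq, mass_pow, hX.2, one_pow, mul_one]
  refine (l1_mul_le _ _).trans ?_
  rwa [(hX.1.pow _).l1_eq, mass_pow, hX.2, one_pow, one_mul]

lemma pad_split {X v : Meas} {h L n : ℕ} (w : ℕ → ℝ) (hn : n + L ≤ h) :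
    X ^ h * v * X ^ h - shifted X v h L w = X ^ (h - n) *
      (X ^ n * (v * X ^ L) * X ^ n - X ^ n * Tr X L w v * X ^ n) * X ^ (h - L - n) := by
  have es : X ^ n * X ^ (h - L - n) = X ^ (h - L) := by rw [← pow_add]; congr 1; omega
  have es2 : X ^ L * X ^ (h - L) = X ^ h := by rw [← pow_add]; congr 1; omega
  have eo : X ^ h = X ^ (h - n) * X ^ n := by rw [← pow_add]; congr 1; omega
  rw [shifted_eq X v (by omega) w]
  simp only [mul_sub, sub_mul, mul_assoc, es, es2]
  rw [eo]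
  simp only [mul_assoc]

lemma pad_split' {X v : Meas} {h L n : ℕ} (w : ℕ → ℝ) (hn : n + L + 1 ≤ h) (hw : w (L + 1) = 0) :
    X ^ h * (X * v - v * X) * X ^ (h - 1) - shifted X v h (L + 1) (dker w) = X ^ (h - n) *
      (X ^ n * ((X * v - v * X) * X ^ L) * X ^ n - X ^ n * Tr X L w (X * v - v * X) * X ^ n) *
        X ^ (h - 1 - L - n) := by
  have es : X ^ n * X ^ (h - 1 - L - n) = X ^ (h - 1 - L) := by rw [← pow_add]; congr 1; omega
  have es2 : X ^ L * X ^ (h - 1 - L) = X ^ (h - 1) := by rw [← pow_add]; congr 1; omega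
  have eo : X ^ h = X ^ (h - n) * X ^ n := by rw [← pow_add]; congr 1; omega
  rw [shifted_eq X v (by omega) (dker w), ← tr_dker hw, show h - (L + 1) = h - 1 - L by omega]
  simp only [mul_sub, sub_mul, mul_assoc, es, es2]
  rw [eo]
  simp only [mul_assoc]

lemma base_diff {X c : Meas} {h : ℕ} (hh : 1 ≤ h) :
    X ^ (h + 1) * c * X ^ (h - 1) - X ^ h * c * X ^ h =
      X ^ h * (X * (c - X) - (c - X) * X) * X ^ (h - 1) := by
  obtain ⟨k, rfl⟩ : ∃ k, h = k + 1 := ⟨h - 1, by omega⟩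
  rw [Nat.add_sub_cancel, pow_succ X (k + 1)]
  nth_rw 3 [pow_succ']
  noncomm_ring

lemma nle_of_close {X v g : Meas} {a lam ε b : ℝ} (hX : Prob X) (hv : mass v = 0) (ha : 0 ≤ a)
    (hn : Nle v X a) {h L : ℕ} (hL : L ≤ h) (w : ℕ → ℝ) (hl : 0 ≤ lam) (hl2 : 2 * lam ≤ 1)
    (hε : 0 ≤ ε) (hg : Bd g (X ^ (2 * h + 1)) lam) (hc : L1 (g - shifted X v h L w) ε)
    (hb : a * wsq L w ≤ b) :
    Nle g (X ^ (2 * h + 1)) (b + Real.sqrt ε) := by
  have hq : 0 ≤ a * wsq L w := mul_nonneg ha (Real.sqrt_nonneg _)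
  exact NB.mono (Bd.transfer (hX.1.pow _) hl hq hε hg hc (nle_shifted hX hv hn hL w)) (hX.1.pow _)
    (pow_le_pow_left₀ (add_nonneg hq (Real.sqrt_nonneg _))
      (add_le_add hb (Real.sqrt_le_sqrt (mul_le_of_le_one_left hε hl2))) 2)

lemma sum_sq_le {L : ℕ} {w : ℕ → ℝ} {b : ℝ} (h : wsq L w ≤ b) :
    ∑ s ∈ range (L + 1), w s ^ 2 ≤ b ^ 2 := by
  rw [← Real.sq_sqrt (Finset.sum_nonneg fun i (_ : i ∈ range (L + 1)) => sq_nonneg (w i))]
  exact pow_le_pow_left₀ (Real.sqrt_nonneg _) h 2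

lemma lev_of_clipped {X v u D : Meas} {a lam ε M : ℝ} {h L T : ℕ} {w : ℕ → ℝ} (hX : Prob X)
    (hsm : Smooth X M) (hv : mass v = 0) (ha : 0 ≤ a) (hn : Nle v X a) (hL : L + 1 ≤ h)
    (hlam : 0 < lam) (hl2 : 2 * lam ≤ 1) (hε : 0 ≤ ε)
    (hu0 : mass u = 0) (hub : Bd u (X ^ (2 * h + 1)) lam) (huc : L1 (u - shifted X v h L w) ε)
    (hD0 : mass D = 0) (hDb : Bd D (X ^ (2 * h + 1)) lam)
    (hDc : L1 (D - shifted X v h (L + 1) (dker w)) ε)
    (hwabs : a * ∑ s ∈ range (L + 1), |w s| ≤ M)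
    (hdabs : a * ∑ s ∈ range (L + 1 + 1), |dker w s| ≤ M / T)
    (hwsq : a * wsq L w ≤ M / Real.sqrt T)
    (hdsq : a * wsq (L + 1) (dker w) ≤ M / (T * Real.sqrt T)) :
    Lev X (X ^ (2 * h + 1) + u) D (2 * h + 1) M lam (M / Real.sqrt T + Real.sqrt ε)
      (M / (T * Real.sqrt T) + Real.sqrt ε) M (M / T) ε := by
  have hW : Prob (X ^ (2 * h + 1)) := hX.pow _
  have e : X ^ (2 * h + 1) + u - X ^ (2 * h + 1) = u := add_sub_cancel_left _ _
  refine ⟨hX, hsm, ⟨fun z => ?_, ?_⟩, hD0, e.symm ▸ hub, hDb,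
    e.symm ▸ nle_of_close hX hv ha hn (Nat.le_of_succ_le hL) w hlam.le hl2 hε hub huc hwsq,
    nle_of_close hX hv ha hn hL (dker w) hlam.le hl2 hε hDb hDc hdsq,
    e.symm ▸ spread_shifted hX hv ha hn (Nat.le_of_succ_le hL) w hwabs huc,
    spread_shifted hX hv ha hn hL (dker w) hdabs hDc⟩
  swap
  · rw [mass_add, hW.2, hu0, add_zero]
  have h1 := abs_le.1 (hub z)
  have h2 := mul_le_of_le_one_left (hW.1 z) (show lam ≤ 1 by linarith)
  simp only [MonoidAlgebra.coeff_add, Finsupp.add_apply]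
  linarith

set_option maxHeartbeats 800000 in
theorem base {q : ℝ} (h0 : 0 < q) (h1 : q < 1) (r : ℕ) (hr : 1 ≤ r) :
    ∃ C : ℝ, 1 ≤ C ∧ ∀ (h T : ℕ) (lam : ℝ), 1 ≤ T → C * T ≤ h → 0 < lam → C * lam ≤ 1 →
      C ≤ lam ^ 2 * T →
      ∃ U D : Meas,
        Lev (bgLaw q) U D (2 * h + 1) C lam
          (C / Real.sqrt T + Real.sqrt (baseErr r h T lam C))
          (C / (T * Real.sqrt T) + Real.sqrt (baseErr r h T lam C))
          C (C / T) (baseErr r h T lam C) ∧
        L1 (law q (baseU h) - U) (baseErr r h T lam C) ∧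
        L1 (law q (baseV h) - (U + D)) (baseErr r h T lam C) := by
  obtain ⟨C₀, hC₀, hsm⟩ := bg_smooth h0 h1
  obtain ⟨θ, C₁, hθ, hθ1, Q, hQ, -, -, hc1⟩ := bg_split h0 h1
  set X := bgLaw q
  set c := law q (FreeMonoid.of true)
  have hX : Prob X := law_prob h0 h1 _
  have hc : Prob c := law_prob h0 h1 _
  set a := |C₁| + 1
  have ha : 1 ≤ a := le_add_of_nonneg_left (abs_nonneg _)
  set v := c - X
  have hv : mass v = 0 := by simp only [v, mass_sub, hc.2, hX.2, sub_self]
  have hd : Dom v X a := by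
    intro u
    have h2 := hc1 u
    simp only [MonoidAlgebra.coeff_sub, MonoidAlgebra.coeff_smul, Finsupp.sub_apply,
      Finsupp.smul_apply, smul_eq_mul] at h2
    simp only [v, a, MonoidAlgebra.coeff_sub, Finsupp.sub_apply]
    exact abs_le.2 ⟨by nlinarith [hc.1 u, hX.1 u, abs_nonneg C₁],
      by nlinarith [hc.1 u, hX.1 u, le_abs_self C₁]⟩
  have hn : Nle v X a := by
    have := hd.nb hX.1
    rwa [hX.2, mul_one] at this
  have hlv : l1 v ≤ a := by simpa [hX.2] using hd.l1_le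
  set K : ℝ := 4 * 4 ^ r
  have hK : 0 < K := by positivity
  set A := a ^ 2 * K
  have hA : 0 < A := by positivity
  set Sr : ℝ := (4 * Real.sqrt (2 * r * C₀)) ^ r * (2 * a)
  have hSr : 0 ≤ Sr := by positivity
  set M := 2 * 2 ^ r * a + 8 * r + 4 + C₀ + 2 * Sr + 144 * A
  have h2r : (0 : ℝ) ≤ 2 * 2 ^ r * a := by positivity
  have hM : 4 ≤ M := by
    have : (0 : ℝ) ≤ 8 * r := by positivity
    linarith
  refine ⟨M, by linarith, fun h T lam hT hTh hlam hlam1 hlT => ?_⟩
  have hT0 : (1 : ℝ) ≤ T := by exact_mod_cast hT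
  have hrT : (8 * r + 4) * T ≤ h := by
    have h1 : ((8 * r + 4 : ℕ) : ℝ) * T ≤ M * T :=
      mul_le_mul_of_nonneg_right (by push_cast; linarith) (by linarith)
    exact_mod_cast h1.trans hTh
  set L := 2 * T * r
  have hL8 : 4 * L + 4 ≤ h := by simp only [L]; nlinarith
  have hrle : r ≤ T * r := Nat.le_mul_of_pos_left r hT
  set N := (h - 1 - L) / r
  have hNr : r * N ≤ h - 1 - L := Nat.mul_div_le _ _
  have hN2 : h ≤ 2 * r * N := by
    have h1 := Nat.lt_mul_div_succ (h - 1 - L) (show 0 < r by omega)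
    simp only [N, L] at *
    nlinarith [Nat.sub_add_cancel (show 1 + 2 * T * r ≤ h by omega), Nat.sub_sub h 1 (2 * T * r)]
  have hN : 1 ≤ N := by
    by_contra hlt
    simp only [not_le, Nat.lt_one_iff] at hlt
    rw [hlt, mul_zero] at hN2
    omega
  obtain ⟨w, hw0, -, hwabs, -, hwsq, hdsq, hdabs, hker⟩ := exists_kernel r T hr hT
  have hkerr : ∀ Z : Meas, l1 Z ≤ 2 * a →
      l1 (X ^ (r * N) * (Z * X ^ L) * X ^ (r * N) - X ^ (r * N) * Tr X L w Z * X ^ (r * N)) ≤
        Sr * ((T : ℝ) / Real.sqrt h) ^ r := by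
    intro Z hZ
    refine (hker X Z C₀ (2 * a) N hX hsm hN (by linarith) hZ).trans ?_
    exact (mul_le_mul_of_nonneg_right (rate_le hC₀.le (by omega) hN hN2) (by linarith)).trans
      (le_of_eq (mul_right_comm _ _ _))
  have h4 : ((2 : ℝ) ^ r) ^ 2 = 4 ^ r := by rw [← pow_mul, mul_comm, pow_mul]; norm_num
  have hwsq2 : ∑ s ∈ range (L + 1), w s ^ 2 ≤ K / T := by
    refine (sum_sq_le hwsq).trans ?_
    rw [div_pow, Real.sq_sqrt (by linarith), h4]
    exact div_le_div_of_nonneg_right (by simp only [K]; linarith) (by linarith)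
  have hdsq2 : ∑ s ∈ range (L + 1 + 1), dker w s ^ 2 ≤ K / T := by
    refine (sum_sq_le hdsq).trans ?_
    rw [div_pow, mul_pow, mul_pow, Real.sq_sqrt (by linarith), h4,
      show (2 : ℝ) ^ 2 * 4 ^ r = K by norm_num [K]]
    exact div_le_div_of_nonneg_left hK.le (by linarith) (le_mul_of_one_le_left (by linarith)
      (one_le_pow₀ hT0))
  set f := shifted X v h L w
  set f' := shifted X v h (L + 1) (dker w)
  have hr8 : (0 : ℝ) ≤ 8 * r := by positivity
  have hMA : 16 * A ≤ M := by linarith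
  have hl2 : 2 * lam ≤ 1 := (mul_le_mul_of_nonneg_right (by linarith) hlam.le).trans hlam1
  have hl1 : lam ≤ 1 := by linarith
  have hA1 : 1 ≤ a ^ 2 * K := one_le_mul_of_one_le_of_one_le (one_le_pow₀ ha) (by
    have := one_le_pow₀ (n := r) (by norm_num : (1 : ℝ) ≤ 4)
    simp only [K]; linarith)
  obtain ⟨u, hu0, hub, huc⟩ := exists_clipped hX hv (by linarith) hd hK hT hlam hl1 hA1 (by linarith)
    (show L ≤ h by omega) w hwsq2
  obtain ⟨D, hD0, hDb, hDc⟩ := exists_clipped hX hv (by linarith) hd hK hT hlam hl1 hA1 (by linarith)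
    (show L + 1 ≤ h by omega) (dker w) hdsq2
  set e1 := 64 * A * Real.exp (-(lam ^ 2 * T) / (16 * A))
  set e2 := Sr * ((T : ℝ) / Real.sqrt h) ^ r
  set ε := baseErr r h T lam M
  have hε : 2 * e2 + 2 * e1 ≤ ε := by
    simp only [e1, e2, ε, baseErr, mul_add]
    refine add_le_add ?_ ?_
    · rw [← mul_assoc]
      exact mul_le_mul_of_nonneg_right (by linarith) (by positivity)
    · rw [← mul_assoc]
      refine mul_le_mul (by linarith) (Real.exp_le_exp.2 ?_) (Real.exp_pos _).le (by linarith)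
      rw [neg_div, neg_div, neg_le_neg_iff]
      exact div_le_div_of_nonneg_left (by positivity) (by positivity) hMA
  have he1 : 0 ≤ e1 := by positivity
  have he2 : 0 ≤ e2 := by positivity
  have hU : law q (baseU h) = X ^ h * c * X ^ h := by
    simp only [baseU, map_mul, map_pow]; rfl
  have hV : law q (baseV h) = X ^ (h + 1) * c * X ^ (h - 1) := by
    simp only [baseV, map_mul, map_pow]; rfl
  have hXn : X ^ (2 * h + 1) = X ^ h * X * X ^ h := by
    rw [← pow_succ, ← pow_add]; congr 1; omega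
  set W := X ^ (2 * h + 1)
  have hW : Prob W := hX.pow _
  have hcu : l1 (X ^ h * v * X ^ h - f) ≤ e2 := by
    rw [pad_split w (show r * N + L ≤ h by omega)]
    exact base_l1_pad_le hX _ _ (hkerr v (by linarith))
  have hcd : l1 (law q (baseV h) - law q (baseU h) - f') ≤ e2 := by
    have hZ : l1 (X * v - v * X) ≤ 2 * a := by
      refine (l1_sub_le _ _).trans ?_
      have hx : l1 X = 1 := by rw [hX.1.l1_eq, hX.2]
      have h1 := l1_mul_le X v
      have h2 := l1_mul_le v X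
      rw [hx] at h1 h2
      linarith
    rw [hU, hV, base_diff (by omega), pad_split' w (show r * N + L + 1 ≤ h by omega)
      (hw0 (L + 1) (by simp only [L]; omega))]
    exact base_l1_pad_le hX _ _ (hkerr _ hZ)
  have hMa : a * 2 ^ r ≤ M := by
    have : 0 ≤ 2 ^ r * a := by positivity
    linarith
  have hMa2 : a * (2 * 2 ^ r) ≤ M := by linarith
  refine ⟨W + u, D, lev_of_clipped hX (smooth_le_mono hsm (by linarith)) hv (by linarith) hn
    (show L + 1 ≤ h by omega) hlam hl2 (le_trans (by positivity) hε) hu0 hub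
    (huc.trans (by linarith : e1 ≤ ε)) hD0 hDb (hDc.trans (by linarith : e1 ≤ ε))
    ((mul_le_mul_of_nonneg_left hwabs (by linarith)).trans hMa) ?_ ?_ ?_, ?_, ?_⟩
  · refine (mul_le_mul_of_nonneg_left hdabs (by linarith)).trans ?_
    rw [mul_div_assoc']
    exact div_le_div_of_nonneg_right hMa2 (by linarith)
  · refine (mul_le_mul_of_nonneg_left hwsq (by linarith)).trans ?_
    rw [mul_div_assoc']
    exact div_le_div_of_nonneg_right hMa (Real.sqrt_nonneg _)
  · refine (mul_le_mul_of_nonneg_left hdsq (by linarith)).trans ?_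
    rw [mul_div_assoc']
    exact div_le_div_of_nonneg_right hMa2 (by positivity)
  · show l1 _ ≤ ε
    have e : law q (baseU h) - (W + u) = (X ^ h * v * X ^ h - f) - (u - f) := by
      rw [hU, hXn]; simp only [v]; noncomm_ring
    rw [e]
    refine (l1_sub_le _ _).trans ?_
    have : l1 (u - f) ≤ e1 := huc
    linarith
  · show l1 _ ≤ ε
    have e : law q (baseV h) - (W + u + D) = ((X ^ h * v * X ^ h - f) - (u - f)) +
        ((law q (baseV h) - law q (baseU h) - f') - (D - f')) := by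
      rw [hU, hXn]; simp only [v]; noncomm_ring
    rw [e]
    refine (l1_add_le _ _).trans ((add_le_add (l1_sub_le _ _) (l1_sub_le _ _)).trans ?_)
    have : l1 (u - f) ≤ e1 := huc
    have : l1 (D - f') ≤ e1 := hDc
    linarith

end Vale.Agent.P321
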