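import Vale.Agent.P321.RunClose

/-!
# P321: runs of cells between two free gaps are close to the background
-/

noncomputable section

open Finset

namespace Vale.Agent.P321.BO

/-- Reversal of all words. -/
def rev (f : Meas) : Meas := MonoidAlgebra.mapDomain FreeMonoid.reverse f

lemma ev_rev (f : Meas) (F : Word → ℝ) : ev (rev f) F = ev f (fun w => F (FreeMonoid.reverse w)) := by
  unfold ev rev MonoidAlgebra.mapDomain
  exact Finsupp.sum_mapDomain_index (by simp) (by intros; ring)

lemma rev_rev (f : Meas) : rev (rev f) = f := ev_ext fun F => by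
  simp [ev_rev, FreeMonoid.reverse_reverse]

lemma rev_mul (f g : Meas) : rev (f * g) = rev g * rev f := ev_ext fun F => by
  simp only [ev_rev, ev_mul]
  rw [ev_swap]
  simp only [FreeMonoid.reverse_mul]

lemma rev_one : rev 1 = 1 := ev_ext fun F => by
  rw [ev_rev, ev_one, ev_one]; rfl

lemma rev_pow (f : Meas) (n : ℕ) : rev (f ^ n) = rev f ^ n := by
  induction n with
  | zero => simp [rev_one]
  | succ n ih => rw [pow_succ, rev_mul, ih, pow_succ']

lemma rev_add (f g : Meas) : rev (f + g) = rev f + rev g := ev_ext fun F => by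
  simp only [ev_rev, ev_add]

lemma rev_sub (f g : Meas) : rev (f - g) = rev f - rev g := ev_ext fun F => by
  simp only [ev_rev, ev_sub]

lemma rev_smul (a : ℝ) (f : Meas) : rev (a • f) = a • rev f := ev_ext fun F => by
  simp only [ev_rev, ev_smul]

lemma L1_rev {f : Meas} {e : ℝ} (h : L1 f e) : L1 (rev f) e := by
  refine le_trans ?_ h
  rw [← E_sgn]
  refine (le_abs_self _).trans ?_
  show |ev (rev f) (sgn (rev f))| ≤ _
  rw [ev_rev]
  exact (abs_E_le f fun w => (abs_sgn _ _).le).trans_eq (one_mul _)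

lemma L1_of_rev {f : Meas} {e : ℝ} (h : L1 (rev f) e) : L1 f e := by
  simpa [rev_rev] using L1_rev h

lemma pos_rev {f : Meas} (h : Pos f) : Pos (rev f) := fun w => by
  rw [coeff_eq_E]
  show 0 ≤ ev (rev f) _
  rw [ev_rev]
  exact E_nonneg h fun u => by unfold indW; split <;> norm_num

lemma prob_rev {f : Meas} (h : Prob f) : Prob (rev f) :=
  ⟨pos_rev h.1, by show ev (rev f) _ = 1; rw [ev_rev]; exact h.2⟩

variable {θ C Cs : ℝ} {Q c X : Meas}

lemma Bg.reversed (hb : Bg θ C Cs Q c X) : Bg θ C Cs (rev Q) (rev c) (rev X) where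
  θ0 := hb.θ0
  θ1 := hb.θ1
  C0 := hb.C0
  Cs0 := hb.Cs0
  probQ := prob_rev hb.probQ
  probc := prob_rev hb.probc
  dom := by rw [← rev_smul, ← rev_sub]; exact pos_rev hb.dom
  hX := by rw [hb.hX, rev_add, rev_smul, rev_smul, rev_one]
  smooth N hN := by rw [← rev_pow, ← rev_pow, ← rev_sub]; exact L1_rev (hb.smooth N hN)

/-- `n + 1` cells with gaps `2 h`, after a first gap `g`. -/
def Sp (X c : Meas) (h g n : ℕ) : Meas := X ^ g * c * (X ^ (2 * h) * c) ^ n

lemma Sp_prob (hb : Bg θ C Cs Q c X) (h g n : ℕ) : Prob (Sp X c h g n) := by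
  have hX := bg_pow_prob hb
  exact ((prob_pow hX g).mul hb.probc).mul (prob_pow ((prob_pow hX _).mul hb.probc) n)

lemma Sp_concat (h g n a m : ℕ) (ha : a ≤ 2 * h) :
    Sp X c h g n * X ^ a * Sp X c h (2 * h - a) m = Sp X c h g (n + 1 + m) := by
  unfold Sp
  have e : X ^ a * (X ^ (2 * h - a) * c * (X ^ (2 * h) * c) ^ m) = (X ^ (2 * h) * c) ^ (1 + m) := by
    rw [pow_add, pow_one, ← mul_assoc, ← mul_assoc, ← pow_add, Nat.add_sub_cancel' ha]
  rw [mul_assoc _ (X ^ a), e, mul_assoc (X ^ g * c), ← pow_add, add_assoc]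

lemma rev_piece (h g n g' : ℕ) :
    rev (Sp X c h g n * X ^ g') = Sp (rev X) (rev c) h g' n * rev X ^ g := by
  simp only [Sp, rev_mul, rev_pow, mul_assoc]
  congr 1
  rw [← mul_assoc, ← mul_assoc (rev c)]
  congr 1
  induction n with
  | zero => simp
  | succ n ih =>
    rw [pow_succ' (rev c * rev X ^ (2 * h)), mul_assoc, ih, pow_succ']
    simp only [mul_assoc]

/-- The length of a piece, in units. -/
def plen (h g n g' : ℕ) : ℕ := g + 2 * h * n + g' + (n + 1)

lemma piece_close (hb : Bg θ C Cs Q c X) :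
    ∃ cc : ℝ, 0 < cc ∧ cc ≤ 1 ∧ ∀ h : ℕ, 0 < h → ∀ n g g' : ℕ, ((n + 1 : ℕ) : ℝ) ≤ cc * h →
      h ≤ 3 * g → g ≤ 3 * h → h ≤ 3 * g' → g' ≤ 3 * h →
      L1 (Sp X c h g n * X ^ g' - X ^ plen h g n g') (1 / 4) := by
  obtain ⟨c1, c10, c11, H1⟩ := run_close hb (ε := 1 / 12) (by norm_num)
  obtain ⟨c2, c20, c21, H2⟩ := run_close hb.reversed (ε := 1 / 12) (by norm_num)
  have hPX := bg_pow_prob hb
  refine ⟨min c1 c2, lt_min c10 c20, (min_le_left _ _).trans c11, fun h hh n => ?_⟩
  have hh' : (0 : ℝ) ≤ h := Nat.cast_nonneg h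
  induction n using Nat.strong_induction_on with
  | _ n ih =>
    intro g g' hn hg1 hg2 hg3 hg4
    have hn1 : ((n + 1 : ℕ) : ℝ) ≤ c1 * h :=
      hn.trans (mul_le_mul_of_nonneg_right (min_le_left _ _) hh')
    have hn2 : ((n + 1 : ℕ) : ℝ) ≤ c2 * h :=
      hn.trans (mul_le_mul_of_nonneg_right (min_le_right _ _) hh')
    rcases Nat.eq_zero_or_pos n with rfl | hn0
    · have := H1 h g 0 g' hh hn1 hg1 hg2 (by omega)
      rw [show g + 2 * h * 0 + g' + (0 + 1) = plen h g 0 g' from rfl] at this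
      exact L1_mono this (by norm_num)
    obtain ⟨u, v, huv, hvu, hvu'⟩ : ∃ u v : ℕ, n = u + 1 + v ∧ u ≤ v ∧ v ≤ u + 1 :=
      ⟨(n - 1) / 2, n - 1 - (n - 1) / 2, by omega, by omega, by omega⟩
    have hu : ((u + 1 : ℕ) : ℝ) ≤ min c1 c2 * h :=
      le_trans (by exact_mod_cast (show u + 1 ≤ n + 1 by omega)) hn
    have hv : ((v + 1 : ℕ) : ℝ) ≤ min c1 c2 * h :=
      le_trans (by exact_mod_cast (show v + 1 ≤ n + 1 by omega)) hn
    set PA := Sp X c h g u * X ^ h
    set PB := Sp X c h h v * X ^ g'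
    set la := plen h g u h with hla
    set lb := plen h h v g' with hlb
    have hsplit : Sp X c h g n * X ^ g' = PA * PB := by
      simp only [PA, PB]
      rw [← mul_assoc]
      have := Sp_concat (X := X) (c := c) h g u h v (by omega)
      rw [show 2 * h - h = h by omega] at this
      rw [this, huv]
    have hlen : plen h g n g' = la + lb := by
      simp only [hla, hlb, plen, huv]; ring
    have ha : L1 ((PA - X ^ la) * X ^ lb) (1 / 12) := by
      have := H1 h g u (h + lb) hh (hu.trans (mul_le_mul_of_nonneg_right (min_le_left _ _) hh'))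
        hg1 hg2 (by
          simp only [hlb, plen]
          have : 2 * h * u ≤ 2 * h * v := Nat.mul_le_mul_left _ hvu
          omega)
      rw [sub_mul, ← pow_add]
      simp only [PA, mul_assoc, ← pow_add]
      rw [show la + lb = g + 2 * h * u + (h + lb) + (u + 1) by simp only [hla, plen]; ring]
      simpa only [Sp, mul_assoc] using this
    have hbb : L1 (X ^ la * (PB - X ^ lb)) (1 / 12) := by
      apply L1_of_rev
      have := H2 h g' v (h + la) hh (hv.trans (mul_le_mul_of_nonneg_right (min_le_right _ _) hh'))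
        hg3 hg4 (by
          simp only [hla, plen]
          have h9 : 2 * h * v ≤ 2 * h * u + 2 * h := by
            calc 2 * h * v ≤ 2 * h * (u + 1) := Nat.mul_le_mul_left _ hvu'
              _ = 2 * h * u + 2 * h := by ring
          omega)
      rw [rev_mul, rev_sub, rev_pow, rev_pow, sub_mul, ← pow_add]
      simp only [PB, rev_piece, mul_assoc, ← pow_add]
      rw [show lb + la = g' + 2 * h * v + (h + la) + (v + 1) by simp only [hlb, plen]; ring]
      simpa only [Sp, mul_assoc] using this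
    have h3 : L1 ((PA - X ^ la) * (PB - X ^ lb)) (1 / 4 * (1 / 4)) :=
      (ih u (by omega) g h hu hg1 hg2 (by omega) (by omega)).mul
        (ih v (by omega) h g' hv (by omega) (by omega) hg3 hg4)
    have e : PA * PB - X ^ (la + lb) = (PA - X ^ la) * X ^ lb + X ^ la * (PB - X ^ lb)
        + (PA - X ^ la) * (PB - X ^ lb) := by
      rw [pow_add]; noncomm_ring
    rw [hsplit, hlen, e]
    exact L1_mono ((ha.add hbb).add h3) (by norm_num)

end Vale.Agent.P321.BO
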