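import Vale.Agent.P321.Smoothing
import Vale.Agent.P321.PieceClose

/-!
# P321: consecutive powers of the first base word overlap

`U ^ N` and `U ^ (N + 1)` are cut into `J` pieces whose lengths differ by about `2 h / J` units and
whose ends keep away from the cells.
-/

noncomputable section

open Finset

namespace Vale.Agent.P321

namespace BO

variable {θ C Cs : ℝ} {Q c X : Meas}

lemma pow_shift (hX : Prob X) (hs : Smooth X Cs) (hCs : 0 ≤ Cs) {A : ℕ} (hA : 1 ≤ A) (k : ℕ) :
    L1 (X ^ A - X ^ (A + k)) (k * Real.sqrt (Cs / A)) := by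
  induction k with
  | zero => simpa using L1_zero
  | succ k ih =>
    have h := hs (A + k) (by omega)
    have e : X ^ A - X ^ (A + (k + 1)) = (X ^ A - X ^ (A + k)) + (X ^ (A + k) - X ^ (A + k + 1)) := by
      rw [← add_assoc]; abel
    rw [e]
    refine L1_mono (ih.add h) ?_
    have : Real.sqrt (Cs / ((A + k : ℕ) : ℝ)) ≤ Real.sqrt (Cs / A) :=
      Real.sqrt_le_sqrt (div_le_div_of_nonneg_left hCs (by exact_mod_cast hA)
        (by exact_mod_cast Nat.le_add_right A k))
    push_cast at this ⊢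
    linarith

/-- The cut of the shorter word, for a shift `x`. -/
def cutA (h x : ℕ) : ℕ := if x ≤ h then h - x / 2 else h + (2 * h + 1 - x) / 2

/-- The cut of the longer word. -/
def cutB (h x : ℕ) : ℕ := if x ≤ h then h - x / 2 + x else h + (2 * h + 1 - x) / 2 - (2 * h + 1 - x)

/-- The number of cells gained by the longer word. -/
def carry (h x : ℕ) : ℕ := if x ≤ h then 0 else 1

lemma cut_facts (h x : ℕ) (hx : x ≤ 2 * h + 1) (hh : 6 ≤ h) :
    h ≤ 3 * cutA h x ∧ cutA h x ≤ 2 * h ∧ h ≤ 3 * (2 * h - cutA h x) ∧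
    h ≤ 3 * cutB h x ∧ cutB h x ≤ 2 * h ∧ h ≤ 3 * (2 * h - cutB h x) ∧
    cutB h x + carry h x * (2 * h + 1) = cutA h x + x ∧ carry h x ≤ 1 := by
  unfold cutA cutB carry
  split_ifs <;> omega

/-- The longer word's pieces are longer by the increase of the shift. -/
lemma plen_diff (h x y : ℕ) (m k : ℕ) (hxy : x ≤ y) (hy : y ≤ 2 * h + 1) (hh : 6 ≤ h)
    (hk : k + carry h x = m + carry h y) :
    plen h (2 * h - cutB h x) k (cutB h y)
      = plen h (2 * h - cutA h x) m (cutA h y) + (y - x) := by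
  obtain ⟨-, ha2, -, -, hb2, -, hex, hcx⟩ := cut_facts h x (by omega) hh
  obtain ⟨-, ha2', -, -, hb2', -, hey, hcy⟩ := cut_facts h y hy hh
  unfold plen
  generalize carry h x = s at *
  generalize carry h y = s' at *
  generalize cutA h x = a at *
  generalize cutA h y = a' at *
  generalize cutB h x = b at *
  generalize cutB h y = b' at *
  interval_cases s <;> interval_cases s'
  · obtain rfl : k = m := by omega
    omega
  · obtain rfl : k = m + 1 := by omega
    have : 2 * h * (m + 1) = 2 * h * m + 2 * h := by ring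
    omega
  · obtain rfl : m = k + 1 := by omega
    have : 2 * h * (k + 1) = 2 * h * k + 2 * h := by ring
    omega
  · obtain rfl : k = m := by omega
    omega

lemma carry_mono (h : ℕ) {x y : ℕ} (hxy : x ≤ y) : carry h x ≤ carry h y := by
  unfold carry; split_ifs <;> omega

lemma overlap_chain (hb : Bg θ C Cs Q c X) {h M J : ℕ} {cc : ℝ} (hh : 6 ≤ h) (hJ : 0 < J)
    (hM : 1 ≤ M) (hMc : ((M + 1 : ℕ) : ℝ) ≤ cc * h)
    (hpc : ∀ n g g' : ℕ, ((n + 1 : ℕ) : ℝ) ≤ cc * h → h ≤ 3 * g → g ≤ 3 * h → h ≤ 3 * g' →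
      g' ≤ 3 * h → L1 (Sp X c h g n * X ^ g' - X ^ plen h g n g') (1 / 4))
    (hshift : ∀ A k : ℕ, h * M ≤ 3 * A → k ≤ (2 * h + 1) / J + 1 →
      L1 (X ^ A - X ^ (A + k)) (1 / 2)) :
    ∃ com : Meas, Pos com ∧ mass com = (1 / 2 : ℝ) ^ J ∧
      Pos (Sp X c h h (J * M - 1) * X ^ h - com) ∧ Pos (Sp X c h h (J * M) * X ^ h - com) := by
  have hPX := bg_pow_prob hb
  obtain ⟨x, hx⟩ : ∃ x : ℕ → ℕ, ∀ j, x j = j * (2 * h + 1) / J := ⟨_, fun _ => rfl⟩
  have xle : ∀ j ≤ J, x j ≤ 2 * h + 1 := fun j hj => by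
    rw [hx]; exact Nat.div_le_of_le_mul (Nat.mul_le_mul_right _ hj)
  have xmono : ∀ j, x j ≤ x (j + 1) := fun j => by
    rw [hx, hx]; exact Nat.div_le_div_right (Nat.mul_le_mul_right _ (Nat.le_succ j))
  have xstep : ∀ j, x (j + 1) - x j ≤ (2 * h + 1) / J + 1 := fun j => by
    rw [hx, hx, add_one_mul]
    have := Nat.add_div (a := j * (2 * h + 1)) (b := 2 * h + 1) hJ
    rw [this]; clear this
    generalize (2 * h + 1) / J = u
    generalize j * (2 * h + 1) / J = v
    split_ifs <;> omega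
  have x0 : x 0 = 0 := by rw [hx]; simp
  have xJ : x J = 2 * h + 1 := by rw [hx]; exact Nat.mul_div_cancel_left _ hJ
  have main : ∀ j, 1 ≤ j → j ≤ J → ∃ com : Meas, Pos com ∧ mass com = (1 / 2 : ℝ) ^ j ∧
      Pos (Sp X c h h (j * M - 1) * X ^ cutA h (x j) - com) ∧
      Pos (Sp X c h h (j * M + carry h (x j) - 1) * X ^ cutB h (x j) - com) := by
    have piece : ∀ j, j < J → ∃ com : Meas, Pos com ∧ mass com = 1 / 2 ∧
        Pos (Sp X c h (2 * h - cutA h (x j)) (M - 1) * X ^ cutA h (x (j + 1)) - com) ∧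
        Pos (Sp X c h (2 * h - cutB h (x j)) (M + carry h (x (j + 1)) - carry h (x j) - 1)
          * X ^ cutB h (x (j + 1)) - com) := by
      intro j hj
      obtain ⟨a1, a2, a3, b1, b2, b3, -, -⟩ := cut_facts h (x j) (xle j (by omega)) hh
      obtain ⟨a1', a2', a3', b1', b2', b3', -, c'⟩ := cut_facts h (x (j + 1)) (xle _ hj) hh
      have hcm := carry_mono h (xmono j)
      set k := M + carry h (x (j + 1)) - carry h (x j) - 1 with hk
      have hkc : ((k + 1 : ℕ) : ℝ) ≤ cc * h :=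
        le_trans (by exact_mod_cast (show k + 1 ≤ M + 1 by omega)) hMc
      have hmc : ((M - 1 + 1 : ℕ) : ℝ) ≤ cc * h :=
        le_trans (by exact_mod_cast (show M - 1 + 1 ≤ M + 1 by omega)) hMc
      have hA := hpc (M - 1) _ (cutA h (x (j + 1))) hmc a3 (by omega) a1' (by omega)
      have hB := hpc k _ (cutB h (x (j + 1))) hkc b3 (by omega) b1' (by omega)
      rw [plen_diff h (x j) (x (j + 1)) (M - 1) k (xmono j) (xle _ hj) hh (by omega)] at hB
      have hS := hshift (plen h (2 * h - cutA h (x j)) (M - 1) (cutA h (x (j + 1))))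
        (x (j + 1) - x j) (by
          unfold plen
          have : 2 * h * (M - 1) + 2 * h = 2 * (h * M) := by
            rw [mul_assoc, ← mul_add, ← mul_add_one, show M - 1 + 1 = M by omega]
          have : h * 1 ≤ h * M := Nat.mul_le_mul_left _ hM
          omega) (xstep j)
      have htot : L1 (Sp X c h (2 * h - cutA h (x j)) (M - 1) * X ^ cutA h (x (j + 1))
          - Sp X c h (2 * h - cutB h (x j)) k * X ^ cutB h (x (j + 1))) (2 - 2 * (1 / 2)) := by
        have := (hA.add hS).add (L1_neg hB)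
        rw [sub_add_sub_cancel, neg_sub, sub_add_sub_cancel] at this
        exact L1_mono this (by norm_num)
      obtain ⟨com, p0, p1, p2, p3⟩ := exists_common ((Sp_prob hb h _ _).mul (prob_pow hPX _))
        ((Sp_prob hb h _ _).mul (prob_pow hPX _)) (by norm_num) htot
      exact ⟨com, p0, p3, p1, p2⟩
    intro j hj1
    induction j, hj1 using Nat.le_induction with
    | base =>
      intro hJ1
      obtain ⟨com, p0, pm, pa, pb⟩ := piece 0 (by omega)
      refine ⟨com, p0, by rw [pm, pow_one], ?_, ?_⟩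
      · simpa [x0, cutA, show 2 * h - h = h by omega] using pa
      · simpa [x0, cutB, carry, show 2 * h - h = h by omega] using pb
    | succ j hj1 ih =>
      intro hjJ
      obtain ⟨com, p0, pm, pa, pb⟩ := ih (by omega)
      obtain ⟨com', p0', pm', pa', pb'⟩ := piece j (by omega)
      obtain ⟨a1, a2, a3, b1, b2, b3, -, -⟩ := cut_facts h (x j) (xle j (by omega)) hh
      have hcm := carry_mono h (xmono j)
      obtain ⟨-, -, -, -, -, -, -, c'⟩ := cut_facts h (x (j + 1)) (xle _ hjJ) hh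
      have hjM : 1 ≤ j * M := Nat.one_le_iff_ne_zero.mpr (Nat.mul_ne_zero (by omega) (by omega))
      have hsucc : (j + 1) * M = j * M + M := by ring
      refine ⟨com * com', pos_mul p0 p0', by rw [mass_mul, pm, pm', pow_succ], ?_, ?_⟩
      · have e := Sp_concat (X := X) (c := c) h h (j * M - 1) (cutA h (x j)) (M - 1) a2
        rw [show j * M - 1 + 1 + (M - 1) = (j + 1) * M - 1 by omega] at e
        rw [← e, mul_assoc _ (Sp X c h _ _) (X ^ _)]
        exact pos_mul_sub ((Sp_prob hb h _ _).mul (prob_pow hPX _)).1 p0 pa pa'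
      · have e := Sp_concat (X := X) (c := c) h h (j * M + carry h (x j) - 1) (cutB h (x j))
          (M + carry h (x (j + 1)) - carry h (x j) - 1) b2
        rw [show j * M + carry h (x j) - 1 + 1 + (M + carry h (x (j + 1)) - carry h (x j) - 1)
          = (j + 1) * M + carry h (x (j + 1)) - 1 by omega] at e
        rw [← e, mul_assoc _ (Sp X c h _ _) (X ^ _)]
        exact pos_mul_sub ((Sp_prob hb h _ _).mul (prob_pow hPX _)).1 p0 pb pb'
  obtain ⟨com, p0, pm, pa, pb⟩ := main J hJ le_rfl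
  refine ⟨com, p0, pm, ?_, ?_⟩
  · simpa [xJ, cutA, show ¬ (2 * h + 1 ≤ h) by omega] using pa
  · simpa [xJ, cutB, carry, show ¬ (2 * h + 1 ≤ h) by omega] using pb

lemma base_pow (h k : ℕ) :
    (X ^ h * c * X ^ h) ^ (k + 1) = Sp X c h h k * X ^ h := by
  induction k with
  | zero => simp [Sp]
  | succ k ih =>
    rw [pow_succ, ih]
    have e := Sp_concat (X := X) (c := c) h h k h 0 (by omega)
    rw [show 2 * h - h = h by omega, add_zero] at e
    rw [← e]
    simp only [Sp, pow_zero, mul_one, mul_assoc]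

end BO

open BO in
theorem base_overlap {q : ℝ} (h0 : 0 < q) (h1 : q < 1) :
    ∃ (s : ℝ) (C : ℕ), 0 < s ∧ s ≤ 1 ∧ ∀ h : ℕ, C ≤ h →
      ∃ N : ℕ, 1 ≤ N ∧ N ≤ C * h ∧
        L1 (law q (baseU h) ^ N - law q (baseU h) ^ (N + 1)) (2 - 2 * s) := by
  obtain ⟨θ, C, hθ0, hθ1, Q, hQ, hX, hdom, -⟩ := bg_split h0 h1
  obtain ⟨Cs, hCs, hsm⟩ := bg_smooth h0 h1
  set X := bgLaw q with hXdef
  set c := law q (FreeMonoid.of true) with hcdef
  have hc : Prob c := law_prob h0 h1 _
  have hC : 0 ≤ C := by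
    have := hdom.mass_nonneg
    rw [mass_sub, mass_smul, hQ.2, hc.2] at this
    linarith
  have hb : Bg θ C Cs Q c X := ⟨hθ0, hθ1, hC, hCs.le, hQ, hc, hdom, hX, hsm⟩
  obtain ⟨cc, hcc0, hcc1, hpc⟩ := piece_close hb
  set J := ⌈8 * Real.sqrt (12 * Cs / cc)⌉₊ + 1 with hJdef
  have hJ : 0 < J := Nat.succ_pos _
  set K := max (max J 6) (⌈4 / cc⌉₊ + 1) with hK
  refine ⟨(1 / 2 : ℝ) ^ J, K, by positivity, pow_le_one₀ (by norm_num) (by norm_num),
    fun h hh => ?_⟩
  have hh6 : 6 ≤ h := le_trans ((le_max_right _ _).trans (le_max_left _ _)) hh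
  have hhJ : J ≤ h := le_trans ((le_max_left _ _).trans (le_max_left _ _)) hh
  have hh' : (0 : ℝ) < h := by exact_mod_cast (show 0 < h by omega)
  have hch : 4 ≤ cc * h := by
    have h4 : ((⌈4 / cc⌉₊ + 1 : ℕ) : ℝ) ≤ h := by exact_mod_cast le_trans (le_max_right _ _) hh
    have := (Nat.le_ceil (4 / cc))
    push_cast at h4
    have h5 : 4 / cc ≤ h := by linarith
    rw [div_le_iff₀ hcc0] at h5
    linarith
  set M := ⌊cc * h / 2⌋₊ with hMdef
  have hMle : (M : ℝ) ≤ cc * h / 2 := Nat.floor_le (by positivity)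
  have hMge : cc * h / 4 ≤ M := by
    have := Nat.lt_floor_add_one (cc * h / 2)
    rw [← hMdef] at this
    linarith
  have hM1 : 1 ≤ M := Nat.le_floor (by push_cast; linarith)
  have hMh : M ≤ h := by
    have : (M : ℝ) ≤ h := by
      have := mul_le_of_le_one_left hh'.le hcc1
      linarith
    exact_mod_cast this
  have hPX := bg_pow_prob hb
  have hshift : ∀ A k : ℕ, h * M ≤ 3 * A → k ≤ (2 * h + 1) / J + 1 →
      L1 (X ^ A - X ^ (A + k)) (1 / 2) := by
    intro A k hA hk
    have hA1 : 1 ≤ A := by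
      have : 1 ≤ h * M := Nat.one_le_iff_ne_zero.mpr (Nat.mul_ne_zero (by omega) (by omega))
      omega
    refine L1_mono (pow_shift hPX hsm hCs.le hA1 k) ?_
    have hJ' : (0 : ℝ) < J := by exact_mod_cast hJ
    have hk' : (k : ℝ) ≤ 4 * h / J := by
      have h2 : (((2 * h + 1) / J : ℕ) : ℝ) ≤ ((2 * h + 1 : ℕ) : ℝ) / J := Nat.cast_div_le
      have h3 : (k : ℝ) ≤ (((2 * h + 1) / J : ℕ) : ℝ) + 1 := by exact_mod_cast hk
      have h4 : (J : ℝ) ≤ h := by exact_mod_cast hhJ
      have h6 : (6 : ℝ) ≤ h := by exact_mod_cast hh6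
      push_cast at h2
      rw [le_div_iff₀ hJ'] at h2 ⊢
      nlinarith [mul_le_mul_of_nonneg_right h3 hJ'.le]
    have hA' : (h : ℝ) * M ≤ 3 * A := by exact_mod_cast hA
    have hsqrt : Real.sqrt (Cs / A) ≤ Real.sqrt (12 * Cs / cc) / h := by
      rw [le_div_iff₀ hh', ← Real.sqrt_sq hh'.le, ← Real.sqrt_mul (by positivity)]
      refine Real.sqrt_le_sqrt ?_
      rw [div_mul_eq_mul_div, div_le_div_iff₀ (by exact_mod_cast hA1) hcc0]
      have h7 : cc * (h : ℝ) ^ 2 ≤ 12 * A := by nlinarith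
      nlinarith
    have hJb : 8 * Real.sqrt (12 * Cs / cc) ≤ J := by
      have := Nat.le_ceil (8 * Real.sqrt (12 * Cs / cc))
      rw [hJdef]; push_cast; linarith
    calc (k : ℝ) * Real.sqrt (Cs / A) ≤ 4 * h / J * (Real.sqrt (12 * Cs / cc) / h) :=
          mul_le_mul hk' hsqrt (Real.sqrt_nonneg _) (by positivity)
      _ = 4 * Real.sqrt (12 * Cs / cc) / J := by field_simp
      _ ≤ 1 / 2 := by rw [div_le_iff₀ hJ']; linarith
  obtain ⟨com, p0, pm, pa, pb⟩ := overlap_chain hb hh6 hJ hM1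
    (by push_cast; linarith) (hpc h (by omega)) hshift
  have hU : law q (baseU h) = X ^ h * c * X ^ h := by
    simp only [baseU, map_mul, map_pow, hXdef, hcdef, bgLaw]
  have hNM : 1 ≤ J * M := Nat.one_le_iff_ne_zero.mpr (Nat.mul_ne_zero (by omega) (by omega))
  refine ⟨J * M, hNM, Nat.mul_le_mul ((le_max_left _ _).trans (le_max_left _ _)) hMh, ?_⟩
  rw [hU, base_pow h (J * M), show J * M = J * M - 1 + 1 by omega, base_pow h (J * M - 1),
    show J * M - 1 + 1 = J * M by omega]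
  exact L1_of_common ((Sp_prob hb h _ _).mul (prob_pow hPX _))
    ((Sp_prob hb h _ _).mul (prob_pow hPX _)) pa pb pm

end Vale.Agent.P321
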