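import Vale.Agent.P321.Defs

/-!
# P321: algebra of `ev`, `L1`, `Nle`, `Bd`

Owner: helper11. The statements below are the ones other modules rely on; add freely.
-/

noncomputable section

namespace Vale.Agent.P321

theorem ev_mul (f g : Meas) (F : Word → ℝ) :
    ev (f * g) F = ev f (fun x => ev g fun y => F (x * y)) := E_mul f g F

theorem Prob.pow {f : Meas} (hf : Prob f) (n : ℕ) : Prob (f ^ n) :=
  ⟨hf.1.pow n, by rw [mass_pow, hf.2, one_pow]⟩

theorem Prob.mul {f g : Meas} (hf : Prob f) (hg : Prob g) : Prob (f * g) :=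
  ⟨hf.1.mul hg.1, by rw [mass_mul, hf.2, hg.2, one_mul]⟩

theorem L1.add {f g : Meas} {a b : ℝ} (hf : L1 f a) (hg : L1 g b) : L1 (f + g) (a + b) :=
  (l1_add_le f g).trans (add_le_add hf hg)

theorem L1.mul {f g : Meas} {a b : ℝ} (hf : L1 f a) (hg : L1 g b) : L1 (f * g) (a * b) :=
  (l1_mul_le f g).trans (mul_le_mul hf hg (l1_nonneg _) ((l1_nonneg _).trans hf))

theorem Nle.add {f g W : Meas} {a b : ℝ} (hW : Pos W) (ha : 0 ≤ a) (hb : 0 ≤ b)
    (hf : Nle f W a) (hg : Nle g W b) : Nle (f + g) W (a + b) := NB.add hW ha hb hf hg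

theorem Nle.mul {f g W V : Meas} {a b : ℝ} (hW : Pos W) (hV : Pos V) (ha : 0 ≤ a) (hb : 0 ≤ b)
    (hf : Nle f W a) (hg : Nle g V b) : Nle (f * g) (W * V) (a * b) := by
  have := NB.mul hW hV (sq_nonneg a) hf hg
  rwa [← mul_pow] at this

theorem Nle.toL1 {f W : Meas} {a : ℝ} (hW : Prob W) (ha : 0 ≤ a) (hf : Nle f W a) : L1 f a :=
  NB.l1_le hf ha hW.2

/-- Pieces with isolated mass-zero first factors are orthogonal. -/
theorem orth_family {G : Meas} (hG : Prob G) {len M : ℕ} (_hlen : 1 ≤ len) (S : Finset ℕ)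
    (v X : ℕ → Meas) (a b : ℕ → ℝ) (hsep : ∀ s ∈ S, ∀ t ∈ S, s < t → s + len ≤ t)
    (hfit : ∀ s ∈ S, s + len ≤ M) (hm : ∀ s ∈ S, mass (v s) = 0)
    (_ha : ∀ s ∈ S, 0 ≤ a s) (_hb : ∀ s ∈ S, 0 ≤ b s)
    (hv : ∀ s ∈ S, Nle (v s) (G ^ len) (a s))
    (hX : ∀ s ∈ S, Nle (X s) (G ^ (M - s - len)) (b s)) :
    Nle (∑ s ∈ S, G ^ s * v s * X s) (G ^ M) (Real.sqrt (∑ s ∈ S, a s ^ 2 * b s ^ 2)) := by
  show NB _ _ _
  rw [Real.sq_sqrt (Finset.sum_nonneg fun s _ => mul_nonneg (sq_nonneg _) (sq_nonneg _))]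
  exact NB.bessel hG.1 hG.2 S M hsep hfit hm (fun s _ => sq_nonneg _) (fun s _ => sq_nonneg _) hv hX

/-- A mass-zero piece on a window of `len` units spreads. -/
theorem spread_single {G f : Meas} (hG : Prob G) {o len k : ℕ} (hlen : 1 ≤ len) {a : ℝ}
    (_ha : 0 ≤ a) (hm : mass f = 0) (hf : Nle f (G ^ len) a) :
    Spread G (o + len + k) (G ^ o * f * G ^ k) (Real.sqrt len * a) 0 := by
  refine ⟨G ^ o * f * G ^ k, by simp [L1, l1_zero], by rw [mass_mul, mass_mul, hm]; ring, ?_⟩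
  intro L w X n' b hb hX
  have key := NB.translates hG.1 hG.2 (o := o) (M := L + (o + len + k) + n') (S := L + 1) w
    (fun s => G ^ k * X * G ^ (L - s)) hlen hm (sq_nonneg a) (sq_nonneg b) hf
    (fun s hs => by omega) (fun s hs => by
      have h2 := NB.mul (hG.1.pow k) (hG.1.pow n') (hG.1.pow k).mass_nonneg (nb_self (hG.1.pow k))
        hX
      rw [mass_pow, hG.2, one_pow, one_mul] at h2
      have h3 := NB.mul ((hG.1.pow k).mul (hG.1.pow n')) (hG.1.pow (L - s)) (sq_nonneg b) h2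
        (nb_self (hG.1.pow (L - s)))
      rw [mass_pow, hG.2, one_pow, mul_one, ← pow_add, ← pow_add] at h3
      rwa [show L + (o + len + k) + n' - (o + s) - len = k + n' + (L - s) by omega])
  have e : Tr G L w (G ^ o * f * G ^ k * X) =
      ∑ s ∈ Finset.range (L + 1), w s • (G ^ (o + s) * f * (G ^ k * X * G ^ (L - s))) := by
    refine Finset.sum_congr rfl fun s _ => ?_
    simp only [← mul_assoc, ← pow_add]
    rw [add_comm o s]
  rw [e]
  refine key.mono (hG.1.pow _) (le_of_eq ?_)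
  rw [mul_pow, mul_pow, mul_pow, wsq, Real.sq_sqrt (Nat.cast_nonneg len),
    Real.sq_sqrt (Finset.sum_nonneg fun s _ => sq_nonneg _)]
  ring

theorem Nle.mono {f W : Meas} {a b : ℝ} (hW : Pos W) (h : Nle f W a) (ha : 0 ≤ a) (hab : a ≤ b) :
    Nle f W b := NB.mono h hW (pow_le_pow_left₀ ha hab 2)

theorem Nle.sum {ι : Type*} {s : Finset ι} {f : ι → Meas} {W : Meas} {a : ι → ℝ} (hW : Pos W)
    (ha : ∀ i ∈ s, 0 ≤ a i) (h : ∀ i ∈ s, Nle (f i) W (a i)) :
    Nle (∑ i ∈ s, f i) W (∑ i ∈ s, a i) := NB.sum hW ha h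

theorem Prob.nle_self {W : Meas} (hW : Prob W) : Nle W W 1 := by
  simpa [Nle, hW.2] using nb_self hW.1

theorem prob_one : Prob (1 : Meas) := ⟨pos_one, mass_one⟩

theorem Spread.add {G D E : Meas} {m : ℕ} {φ ψ ε δ : ℝ} (hG : Prob G) (hφ : 0 ≤ φ) (hψ : 0 ≤ ψ)
    (hD : Spread G m D φ ε) (hE : Spread G m E ψ δ) :
    Spread G m (D + E) (φ + ψ) (ε + δ) := by
  obtain ⟨D', h1, h2, h3⟩ := hD
  obtain ⟨E', k1, k2, k3⟩ := hE
  refine ⟨D' + E', ?_, by rw [mass_add, h2, k2, add_zero], fun L w X n' b hb hX => ?_⟩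
  · rw [add_sub_add_comm]; exact L1.add h1 k1
  · have e : Tr G L w ((D' + E') * X) = Tr G L w (D' * X) + Tr G L w (E' * X) := by
      simp only [Tr, ← Finset.sum_add_distrib]
      exact Finset.sum_congr rfl fun s _ => by rw [← smul_add, add_mul, mul_add, add_mul]
    rw [e, add_mul, add_mul]
    exact Nle.add (hG.1.pow _) (mul_nonneg (mul_nonneg hφ (Real.sqrt_nonneg _)) hb)
      (mul_nonneg (mul_nonneg hψ (Real.sqrt_nonneg _)) hb) (h3 L w X n' b hb hX)
      (k3 L w X n' b hb hX)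

theorem Spread.mono {G D : Meas} {m : ℕ} {φ ψ ε δ : ℝ} (hG : Prob G) (h : Spread G m D φ ε)
    (h0 : 0 ≤ φ) (hφ : φ ≤ ψ) (hε : ε ≤ δ) : Spread G m D ψ δ := by
  obtain ⟨D', h1, h2, h3⟩ := h
  refine ⟨D', h1.trans hε, h2, fun L w X n' b hb hX => Nle.mono (hG.1.pow _) (h3 L w X n' b hb hX)
    (mul_nonneg (mul_nonneg h0 (Real.sqrt_nonneg _)) hb) ?_⟩
  exact mul_le_mul_of_nonneg_right (mul_le_mul_of_nonneg_right hφ (Real.sqrt_nonneg _)) hb

theorem Spread.of_close {G D D₁ : Meas} {m : ℕ} {φ ε δ : ℝ} (h : Spread G m D₁ φ ε)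
    (hd : L1 (D - D₁) δ) : Spread G m D φ (δ + ε) := by
  obtain ⟨D', h1, h2, h3⟩ := h
  exact ⟨D', (l1_triangle _ _ _).trans (add_le_add hd h1), h2, h3⟩

theorem spread_zero {G : Meas} (hG : Prob G) {m : ℕ} {φ ε : ℝ} (hε : 0 ≤ ε) :
    Spread G m 0 φ ε := by
  refine ⟨0, by simpa [L1, l1_zero] using hε, mass_zero, fun L w X n' b hb _ => ?_⟩
  simpa [Tr] using nb_zero (hG.1.pow (L + m + n')) (sq_nonneg (φ * wsq L w * b))

theorem Spread.sum {G : Meas} (hG : Prob G) {m : ℕ} {ι : Type*} (s : Finset ι) {D : ι → Meas}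
    {φ ε : ι → ℝ} (hφ : ∀ i ∈ s, 0 ≤ φ i) (h : ∀ i ∈ s, Spread G m (D i) (φ i) (ε i)) :
    Spread G m (∑ i ∈ s, D i) (∑ i ∈ s, φ i) (∑ i ∈ s, ε i) := by
  classical
  induction s using Finset.induction_on with
  | empty => simpa using spread_zero hG (m := m) (φ := 0) le_rfl
  | insert a s ha ih =>
    simp only [Finset.sum_insert ha]
    exact Spread.add hG (hφ a (Finset.mem_insert_self _ _))
      (Finset.sum_nonneg fun i hi => hφ i (Finset.mem_insert_of_mem hi))
      (h a (Finset.mem_insert_self _ _))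
      (ih (fun i hi => hφ i (Finset.mem_insert_of_mem hi))
        fun i hi => h i (Finset.mem_insert_of_mem hi))

theorem Spread.exists_nle {G D : Meas} {m : ℕ} {φ ε : ℝ} (_hG : Prob G) (hD : Spread G m D φ ε) :
    ∃ D', L1 (D - D') ε ∧ mass D' = 0 ∧ Nle D' (G ^ m) φ := by
  obtain ⟨D', h1, h2, h3⟩ := hD
  refine ⟨D', h1, h2, ?_⟩
  have key := h3 0 (fun _ => 1) 1 0 1 zero_le_one (by simpa using prob_one.nle_self)
  simpa [Nle, Tr, wsq] using key

/-- A pointwise bounded measure inherits the `L²` bound of a nearby one. -/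
theorem Bd.transfer {D D' W : Meas} {lam e a : ℝ} (hW : Pos W) (hlam : 0 ≤ lam) (ha : 0 ≤ a)
    (he : 0 ≤ e) (hD : Bd D W lam) (hdd : L1 (D - D') e) (hD' : Nle D' W a) :
    Nle D W (a + Real.sqrt (2 * lam * e)) := by
  have h2 : 0 ≤ 2 * lam * e := by positivity
  refine (NB.of_dom_close hW hlam (sq_nonneg a) hD hD' hdd).mono hW ?_
  nlinarith [Real.sq_sqrt h2, mul_nonneg ha (Real.sqrt_nonneg (2 * lam * e))]

/-- The common part of two probability measures. -/
theorem exists_common {a b : Meas} (ha : Prob a) (hb : Prob b) {s : ℝ} (hs : 0 ≤ s)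
    (h : L1 (a - b) (2 - 2 * s)) :
    ∃ c, Pos c ∧ Pos (a - c) ∧ Pos (b - c) ∧ mass c = s := by
  classical
  let S := a.coeff.support ∪ b.coeff.support
  obtain ⟨c, hc⟩ : ∃ c : Meas, ∀ w, c.coeff w = min (a.coeff w) (b.coeff w) := by
    refine ⟨∑ w ∈ S, MonoidAlgebra.single w (min (a.coeff w) (b.coeff w)), fun w => ?_⟩
    simp only [MonoidAlgebra.coeff_sum, Finsupp.finsetSum_apply, MonoidAlgebra.coeff_single,
      Finsupp.single_apply, Finset.sum_ite_eq']
    split
    · rfl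
    · rename_i hw
      simp only [S, Finset.mem_union, not_or, Finsupp.notMem_support_iff] at hw
      simp [hw.1, hw.2]
  have hcp : Pos c := fun w => by rw [hc]; exact le_min (ha.1 w) (hb.1 w)
  have hca : Pos (a - c) := fun w => by
    simp only [MonoidAlgebra.coeff_sub, Finsupp.sub_apply, hc, sub_nonneg]; exact min_le_left _ _
  have hcb : Pos (b - c) := fun w => by
    simp only [MonoidAlgebra.coeff_sub, Finsupp.sub_apply, hc, sub_nonneg]; exact min_le_right _ _
  have hm : s ≤ mass c := by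
    have e : l1 (a - b) = mass (a - c) + mass (b - c) := by
      have key : ∀ w, |(a - b).coeff w| = (a - c).coeff w + (b - c).coeff w := fun w => by
        simp only [MonoidAlgebra.coeff_sub, Finsupp.sub_apply, hc]
        rcases le_total (a.coeff w) (b.coeff w) with hle | hle
        · rw [min_eq_left hle, abs_of_nonpos (by linarith)]; ring
        · rw [min_eq_right hle, abs_of_nonneg (by linarith)]; ring
      let T := (a - b).coeff.support ∪ (a - c).coeff.support ∪ (b - c).coeff.support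
      have hval : ∀ (f : Meas) (φ : ℝ → ℝ), φ 0 = 0 → f.coeff.support ⊆ T →
          (f.coeff.sum fun _ x => φ x) = ∑ w ∈ T, φ (f.coeff w) := fun f φ hφ hf =>
        Finset.sum_subset hf fun w _ hw => by simp [Finsupp.notMem_support_iff.1 hw, hφ]
      have e1 := hval (a - b) (fun x => |x|) abs_zero
        (Finset.subset_union_left.trans Finset.subset_union_left)
      have e2 := hval (a - c) (fun x => x * 1) (zero_mul _)
        (Finset.subset_union_right.trans Finset.subset_union_left)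
      have e3 := hval (b - c) (fun x => x * 1) (zero_mul _) Finset.subset_union_right
      simp only [l1, mass, E]
      rw [e1, e2, e3, ← Finset.sum_add_distrib]
      exact Finset.sum_congr rfl fun w _ => by rw [key, mul_one, mul_one]
    have h1 : l1 (a - b) ≤ 2 - 2 * s := h
    rw [e, mass_sub, mass_sub, ha.2, hb.2] at h1
    linarith
  rcases (hs.trans hm).eq_or_lt with h0 | h0
  · exact ⟨0, pos_zero, by simpa using ha.1, by simpa using hb.1, by rw [mass_zero]; linarith⟩
  · have hr0 : 0 ≤ s / mass c := by positivity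
    have hr1 : 0 ≤ 1 - s / mass c := sub_nonneg.2 ((div_le_one h0).2 hm)
    refine ⟨(s / mass c) • c, hcp.smul hr0, ?_, ?_, by rw [mass_smul]; field_simp⟩
    · have e : a - (s / mass c) • c = (a - c) + (1 - s / mass c) • c := by module
      rw [e]; exact hca.add (hcp.smul hr1)
    · have e : b - (s / mass c) • c = (b - c) + (1 - s / mass c) • c := by module
      rw [e]; exact hcb.add (hcp.smul hr1)

lemma blk_cons {M : Type*} [Monoid M] (u v : M) (x : Bool) (s : List Bool) :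
    blk u v (x :: s) = (if x then v else u) * blk u v s := by simp [blk]

lemma blk_append {M : Type*} [Monoid M] (u v : M) (s t : List Bool) :
    blk u v (s ++ t) = blk u v s * blk u v t := by simp [blk]

lemma blk_prob {U V : Meas} (hU : Prob U) (hV : Prob V) (s : List Bool) : Prob (blk U V s) := by
  induction s with
  | nil => exact prob_one
  | cons x s ih =>
    rw [blk_cons]
    cases x
    · simpa using hU.mul ih
    · simpa using hV.mul ih

theorem blk_L1 {x y U V : Meas} (hx : Prob x) (hy : Prob y) (hU : Prob U) (hV : Prob V) {e : ℝ}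
    (_he : 0 ≤ e) (h1 : L1 (x - U) e) (h2 : L1 (y - V) e) (s : List Bool) :
    L1 (blk x y s - blk U V s) (s.length * e) := by
  induction s with
  | nil => simp [blk, L1, l1_zero]
  | cons c s ih =>
    rw [blk_cons, blk_cons]
    refine (l1_mul_sub_mul _ _ _ _).trans ?_
    rw [(blk_prob hx hy s).1.l1_eq, (blk_prob hx hy s).2, mul_one]
    have t1 : l1 ((if c then y else x) - (if c then V else U)) ≤ e := by cases c <;> simpa
    have t2 : l1 (if c then V else U) ≤ 1 := by
      cases c <;> simp [hU.1.l1_eq, hU.2, hV.1.l1_eq, hV.2]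
    have t3 := mul_le_mul t2 ih (l1_nonneg _) zero_le_one
    push_cast [List.length_cons]; linarith

theorem law_eq_chLaw (q : ℝ) (w : Word) : law q w = chLaw q (FreeMonoid.toList w) :=
  FreeMonoid.lift_apply _ _

theorem law_prob {q : ℝ} (h0 : 0 < q) (h1 : q < 1) (w : Word) : Prob (law q w) := by
  rw [law_eq_chLaw]; exact ⟨pos_chLaw h0.le h1.le _, mass_chLaw _ _⟩

end Vale.Agent.P321
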