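import Vale.Agent.P321.OverlapTools

/-!
# P321: a run of cells followed by a free run of the background is close to the background

The expansion is over the position of the first defect, in a polynomial algebra that counts units.
-/

noncomputable section

open Finset

namespace Vale.Agent.P321.BO

/-- Background, unit and cell laws. -/
structure Bg (θ C Cs : ℝ) (Q c X : Meas) : Prop where
  θ0 : 0 < θ
  θ1 : θ < 1
  C0 : 0 ≤ C
  Cs0 : 0 ≤ Cs
  probQ : Prob Q
  probc : Prob c
  dom : Pos (C • Q - c)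
  hX : X = (1 - θ) • 1 + θ • Q
  smooth : Smooth X Cs

/-- A graded measure is bounded with respect to the powers of `Q`. -/
def GB (Q : Meas) (f : Polynomial Meas) (α : ℝ) : Prop :=
  ∃ a : ℕ → ℝ, (∀ K, 0 ≤ a K) ∧ (∀ K, Nle (f.coeff K) (Q ^ K) (a K)) ∧
    ∀ T : Finset ℕ, ∑ K ∈ T, a K ^ 2 ≤ α ^ 2

/-- The graded unit map. -/
def psi (Q : Meas) : Polynomial ℝ →ₐ[ℝ] Polynomial Meas :=
  Polynomial.aeval (Polynomial.C Q * Polynomial.X)

/-- Forgetting the grading. -/
def flat : Polynomial Meas →+* Meas :=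
  Polynomial.eval₂RingHom' (RingHom.id Meas) 1 fun a => Commute.one_right _

/-- The polynomial of one background unit. -/
def pB (θ : ℝ) : Polynomial ℝ := Polynomial.C (1 - θ) + Polynomial.C θ * Polynomial.X

lemma psi_coeff (Q : Meas) (p : Polynomial ℝ) (K : ℕ) :
    (psi Q p).coeff K = p.coeff K • Q ^ K := by
  induction p using Polynomial.induction_on' with
  | add p q hp hq => rw [map_add, Polynomial.coeff_add, hp, hq, Polynomial.coeff_add, add_smul]
  | monomial n a =>
    rw [psi, Polynomial.aeval_monomial, ((Polynomial.commute_X (Polynomial.C Q)).symm).mul_pow,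
      ← Polynomial.C_pow, Polynomial.algebraMap_apply, ← mul_assoc, ← Polynomial.C_mul,
      Polynomial.coeff_C_mul_X_pow, Polynomial.coeff_monomial, Algebra.algebraMap_eq_smul_one,
      smul_mul_assoc, one_mul]
    by_cases h : K = n
    · subst h; simp
    · simp [h, Ne.symm h]

lemma pB_pow_coeff (θ : ℝ) (G K : ℕ) : ((pB θ) ^ G).coeff K = bnw G θ K := by
  rw [pB, add_comm, add_pow, Polynomial.finsetSum_coeff]
  rw [Finset.sum_eq_single K]
  · rw [mul_pow, ← Polynomial.C_pow, ← Polynomial.C_pow, mul_assoc, mul_assoc,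
      Polynomial.coeff_C_mul, ← Polynomial.C_eq_natCast, ← Polynomial.C_mul,
      Polynomial.X_pow_mul_C, Polynomial.coeff_C_mul_X_pow, if_pos rfl]
    unfold bnw; ring
  · intro b _ hb
    rw [mul_pow, ← Polynomial.C_pow, ← Polynomial.C_pow, mul_assoc, mul_assoc,
      Polynomial.coeff_C_mul, ← Polynomial.C_eq_natCast, ← Polynomial.C_mul,
      Polynomial.X_pow_mul_C, Polynomial.coeff_C_mul_X_pow, if_neg (Ne.symm hb), mul_zero]
  · intro h
    rw [Finset.mem_range, not_lt] at h
    have : Nat.choose G K = 0 := Nat.choose_eq_zero_of_lt (by omega)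
    rw [this]; simp

lemma pp_coeff (θ : ℝ) (G i r : ℕ) :
    (pB θ ^ G * Polynomial.X ^ i).coeff r = pp θ G i r := by
  rw [Polynomial.coeff_mul_X_pow', pp]
  simp only [pB_pow_coeff]

lemma flat_C (a : Meas) : flat (Polynomial.C a) = a := by simp [flat]

lemma flat_X : flat Polynomial.X = 1 := by simp [flat]

lemma flat_eq_sum (f : Polynomial Meas) : flat f = ∑ K ∈ f.support, f.coeff K := by
  show Polynomial.eval₂ _ _ f = _
  rw [Polynomial.eval₂_eq_sum, Polynomial.sum_def]
  simp

variable {θ C Cs : ℝ} {Q c X : Meas}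

lemma flat_psi_pB (hX : X = (1 - θ) • 1 + θ • Q) : flat (psi Q (pB θ)) = X := by
  rw [pB, map_add, map_mul, psi, Polynomial.aeval_X, Polynomial.aeval_C, Polynomial.aeval_C,
    map_add, map_mul, map_mul, Polynomial.algebraMap_apply, Polynomial.algebraMap_apply, flat_C,
    flat_C, flat_C, flat_X, mul_one, hX, Algebra.algebraMap_eq_smul_one,
    Algebra.algebraMap_eq_smul_one, smul_mul_assoc, one_mul]

lemma flat_psi_X : flat (psi Q Polynomial.X) = Q := by
  rw [psi, Polynomial.aeval_X, map_mul, flat_C, flat_X, mul_one]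

lemma GB.add {f g : Polynomial Meas} {α β : ℝ} (hQ : Prob Q) (hα : 0 ≤ α) (hβ : 0 ≤ β)
    (hf : GB Q f α) (hg : GB Q g β) : GB Q (f + g) (α + β) := by
  obtain ⟨a, a0, an, as⟩ := hf
  obtain ⟨b, b0, bn, bs⟩ := hg
  refine ⟨fun K => a K + b K, fun K => add_nonneg (a0 K) (b0 K), fun K => ?_, fun T => ?_⟩
  · rw [Polynomial.coeff_add]; exact Nle.add (prob_pow hQ K).1 (a0 K) (b0 K) (an K) (bn K)
  · have h1 := as T
    have h2 := bs T
    have h3 : (∑ K ∈ T, a K * b K) ^ 2 ≤ (α * β) ^ 2 := by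
      refine (sum_mul_sq_le_sq_mul_sq T a b).trans ?_
      rw [mul_pow]
      exact mul_le_mul h1 h2 (sum_nonneg fun K _ => sq_nonneg _) (sq_nonneg _)
    have h4 : ∑ K ∈ T, a K * b K ≤ α * β :=
      (le_abs_self _).trans (abs_le_of_sq_le_sq h3 (mul_nonneg hα hβ))
    simp only [add_sq, sum_add_distrib, mul_assoc, ← mul_sum]
    linarith

lemma GB.mono {f : Polynomial Meas} {α β : ℝ} (hα : 0 ≤ α) (h : α ≤ β) (hf : GB Q f α) :
    GB Q f β := by
  obtain ⟨a, a0, an, as⟩ := hf
  exact ⟨a, a0, an, fun T => (as T).trans (pow_le_pow_left₀ hα h 2)⟩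

lemma GB_ref (h0 : 0 < θ) (h1 : θ < 1) (hQ : Prob Q) (G i : ℕ) {S : ℝ}
    (hS : 1 / Real.sqrt ((G + 1) * (θ * (1 - θ))) ≤ S) :
    GB Q (psi Q (pB θ ^ G * Polynomial.X ^ i)) (Real.sqrt S) := by
  refine ⟨pp θ G i, pp_nonneg h0.le h1.le G i, fun K => ?_, fun T => ?_⟩
  · rw [psi_coeff, pp_coeff]
    have := Nle_smul (Nle_self (prob_pow hQ K)) (pp θ G i K)
    rwa [abs_of_nonneg (pp_nonneg h0.le h1.le G i K), mul_one] at this
  · rw [Real.sq_sqrt (le_trans (by positivity) hS)]
    exact (pp_sq_sum_le h0 h1 G i T).trans hS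

lemma coeff_first (Q v : Meas) (p : Polynomial ℝ) (S : Polynomial Meas) (K : ℕ) :
    (psi Q p * (Polynomial.C v * Polynomial.X) * S).coeff K
      = ∑ r ∈ range K, p.coeff r • (Q ^ r * v * S.coeff (K - 1 - r)) := by
  rw [← mul_assoc, mul_assoc, Polynomial.X_mul, ← mul_assoc]
  cases K with
  | zero => simp
  | succ K =>
    rw [Polynomial.coeff_mul_X, Polynomial.coeff_mul,
      Finset.Nat.sum_antidiagonal_eq_sum_range_succ_mk]
    refine sum_congr rfl fun r _ => ?_
    rw [Polynomial.coeff_mul_C, psi_coeff, Nat.add_sub_cancel, smul_mul_assoc, smul_mul_assoc]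

/-- The first defect of a sum is isolated: the squares add. -/
lemma GB_first {H : ℝ} (hQ : Prob Q) {v : Meas} (hv : mass v = 0) (hvQ : Nle v Q H) (hH : 0 ≤ H)
    (n : ℕ) (p : ℕ → Polynomial ℝ) (S : ℕ → Polynomial Meas) {β Λ : ℝ}
    (hp : ∀ i r, 0 ≤ (p i).coeff r) (hS : ∀ i < n, GB Q (S i) β)
    (hΛ : ∀ R, ∑ i ∈ range n, ∑ j ∈ range n, ∑ r ∈ range R, (p i).coeff r * (p j).coeff r ≤ Λ) :
    GB Q (∑ i ∈ range n, psi Q (p i) * (Polynomial.C v * Polynomial.X) * S i)
      (H * Real.sqrt Λ * |β|) := by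
  classical
  choose! b b0 bn bs using hS
  have hΛ0 : 0 ≤ Λ := (le_of_eq (by simp)).trans (hΛ 0)
  set bb : ℕ → ℕ → ℝ := fun K r => ∑ i ∈ range n, (p i).coeff r * b i (K - 1 - r) with hbb
  have bb0 : ∀ K r, 0 ≤ bb K r := fun K r =>
    sum_nonneg fun i hi => mul_nonneg (hp i r) (b0 i (mem_range.1 hi) _)
  refine ⟨fun K => Real.sqrt (∑ r ∈ range K, H ^ 2 * bb K r ^ 2), fun K => Real.sqrt_nonneg _,
    fun K => ?_, fun T => ?_⟩
  · rw [Polynomial.finsetSum_coeff]
    simp only [coeff_first]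
    rw [sum_comm]
    have e : ∀ r, ∑ i ∈ range n, (p i).coeff r • (Q ^ r * v * (S i).coeff (K - 1 - r))
        = Q ^ r * v * ∑ i ∈ range n, (p i).coeff r • (S i).coeff (K - 1 - r) := fun r => by
      rw [mul_sum]; exact sum_congr rfl fun i _ => by rw [mul_smul_comm]
    simp only [e]
    exact orth_family hQ le_rfl (range K) (fun _ => v) _ (fun _ => H) (bb K)
      (fun s _ t _ h => h) (fun s hs => mem_range.1 hs) (fun _ _ => hv) (fun _ _ => hH)
      (fun r _ => bb0 K r) (fun _ _ => by rwa [pow_one]) (fun r _ => by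
        rw [show K - r - 1 = K - 1 - r by omega]
        refine Nle.sum (prob_pow hQ _).1 (fun i hi => mul_nonneg (hp i r) (b0 i (mem_range.1 hi) _)) fun i hi => ?_
        have := Nle_smul (bn i (mem_range.1 hi) (K - 1 - r)) ((p i).coeff r)
        rwa [abs_of_nonneg (hp i r)] at this)
  · simp only [Real.sq_sqrt (sum_nonneg fun r _ => mul_nonneg (sq_nonneg H) (sq_nonneg _))]
    rw [mul_pow, mul_pow, Real.sq_sqrt hΛ0, sq_abs]
    obtain ⟨R, hR⟩ : ∃ R, ∀ K ∈ T, K ≤ R := ⟨T.sup id, fun K hK => le_sup (f := id) hK⟩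
    have e : ∑ K ∈ T, ∑ r ∈ range K, H ^ 2 * bb K r ^ 2
        = H ^ 2 * ∑ i ∈ range n, ∑ j ∈ range n, ∑ r ∈ range R, (p i).coeff r * (p j).coeff r *
          ∑ K ∈ T.filter (fun K => r < K), b i (K - 1 - r) * b j (K - 1 - r) := by
      have e1 : ∀ K ∈ T, ∑ r ∈ range K, H ^ 2 * bb K r ^ 2
          = ∑ r ∈ range R, if r < K then H ^ 2 * bb K r ^ 2 else 0 := fun K hK => by
        rw [← sum_filter]
        refine sum_congr ?_ fun _ _ => rfl
        ext r
        simp only [mem_range, mem_filter]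
        exact ⟨fun h => ⟨by have := hR K hK; omega, h⟩, fun h => h.2⟩
      have e2 : ∀ r, (∑ K ∈ T, if r < K then H ^ 2 * bb K r ^ 2 else 0)
          = ∑ i ∈ range n, ∑ j ∈ range n, H ^ 2 * ((p i).coeff r * (p j).coeff r *
              ∑ K ∈ T.filter (fun K => r < K), b i (K - 1 - r) * b j (K - 1 - r)) := fun r => by
        rw [← sum_filter, sum_congr rfl fun K _ => show H ^ 2 * bb K r ^ 2 = ∑ i ∈ range n,
            ∑ j ∈ range n, H ^ 2 * ((p i).coeff r * (p j).coeff r *
              (b i (K - 1 - r) * b j (K - 1 - r))) by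
            simp only [hbb]
            rw [sq (∑ i ∈ range n, _), sum_mul_sum, mul_sum]
            refine sum_congr rfl fun i _ => ?_
            rw [mul_sum]
            exact sum_congr rfl fun j _ => by ring,
          sum_comm]
        refine sum_congr rfl fun i _ => ?_
        rw [sum_comm]
        refine sum_congr rfl fun j _ => ?_
        rw [← mul_sum, ← mul_sum]
      rw [sum_congr rfl e1, sum_comm, sum_congr rfl fun r _ => e2 r, sum_comm, mul_sum]
      refine sum_congr rfl fun i _ => ?_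
      rw [sum_comm, mul_sum]
      refine sum_congr rfl fun j _ => ?_
      rw [mul_sum]
    rw [e, mul_assoc]
    refine mul_le_mul_of_nonneg_left ?_ (sq_nonneg H)
    calc ∑ i ∈ range n, ∑ j ∈ range n, ∑ r ∈ range R, (p i).coeff r * (p j).coeff r *
          ∑ K ∈ T.filter (fun K => r < K), b i (K - 1 - r) * b j (K - 1 - r)
        ≤ ∑ i ∈ range n, ∑ j ∈ range n, ∑ r ∈ range R,
            (p i).coeff r * (p j).coeff r * β ^ 2 := by
          refine sum_le_sum fun i hi => sum_le_sum fun j hj => sum_le_sum fun r _ =>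
            mul_le_mul_of_nonneg_left ?_ (mul_nonneg (hp i r) (hp j r))
          have hsq : ∀ l < n, ∑ K ∈ T.filter (fun K => r < K), b l (K - 1 - r) ^ 2 ≤ β ^ 2 := by
            intro l hl
            refine le_of_eq_of_le ?_ (bs l hl ((T.filter fun K => r < K).image (· - 1 - r)))
            rw [sum_image]
            intro x hx y hy h
            simp only [coe_filter, Set.mem_setOf_eq] at hx hy
            simp only at h
            omega
          have := hsq i (mem_range.1 hi)
          have := hsq j (mem_range.1 hj)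
          calc ∑ K ∈ T.filter (fun K => r < K), b i (K - 1 - r) * b j (K - 1 - r)
              ≤ ∑ K ∈ T.filter (fun K => r < K),
                  (b i (K - 1 - r) ^ 2 + b j (K - 1 - r) ^ 2) / 2 :=
                sum_le_sum fun K _ => by nlinarith [sq_nonneg (b i (K - 1 - r) - b j (K - 1 - r))]
            _ ≤ β ^ 2 := by rw [← sum_div, sum_add_distrib]; linarith
      _ = (∑ i ∈ range n, ∑ j ∈ range n, ∑ r ∈ range R, (p i).coeff r * (p j).coeff r) * β ^ 2 :=
          by simp only [sum_mul]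
      _ ≤ Λ * β ^ 2 := mul_le_mul_of_nonneg_right (hΛ R) (sq_nonneg _)

/-- The graded suffix after a cell. -/
def sfx (θ : ℝ) (Q c : Meas) (d L n : ℕ) : Polynomial Meas :=
  (psi Q (pB θ ^ d) * (Polynomial.C c * Polynomial.X)) ^ n * psi Q (pB θ ^ L)

/-- A run of `n + 1` cells followed by the pad. -/
def run (θ : ℝ) (Q c : Meas) (g d L n : ℕ) : Polynomial Meas :=
  psi Q (pB θ ^ g) * (Polynomial.C c * Polynomial.X) * sfx θ Q c d L n

lemma sfx_succ (d L n : ℕ) : sfx θ Q c d L (n + 1) = run θ Q c d d L n := by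
  simp only [sfx, run, pow_succ', mul_assoc]

lemma run_expand (g d L n : ℕ) :
    run θ Q c g d L n - psi Q (pB θ ^ (g + d * n + L) * Polynomial.X ^ (n + 1))
      = ∑ i ∈ range (n + 1), psi Q (pB θ ^ (g + d * i) * Polynomial.X ^ i)
          * (Polynomial.C (c - Q) * Polynomial.X) * sfx θ Q c d L (n - i) := by
  have eX : psi Q Polynomial.X = Polynomial.C Q * Polynomial.X := Polynomial.aeval_X _
  induction n generalizing g with
  | zero =>
    simp only [range_one, sum_singleton, mul_zero, add_zero, pow_zero, mul_one, Nat.sub_zero,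
      zero_add, pow_one]
    simp only [run, sfx, pow_zero, one_mul, map_mul, pow_add, Polynomial.C_sub, sub_mul, mul_sub]
    rw [← eX, mul_assoc _ (psi Q Polynomial.X), ← map_mul, ← map_mul, ← map_mul, ← map_mul]
    congr 2
    ring
  | succ n ih =>
    rw [sum_range_succ', Nat.sub_zero, mul_zero, add_zero, pow_zero, mul_one]
    have e : ∀ i ∈ range (n + 1),
        psi Q (pB θ ^ (g + d * (i + 1)) * Polynomial.X ^ (i + 1))
          * (Polynomial.C (c - Q) * Polynomial.X) * sfx θ Q c d L (n + 1 - (i + 1))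
        = psi Q (pB θ ^ g * Polynomial.X) * (psi Q (pB θ ^ (d + d * i) * Polynomial.X ^ i)
          * (Polynomial.C (c - Q) * Polynomial.X) * sfx θ Q c d L (n - i)) := fun i _ => by
      rw [Nat.add_sub_add_right]
      conv_rhs => rw [← mul_assoc, ← mul_assoc, ← map_mul]
      congr 3
      ring
    rw [sum_congr rfl e, ← mul_sum, ← ih d, ← sfx_succ, mul_sub, ← map_mul]
    rw [show pB θ ^ g * Polynomial.X * (pB θ ^ (d + d * n + L) * Polynomial.X ^ (n + 1))
      = pB θ ^ (g + d * (n + 1) + L) * Polynomial.X ^ (n + 1 + 1) by ring]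
    simp only [run]
    rw [map_mul (psi Q) (pB θ ^ g) Polynomial.X, eX, Polynomial.C_sub]
    simp only [sub_mul, mul_sub]
    abel

lemma GB_run (hb : Bg θ C Cs Q c X) {d L N : ℕ} {S Λ : ℝ}
    (hS : 1 / Real.sqrt ((L + 1) * (θ * (1 - θ))) ≤ S)
    (hΛ : (C + 1) * Real.sqrt Λ ≤ 1 / 2) {g : ℕ}
    (hp : ∀ n ≤ N, ∀ g' ∈ ({g, d} : Finset ℕ), ∀ R, ∑ i ∈ range (n + 1), ∑ j ∈ range (n + 1),
      ∑ r ∈ range R, pp θ (g' + d * i) i r * pp θ (g' + d * j) j r ≤ Λ) :
    GB Q (run θ Q c g d L N - psi Q (pB θ ^ (g + d * N + L) * Polynomial.X ^ (N + 1)))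
      ((C + 1) * Real.sqrt Λ * (2 * Real.sqrt S)) := by
  have hS0 : 0 ≤ S := le_trans (by positivity) hS
  have hC : 0 ≤ C + 1 := by linarith [hb.C0]
  have hv : mass (c - Q) = 0 := by rw [mass_sub, hb.probc.2, hb.probQ.2, sub_self]
  have hvQ := Nle_dom hb.probc.1 hb.probQ hb.C0 hb.dom
  have step : ∀ n ≤ N, ∀ g' ∈ ({g, d} : Finset ℕ),
      (∀ m ≤ n, GB Q (sfx θ Q c d L m) (2 * Real.sqrt S)) →
      GB Q (run θ Q c g' d L n - psi Q (pB θ ^ (g' + d * n + L) * Polynomial.X ^ (n + 1)))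
        ((C + 1) * Real.sqrt Λ * (2 * Real.sqrt S)) := by
    intro n hn g' hg' hsfx
    rw [run_expand]
    have := GB_first hb.probQ hv hvQ hC (n + 1)
      (fun i => pB θ ^ (g' + d * i) * Polynomial.X ^ i) (fun i => sfx θ Q c d L (n - i))
      (β := 2 * Real.sqrt S) (Λ := Λ)
      (fun i r => by rw [pp_coeff]; exact pp_nonneg hb.θ0.le hb.θ1.le _ _ _)
      (fun i _ => hsfx _ (Nat.sub_le _ _)) (fun R => by simp only [pp_coeff]; exact hp n hn g' hg' R)
    rwa [abs_of_nonneg (mul_nonneg zero_le_two (Real.sqrt_nonneg _))] at this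
  have ref : ∀ G i, L ≤ G → GB Q (psi Q (pB θ ^ G * Polynomial.X ^ i)) (Real.sqrt S) :=
    fun G i hG => GB_ref hb.θ0 hb.θ1 hb.probQ G i (le_trans (by
      have hσ : 0 < θ * (1 - θ) := mul_pos hb.θ0 (by linarith [hb.θ1])
      gcongr) hS)
  have key : ∀ n ≤ N, ∀ m ≤ n, GB Q (sfx θ Q c d L m) (2 * Real.sqrt S) := by
    intro n
    induction n with
    | zero =>
      intro _ m hm
      rw [Nat.le_zero.1 hm, sfx, pow_zero, one_mul]
      have h := ref L 0 le_rfl
      rw [pow_zero, mul_one] at h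
      exact h.mono (Real.sqrt_nonneg _) (by linarith [Real.sqrt_nonneg S])
    | succ n ih =>
      intro hn m hm
      rcases Nat.lt_or_eq_of_le hm with hlt | rfl
      · exact ih (by omega) m (by omega)
      · have h1 := (step n (by omega) d (by simp) (ih (by omega))).mono
          (by positivity) (β := Real.sqrt S) (by
            have := mul_le_mul_of_nonneg_right hΛ (mul_nonneg zero_le_two (Real.sqrt_nonneg S))
            linarith)
        have h2 := GB.add hb.probQ (Real.sqrt_nonneg S) (Real.sqrt_nonneg S) h1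
          (ref (d + d * n + L) (n + 1) (Nat.le_add_left _ _))
        rw [sub_add_cancel, ← two_mul] at h2
        rwa [sfx_succ]
  exact step N le_rfl g (by simp) (key N le_rfl)

end Vale.Agent.P321.BO
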