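import Vale.Agent.P321.Alg

/-!
# P321: basic objects

Everything lives in the monoid algebra of `FreeMonoid Bool`: finitely supported signed measures
on binary words, with convolution along concatenation as product.
-/

noncomputable section

namespace Vale.Agent.P321

/-- Integral of `F` against `f`. -/
abbrev ev (f : Meas) (F : Word → ℝ) : ℝ := E f F

/-- Probability measure. -/
def Prob (f : Meas) : Prop := Pos f ∧ mass f = 1

/-- The total variation norm of `f` is at most `e`. -/
abbrev L1 (f : Meas) (e : ℝ) : Prop := l1 f ≤ e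

/-- `f` has a density with respect to `W` of `L²(W)`-norm at most `a`. -/
abbrev Nle (f W : Meas) (a : ℝ) : Prop := NB f W (a ^ 2)

/-- `|f| ≤ lam * W` pointwise. -/
abbrev Bd (f W : Meas) (lam : ℝ) : Prop := Dom f W lam

/-- Smoothing of the powers of `G`. -/
def Smooth (G : Meas) (g : ℝ) : Prop :=
  ∀ N : ℕ, 1 ≤ N → L1 (G ^ N - G ^ (N + 1)) (Real.sqrt (g / N))

/-- `X` translated by the kernel `w` inside `G ^ L`. -/
def Tr (G : Meas) (L : ℕ) (w : ℕ → ℝ) (X : Meas) : Meas :=
  ∑ s ∈ Finset.range (L + 1), w s • (G ^ s * X * G ^ (L - s))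

/-- The `ℓ²`-norm of a kernel on `0..L`. -/
def wsq (L : ℕ) (w : ℕ → ℝ) : ℝ := Real.sqrt (∑ s ∈ Finset.range (L + 1), w s ^ 2)

/-- Difference of a kernel and its shift. -/
def dker (w : ℕ → ℝ) (s : ℕ) : ℝ := (if s = 0 then 0 else w (s - 1)) - w s

/-- Up to `ε` in total variation, the mass-zero measure `D`, living on a window of `m` units `G`,
gains a factor `wsq L w` when it is translated by the kernel `w`, whatever follows it. -/
def Spread (G : Meas) (m : ℕ) (D : Meas) (Φ ε : ℝ) : Prop :=
  ∃ D' : Meas, L1 (D - D') ε ∧ mass D' = 0 ∧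
    ∀ (L : ℕ) (w : ℕ → ℝ) (X : Meas) (n' : ℕ) (b : ℝ), 0 ≤ b → Nle X (G ^ n') b →
      Nle (Tr G L w (D' * X)) (G ^ (L + m + n')) (Φ * wsq L w * b)

/-- The state of one level: `U` and `U + D` are the surrogate laws of the traces of the two words,
both close to `G ^ m`. -/
structure Lev (G U D : Meas) (m : ℕ) (g lam a d φu φd ε : ℝ) : Prop where
  probG : Prob G
  smoothG : Smooth G g
  probU : Prob U
  massD : mass D = 0
  bdU : Bd (U - G ^ m) (G ^ m) lam
  bdD : Bd D (G ^ m) lam
  nU : Nle (U - G ^ m) (G ^ m) a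
  nD : Nle D (G ^ m) d
  spU : Spread G m (U - G ^ m) φu ε
  spD : Spread G m D φd ε

/-- The product over a list of marks: `u` at `false`, `v` at `true`. -/
def blk {M : Type*} [Monoid M] (u v : M) (s : List Bool) : M :=
  (s.map fun b => if b then v else u).prod

/-- The two Thue–Morse patterns of length `2 ^ r`. -/
def tm : ℕ → List Bool × List Bool
  | 0 => ([false], [true])
  | r + 1 => ((tm r).1 ++ (tm r).2, (tm r).2 ++ (tm r).1)

/-- The law of the trace of a word. -/
def law (q : ℝ) : Word →* Meas := FreeMonoid.lift (chBit q)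

/-- The word `01`. -/
def w01 : Word := FreeMonoid.of false * FreeMonoid.of true

/-- The law of the trace of `01`, the background unit. -/
def bgLaw (q : ℝ) : Meas := law q w01

/-- The first base word `(01)^h 1 (01)^h`. -/
def baseU (h : ℕ) : Word := w01 ^ h * FreeMonoid.of true * w01 ^ h

/-- The second base word `(01)^(h+1) 1 (01)^(h-1)`. -/
def baseV (h : ℕ) : Word := w01 ^ (h + 1) * FreeMonoid.of true * w01 ^ (h - 1)

end Vale.Agent.P321
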