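import Vale.Agent.P321.Basic

/-!
# P321: traces, estimators, and the two-point bound
-/

open Finset

noncomputable section

namespace Vale.Agent.P321

/-- The trace of `x` under a keep/delete mask. -/
def trace {n : ℕ} (x : Fin n → Bool) (mask : Fin n → Bool) : List Bool :=
  ((List.finRange n).filter fun i => mask i).map x

/-- The probability of a mask at deletion probability `q`. -/
def maskProb (q : ℝ) {n : ℕ} (mask : Fin n → Bool) : ℝ :=
  ∏ i, if mask i then 1 - q else q

/-- The probability that the randomized estimator `est`, given `m` independent traces of `x`,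
outputs `x`. -/
def success (q : ℝ) {n m : ℕ} (est : (Fin m → List Bool) → (Fin n → Bool) → ℝ)
    (x : Fin n → Bool) : ℝ :=
  ∑ ω : Fin m → Fin n → Bool, (∏ j, maskProb q (ω j)) * est (fun j => trace x (ω j)) x

namespace Sampling

/-- The average of `G` over `m` independent traces of `x`. -/
def sampleMean (q : ℝ) {n : ℕ} (m : ℕ) (x : Fin n → Bool) (G : (Fin m → List Bool) → ℝ) : ℝ :=
  ∑ k : Fin m → Fin n → Bool, (∏ j, maskProb q (k j)) * G fun j => trace x (k j)

lemma trace_cons {n : ℕ} (b c : Bool) (x k : Fin n → Bool) :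
    trace (Fin.cons b x : Fin (n + 1) → Bool) (Fin.cons c k) =
      if c then b :: trace x k else trace x k := by
  unfold trace
  rw [List.finRange_succ, List.filter_cons, List.filter_map]
  simp only [Fin.cons_zero]
  cases c <;> simp [Function.comp_def]

/-- The channel law is the law of the trace of a random mask. -/
lemma E_chLaw (q : ℝ) {n : ℕ} (x : Fin n → Bool) (F : Word → ℝ) :
    E (chLaw q (List.ofFn x)) F =
      ∑ k : Fin n → Bool, maskProb q k * F (FreeMonoid.ofList (trace x k)) := by
  induction n generalizing F with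
  | zero => simp [chLaw, E_one, trace, maskProb]
  | succ n ih =>
    obtain ⟨b, x, rfl⟩ : ∃ b x', x = Fin.cons b x' := ⟨x 0, Fin.tail x, (Fin.cons_self_tail x).symm⟩
    rw [List.ofFn_succ, ← Equiv.sum_comp (Fin.consEquiv fun _ => Bool), Fintype.sum_prod_type,
      Fintype.sum_bool]
    simp only [Fin.cons_zero, Fin.cons_succ, chLaw, List.map_cons, List.prod_cons]
    rw [E_mul, chBit, E_add, E_smul, E_one, E_single]
    simp only [one_mul]
    have hi := ih x F
    have hi2 := ih x fun v => F (FreeMonoid.of b * v)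
    simp only [chLaw] at hi hi2
    rw [hi, hi2, mul_sum, mul_sum, add_comm]
    congr 1 <;> refine sum_congr rfl fun k _ => ?_
    · simp only [maskProb, Fin.prod_univ_succ, Fin.consEquiv, Equiv.coe_fn_mk, Fin.cons_zero, Fin.cons_succ, trace_cons, ↓reduceIte,
        FreeMonoid.ofList_cons, mul_assoc]
    · simp only [maskProb, Fin.prod_univ_succ, Fin.consEquiv, Equiv.coe_fn_mk, Fin.cons_zero, Fin.cons_succ, trace_cons,
        Bool.false_eq_true, ↓reduceIte, mul_assoc]

lemma sampleMean_succ (q : ℝ) {n m : ℕ} (x : Fin n → Bool) (G : (Fin (m + 1) → List Bool) → ℝ) :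
    sampleMean q (m + 1) x G =
      E (chLaw q (List.ofFn x)) fun w =>
        sampleMean q m x fun s => G (Fin.cons (FreeMonoid.toList w) s) := by
  rw [E_chLaw]
  unfold sampleMean
  rw [← Equiv.sum_comp (Fin.consEquiv fun _ => Fin n → Bool), Fintype.sum_prod_type]
  refine sum_congr rfl fun k _ => ?_
  rw [mul_sum]
  refine sum_congr rfl fun t _ => ?_
  simp only [Fin.consEquiv_apply, Fin.prod_univ_succ, Fin.cons_zero, Fin.cons_succ,
    FreeMonoid.toList_ofList, mul_assoc]
  congr 3
  funext j
  refine Fin.cases ?_ (fun i => ?_) j <;> simp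

lemma sampleMean_one (q : ℝ) {n m : ℕ} (x : Fin n → Bool) : sampleMean q m x (fun _ => 1) = 1 := by
  induction m with
  | zero => simp [sampleMean]
  | succ m ih => rw [sampleMean_succ]; simp only [ih]; rw [E_const, one_mul, mass_chLaw]

lemma abs_sampleMean_le {q : ℝ} (h0 : 0 ≤ q) (h1 : q ≤ 1) {n m : ℕ} (x : Fin n → Bool)
    {G : (Fin m → List Bool) → ℝ} (hG : ∀ s, |G s| ≤ 1) : |sampleMean q m x G| ≤ 1 := by
  induction m with
  | zero => simpa [sampleMean] using hG _
  | succ m ih =>
    rw [sampleMean_succ]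
    refine (abs_E_le _ fun w => ih fun s => hG _).trans ?_
    rw [l1_chLaw h0 h1, mul_one]

/-- `m` traces distinguish two strings at most `m` times as well as one trace. -/
lemma abs_sampleMean_sub_le {q : ℝ} (h0 : 0 ≤ q) (h1 : q ≤ 1) {n m : ℕ} (x y : Fin n → Bool)
    {G : (Fin m → List Bool) → ℝ} (hG : ∀ s, |G s| ≤ 1) :
    |sampleMean q m x G - sampleMean q m y G| ≤
      (m : ℝ) * l1 (chLaw q (List.ofFn x) - chLaw q (List.ofFn y)) := by
  set D := l1 (chLaw q (List.ofFn x) - chLaw q (List.ofFn y))
  induction m with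
  | zero =>
    rw [show G = fun _ => G (fun j => j.elim0) from
      funext fun s => congrArg G (funext fun j => j.elim0)]
    simp [sampleMean]
  | succ m ih =>
    rw [sampleMean_succ, sampleMean_succ]
    set Hx := fun w : Word => sampleMean q m x fun s => G (Fin.cons (FreeMonoid.toList w) s)
    set Hy := fun w : Word => sampleMean q m y fun s => G (Fin.cons (FreeMonoid.toList w) s)
    have e : E (chLaw q (List.ofFn x)) Hx - E (chLaw q (List.ofFn y)) Hy =
        E (chLaw q (List.ofFn x)) (fun w => Hx w - Hy w) +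
          E (chLaw q (List.ofFn x) - chLaw q (List.ofFn y)) Hy := by
      rw [E_sub_fun, E_sub]; ring
    rw [e]
    refine (abs_add_le _ _).trans ?_
    have a1 := abs_E_le (chLaw q (List.ofFn x)) (F := fun w => Hx w - Hy w) fun w => ih fun s => hG _
    rw [l1_chLaw h0 h1, mul_one] at a1
    have a2 := abs_E_le (chLaw q (List.ofFn x) - chLaw q (List.ofFn y)) (F := Hy)
      fun w => abs_sampleMean_le h0 h1 y fun s => hG _
    push_cast
    rw [add_mul]
    exact add_le_add a1 (by simpa using a2)

/-- A common suffix does not separate. -/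
lemma l1_chLaw_append_le {q : ℝ} (h0 : 0 ≤ q) (h1 : q ≤ 1) (x y z : List Bool) :
    l1 (chLaw q (x ++ z) - chLaw q (y ++ z)) ≤ l1 (chLaw q x - chLaw q y) := by
  rw [chLaw_append, chLaw_append, ← sub_mul]
  refine (l1_mul_le _ _).trans ?_
  rw [l1_chLaw h0 h1, mul_one]

end Sampling

/-- Two words with nearly equal trace laws cannot be told apart with few traces, also after
padding them to length `n`. -/
theorem exists_failure {q : ℝ} (h0 : 0 < q) (h1 : q < 1) (u v : Word) (n m : ℕ) (e : ℝ)
    (hlen : (FreeMonoid.toList u).length = (FreeMonoid.toList v).length)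
    (hn : (FreeMonoid.toList u).length ≤ n) (hne : u ≠ v)
    (he : L1 (law q u - law q v) e) (hme : (m : ℝ) * e < 1 / 3)
    (est : (Fin m → List Bool) → (Fin n → Bool) → ℝ)
    (hnn : ∀ t y, 0 ≤ est t y) (hsum : ∀ t, ∑ y, est t y ≤ 1) :
    ∃ x, success q est x < 2 / 3 := by
  set pad := List.replicate (n - (FreeMonoid.toList u).length) true with hpad
  set xl := FreeMonoid.toList u ++ pad
  set yl := FreeMonoid.toList v ++ pad
  have hx : xl.length = n := by simp [xl, pad]; omega
  have hy : yl.length = n := by simp [yl, pad, ← hlen]; omega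
  have hxy : xl ≠ yl := fun h => hne (FreeMonoid.toList.injective (List.append_cancel_right h))
  have hD : l1 (chLaw q xl - chLaw q yl) ≤ e := by
    refine (Sampling.l1_chLaw_append_le h0.le h1.le _ _ _).trans ?_
    rw [← law_eq_chLaw, ← law_eq_chLaw]; exact he
  have key : ∀ l : List Bool, l.length = n → ∃ f : Fin n → Bool, l = List.ofFn f := fun l hl => by
    subst hl; exact ⟨l.get, (List.ofFn_get l).symm⟩
  obtain ⟨xf, hxf⟩ := key xl hx
  obtain ⟨yf, hyf⟩ := key yl hy
  rw [hxf, hyf] at hD hxy
  by_contra hcon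
  push Not at hcon
  have hne' : xf ≠ yf := fun h => hxy (h ▸ rfl)
  have hle : ∀ t, est t xf ≤ 1 - est t yf := fun t => by
    have := sum_le_univ_sum_of_nonneg (s := {xf, yf}) (hnn t)
    rw [sum_pair hne'] at this
    linarith [hsum t]
  have hb : ∀ t, |est t yf| ≤ 1 := fun t => by
    rw [abs_of_nonneg (hnn t yf)]; linarith [hnn t xf, hle t]
  have hd := Sampling.abs_sampleMean_sub_le h0.le h1.le xf yf hb
  have hm : (m : ℝ) * l1 (chLaw q (List.ofFn xf) - chLaw q (List.ofFn yf)) < 1 / 3 :=
    (mul_le_mul_of_nonneg_left hD (Nat.cast_nonneg m)).trans_lt hme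
  have hx' : success q est xf ≤ 1 - Sampling.sampleMean q m xf (fun t => est t yf) := by
    rw [← Sampling.sampleMean_one q (m := m) xf]
    unfold success Sampling.sampleMean
    rw [← sum_sub_distrib]
    refine sum_le_sum fun k _ => ?_
    rw [← mul_sub]
    refine mul_le_mul_of_nonneg_left (hle _) (prod_nonneg fun j _ => prod_nonneg fun i _ => ?_)
    split <;> linarith
  have h2 : 2 / 3 ≤ Sampling.sampleMean q m yf (fun t => est t yf) := hcon yf
  linarith [hcon xf, (abs_le.1 hd).1]

end Vale.Agent.P321
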