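import Vale.Agent.P321.Kernel
import Vale.Agent.P321.Smoothing

/-!
# P321: smoothing of the surrogates above the first level

`U ^ W = G ^ (m W) + v + e`, where `v` has mass zero and is small in `L²(G ^ (m W))` and `e` is
small in total variation; products of `J` such groups stay close to `G ^ (m W J)`, so consecutive
powers of `U` overlap.
-/

open Finset

noncomputable section

namespace Vale.Agent.P321

namespace Group

lemma l1_prob {G : Meas} (hG : Prob G) : l1 G = 1 := by rw [hG.1.l1_eq, hG.2]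

lemma l1_pow_prob {G : Meas} (hG : Prob G) (n : ℕ) : l1 (G ^ n) = 1 := l1_prob (hG.pow n)

lemma l1_wrap_le {G : Meas} (hG : Prob G) (a b : ℕ) (x : Meas) :
    l1 (G ^ a * x * G ^ b) ≤ l1 x := by
  refine (l1_mul_le _ _).trans ?_
  rw [l1_pow_prob hG, mul_one]
  refine (l1_mul_le _ _).trans ?_
  rw [l1_pow_prob hG, one_mul]

lemma nb_pow_self {G : Meas} (hG : Prob G) (n : ℕ) : NB (G ^ n) (G ^ n) 1 := by
  simpa [mass_pow, hG.2] using nb_self (hG.1.pow n)

lemma nb_wrap {G x : Meas} (hG : Prob G) {n : ℕ} {A : ℝ} (h : NB x (G ^ n) A) (a b : ℕ) :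
    NB (G ^ a * x * G ^ b) (G ^ (a + n + b)) A := by
  have h0 := h.nonneg_rhs fun _ => 1
  rw [show ((fun _ => (1 : ℝ)) ^ 2 : Word → ℝ) = fun _ => 1 by funext; simp,
    show E (G ^ n) (fun _ => 1) = 1 from (hG.pow n).2, mul_one] at h0
  have h1 := NB.mul (hG.1.pow a) (hG.1.pow n) zero_le_one (nb_pow_self hG a) h
  rw [one_mul] at h1
  simpa [pow_add] using
    NB.mul ((hG.1.pow a).mul (hG.1.pow n)) (hG.1.pow b) h0 h1 (nb_pow_self hG b)

/-- Terms of order at least two in a power of a perturbed law. -/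
lemma higher {P u : Meas} {A : ℝ} (hP : Prob P) (mu : mass u = 0) (hA : 0 ≤ A) (hu : NB u P A)
    (W : ℕ) :
    NB ((P + u) ^ W - P ^ W - ∑ i ∈ range W, P ^ i * u * P ^ (W - 1 - i)) (P ^ W)
      (W * (A * ((1 + A) ^ W - 1))) := by
  induction W with
  | zero => simpa using nb_zero pos_one le_rfl
  | succ n ih =>
    have hsub : NB ((P + u) ^ n - P ^ n) (P ^ n) ((1 + A) ^ n - 1) :=
      NB.pow_sub hP.1 hP.2 mu hA hu n
    have hmon : (1 + A) ^ n - 1 ≤ (1 + A) ^ (n + 1) - 1 :=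
      sub_le_sub_right (pow_le_pow_right₀ (by linarith) (Nat.le_succ n)) 1
    have h1 : 0 ≤ (1 + A) ^ n - 1 := sub_nonneg.2 (one_le_pow₀ (by linarith))
    have key := NB.orth hP.1 (hP.1.pow n) hP.2 mu hA h1
      (mul_nonneg (Nat.cast_nonneg n) (mul_nonneg hA h1)) hu hsub ih
    have eP : P * P ^ n = P ^ (n + 1) := (pow_succ' P n).symm
    have e : P * ((P + u) ^ n - P ^ n - ∑ i ∈ range n, P ^ i * u * P ^ (n - 1 - i)) +
        u * ((P + u) ^ n - P ^ n) =
        (P + u) ^ (n + 1) - P ^ (n + 1) - ∑ i ∈ range (n + 1), P ^ i * u * P ^ (n + 1 - 1 - i) := by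
      rw [Finset.sum_range_succ']
      simp only [pow_zero, one_mul, Nat.add_sub_cancel, Nat.sub_zero]
      have es : P * ∑ i ∈ range n, P ^ i * u * P ^ (n - 1 - i) =
          ∑ i ∈ range n, P ^ (i + 1) * u * P ^ (n - (i + 1)) := by
        rw [mul_sum]
        refine sum_congr rfl fun i _ => ?_
        rw [show n - (i + 1) = n - 1 - i by omega, pow_succ' P i]
        simp only [mul_assoc]
      rw [mul_sub P, mul_sub P, es, mul_sub u, pow_succ' (P + u), pow_succ' P, add_mul P u]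
      abel
    rw [e, eP] at key
    refine key.mono (hP.1.pow _) ?_
    push_cast
    have h2 : A * ((1 + A) ^ n - 1) ≤ A * ((1 + A) ^ (n + 1) - 1) :=
      mul_le_mul_of_nonneg_left hmon hA
    have h3 : (n : ℝ) * (A * ((1 + A) ^ n - 1)) ≤ n * (A * ((1 + A) ^ (n + 1) - 1)) :=
      mul_le_mul_of_nonneg_left h2 (Nat.cast_nonneg n)
    linarith

lemma pow_sub_one_le {A : ℝ} (hA : 0 ≤ A) {W : ℕ} (h : (W : ℝ) * A ≤ 1) :
    (1 + A) ^ W - 1 ≤ 2 * ((W : ℝ) * A) := by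
  have h0 : 0 ≤ (W : ℝ) * A := by positivity
  have h1 : (1 + A) ^ W ≤ Real.exp ((W : ℝ) * A) := by
    rw [Real.exp_nat_mul]
    exact pow_le_pow_left₀ (by linarith) (by linarith [Real.add_one_le_exp A]) W
  have h2 := Real.abs_exp_sub_one_le (x := (W : ℝ) * A) (by rwa [abs_of_nonneg h0])
  rw [abs_of_nonneg h0] at h2
  linarith [(abs_le.1 h2).2]

lemma sum_inv_sqrt_le (n : ℕ) :
    ∑ k ∈ range n, 1 / Real.sqrt ((k : ℝ) + 1) ≤ 2 * Real.sqrt n := by
  induction n with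
  | zero => simp
  | succ k ih =>
    rw [sum_range_succ]
    have hb := Real.sqrt_pos.2 (show (0 : ℝ) < (k : ℝ) + 1 by positivity)
    have hkey : 1 / Real.sqrt ((k : ℝ) + 1) ≤ 2 * Real.sqrt ((k : ℝ) + 1) - 2 * Real.sqrt k := by
      rw [div_le_iff₀ hb]
      have e1 := Real.mul_self_sqrt (show (0 : ℝ) ≤ (k : ℝ) + 1 by positivity)
      have e2 := Real.mul_self_sqrt (show (0 : ℝ) ≤ (k : ℝ) by positivity)
      nlinarith [sq_nonneg (Real.sqrt ((k : ℝ) + 1) - Real.sqrt k)]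
    push_cast
    linarith

lemma sum_inv_sqrt_min_le (W : ℕ) :
    ∑ i ∈ range W, 1 / Real.sqrt (((min i (W - 1 - i) : ℕ) : ℝ) + 1) ≤ 4 * Real.sqrt W := by
  have e := Finset.sum_range_reflect (fun k => 1 / Real.sqrt ((k : ℝ) + 1)) W
  calc ∑ i ∈ range W, 1 / Real.sqrt (((min i (W - 1 - i) : ℕ) : ℝ) + 1)
      ≤ ∑ i ∈ range W, (1 / Real.sqrt ((i : ℝ) + 1) + 1 / Real.sqrt (((W - 1 - i : ℕ) : ℝ) + 1)) := by
        refine sum_le_sum fun i _ => ?_
        rcases min_choice i (W - 1 - i) with h | h <;> rw [h]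
        · exact le_add_of_nonneg_right (by positivity)
        · exact le_add_of_nonneg_left (by positivity)
    _ = 2 * ∑ i ∈ range W, 1 / Real.sqrt ((i : ℝ) + 1) := by rw [sum_add_distrib, e]; ring
    _ ≤ 2 * (2 * Real.sqrt W) := mul_le_mul_of_nonneg_left (sum_inv_sqrt_le W) zero_le_two
    _ = 4 * Real.sqrt W := by ring

/-- A block at distance `≥ 1` from both ends of a group, rewritten as an orthogonal piece. -/
lemma mid_block {r : ℕ} (hr : 1 ≤ r) {G u D' : Meas} {m : ℕ} {g φ ε : ℝ} (hG : Prob G)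
    (hs : Smooth G g) (hφ : 0 ≤ φ) (hu : l1 u ≤ 1) (hd : l1 (u - D') ≤ ε) (mD : mass D' = 0)
    (hsp : ∀ (L : ℕ) (w : ℕ → ℝ) (X : Meas) (n' : ℕ) (b : ℝ), 0 ≤ b → Nle X (G ^ n') b →
      Nle (Tr G L w (D' * X)) (G ^ (L + m + n')) (φ * wsq L w * b))
    {i j : ℕ} (hi : 1 ≤ i) (hj : 1 ≤ j) (hm : 4 * r * (i + j + 1) ≤ m) :
    ∃ v : Meas, mass v = 0 ∧
      NB v (G ^ (2 * m)) (2 * 4 ^ r * φ ^ 2 / Real.sqrt (((min i j : ℕ) : ℝ) + 1)) ∧
      l1 (G ^ (m * i) * u * G ^ (m * j) - G ^ (m * i) * v * G ^ (m * (j - 1))) ≤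
        (4 * Real.sqrt (4 * r)) ^ r * Real.sqrt (g / m) ^ r + 2 ^ r * ε := by
  set p := min i j with hp
  have hp1 : 1 ≤ p := le_min hi hj
  set T := Nat.sqrt p with hTdef
  have hT : 1 ≤ T := Nat.sqrt_pos.2 hp1
  have hTp : T * T ≤ p := Nat.sqrt_le p
  have hTp' : p < (T + 1) * (T + 1) := Nat.lt_succ_sqrt p
  obtain ⟨w, -, -, hw1, -, hw2, -, -, hker⟩ := exists_kernel r T hr hT
  set L := 2 * T * r with hL
  have hTij : T ≤ i + j + 1 :=
    le_trans (Nat.le_mul_self T) (hTp.trans ((min_le_left _ _).trans (by omega)))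
  have h2L : 2 * L ≤ m := by
    have : 4 * r * T ≤ 4 * r * (i + j + 1) := Nat.mul_le_mul_left _ hTij
    calc 2 * L = 4 * r * T := by rw [hL]; ring
      _ ≤ m := this.trans hm
  set N := p * m / (2 * r) with hN
  have hr2 : 2 * r ≤ p * m := by
    have : 4 * r * 1 ≤ 4 * r * (i + j + 1) := Nat.mul_le_mul_left _ (by omega)
    have : m ≤ p * m := Nat.le_mul_of_pos_left m hp1
    omega
  have hN1 : 1 ≤ N := Nat.div_pos hr2 (by omega)
  have hN2 : N * (2 * r) ≤ p * m := Nat.div_mul_le_self _ _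
  have hN3 : p * m < (N + 1) * (2 * r) := Nat.lt_mul_of_div_lt (Nat.lt_succ_self N) (by omega)
  have hpi : p * m ≤ m * i := by rw [mul_comm]; exact Nat.mul_le_mul_left m (min_le_left _ _)
  have hpj : p * m ≤ m * j := by rw [mul_comm]; exact Nat.mul_le_mul_left m (min_le_right _ _)
  have hpm : m ≤ p * m := Nat.le_mul_of_pos_left m hp1
  have hN4 : 2 * (r * N) ≤ p * m := by linarith
  refine ⟨Tr G L w D' * G ^ (m - L), ?_, ?_, ?_⟩
  · rw [mass_mul, Tr, mass_sum, sum_eq_zero, zero_mul]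
    intro s _
    rw [mass_smul, mass_mul, mass_mul, mD, mul_zero, zero_mul, mul_zero]
  · have h1 := hsp L w 1 0 1 zero_le_one (by simpa [Nle] using nb_one)
    simp only [mul_one, add_zero] at h1
    have h2 := nb_wrap hG h1 0 (m - L)
    simp only [pow_zero, one_mul, zero_add] at h2
    rw [show L + m + (m - L) = 2 * m by omega] at h2
    refine h2.mono (hG.1.pow _) ?_
    have hT0 : (0 : ℝ) < T := by exact_mod_cast hT
    have hb := Real.sqrt_pos.2 (show (0 : ℝ) < (p : ℝ) + 1 by positivity)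
    have h2T : Real.sqrt ((p : ℝ) + 1) ≤ 2 * T := by
      refine (Real.sqrt_le_left (by positivity)).2 ?_
      have : (p : ℝ) + 1 ≤ ((T : ℝ) + 1) * ((T : ℝ) + 1) := by exact_mod_cast hTp'
      have hT1 : (1 : ℝ) ≤ T := by exact_mod_cast hT
      nlinarith
    calc (φ * wsq L w) ^ 2 ≤ (φ * (2 ^ r / Real.sqrt T)) ^ 2 :=
          pow_le_pow_left₀ (mul_nonneg hφ (Real.sqrt_nonneg _)) (mul_le_mul_of_nonneg_left hw2 hφ) 2
      _ = 4 ^ r * φ ^ 2 * (1 / T) := by
          rw [mul_pow, div_pow, Real.sq_sqrt hT0.le, ← pow_mul, mul_comm r 2, pow_mul]; norm_num; ring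
      _ ≤ 4 ^ r * φ ^ 2 * (2 / Real.sqrt ((p : ℝ) + 1)) := by
          refine mul_le_mul_of_nonneg_left ?_ (by positivity)
          rw [div_le_div_iff₀ hT0 hb, one_mul]; exact h2T
      _ = _ := by ring
  · have hk := hker G u g 1 N hG hs hN1 zero_le_one hu
    set X1 := G ^ (r * N) * (u * G ^ L) * G ^ (r * N) - G ^ (r * N) * Tr G L w u * G ^ (r * N) with hX1
    have hlin : l1 (Tr G L w u - Tr G L w D') ≤ 2 ^ r * ε := by
      unfold Tr
      rw [← sum_sub_distrib]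
      refine (l1_sum_le _ _).trans ?_
      calc ∑ s ∈ range (L + 1),
            l1 (w s • (G ^ s * u * G ^ (L - s)) - w s • (G ^ s * D' * G ^ (L - s)))
          ≤ ∑ s ∈ range (L + 1), |w s| * ε := sum_le_sum fun s _ => by
            rw [← smul_sub, ← sub_mul, ← mul_sub]
            exact (l1_smul _ _).trans
              (mul_le_mul_of_nonneg_left ((l1_wrap_le hG _ _ _).trans hd) (abs_nonneg _))
        _ ≤ 2 ^ r * ε := by
            rw [← sum_mul]; exact mul_le_mul_of_nonneg_right hw1 ((l1_nonneg _).trans hd)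
    have hcut : ∀ Z : Meas, G ^ (m * i - r * N) * (G ^ (r * N) * Z * G ^ (r * N)) *
        G ^ (m * j - r * N - L) = G ^ (m * i) * Z * G ^ (m * j - L) := by
      intro Z
      simp only [← mul_assoc, ← pow_add]
      simp only [mul_assoc, ← pow_add]
      rw [show m * i - r * N + r * N = m * i by omega,
        show r * N + (m * j - r * N - L) = m * j - L by omega]
    have e1 : G ^ (m * i) * u * G ^ (m * j) =
        G ^ (m * i) * (u * G ^ L) * G ^ (m * j - L) := by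
      simp only [mul_assoc, ← pow_add]; rw [show L + (m * j - L) = m * j by omega]
    have e2 : G ^ (m * i) * (Tr G L w D' * G ^ (m - L)) * G ^ (m * (j - 1)) =
        G ^ (m * i) * Tr G L w D' * G ^ (m * j - L) := by
      simp only [mul_assoc, ← pow_add]
      rw [show m - L + m * (j - 1) = m * j - L by
        obtain ⟨j', rfl⟩ : ∃ j', j = j' + 1 := ⟨j - 1, by omega⟩
        rw [Nat.add_sub_cancel, Nat.mul_succ]; omega]
    have e : G ^ (m * i) * u * G ^ (m * j) -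
        G ^ (m * i) * (Tr G L w D' * G ^ (m - L)) * G ^ (m * (j - 1)) =
        G ^ (m * i - r * N) * X1 * G ^ (m * j - r * N - L) +
          G ^ (m * i) * (Tr G L w u - Tr G L w D') * G ^ (m * j - L) := by
      rw [e1, e2, hX1, mul_sub (G ^ (m * i - r * N)), sub_mul, hcut, hcut, mul_sub (G ^ (m * i)),
        sub_mul]
      abel
    rw [e]
    refine (l1_add_le _ _).trans (add_le_add ((l1_wrap_le hG _ _ _).trans (hk.trans ?_))
      ((l1_wrap_le hG _ _ _).trans hlin))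
    rw [mul_one, ← mul_pow, mul_assoc (4 : ℝ) (T : ℝ), mul_assoc (4 : ℝ) (Real.sqrt (4 * r))]
    refine pow_le_pow_left₀ (by positivity) (mul_le_mul_of_nonneg_left ?_ (by norm_num)) r
    rw [← Real.sqrt_mul (by positivity : (0 : ℝ) ≤ 4 * r)]
    rcases le_total g 0 with hg | hg
    · rw [Real.sqrt_eq_zero'.2 (div_nonpos_of_nonpos_of_nonneg hg (Nat.cast_nonneg N)), mul_zero]
      exact Real.sqrt_nonneg _
    · refine (pow_le_pow_iff_left₀ (by positivity) (Real.sqrt_nonneg _) two_ne_zero).1 ?_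
      have hm0 : (0 : ℝ) < m := by
        have : 0 < m := Nat.pos_of_ne_zero fun h => by rw [h, mul_zero] at hr2; omega
        exact_mod_cast this
      rw [mul_pow, Real.sq_sqrt (div_nonneg hg (Nat.cast_nonneg N)),
        Real.sq_sqrt (by positivity), ← mul_div_assoc, ← mul_div_assoc,
        div_le_div_iff₀ (by exact_mod_cast hN1) hm0]
      have h1 : (T : ℝ) ^ 2 * m ≤ p * m := by
        rw [sq]; exact mul_le_mul_of_nonneg_right (by exact_mod_cast hTp) hm0.le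
      have h2 : (p : ℝ) * m ≤ 4 * r * N := by
        have : p * m ≤ 4 * r * N := by
          have : 2 * r * 1 ≤ 2 * r * N := Nat.mul_le_mul_left _ hN1
          linarith
        exact_mod_cast this
      calc (T : ℝ) ^ 2 * g * m = g * ((T : ℝ) ^ 2 * m) := by ring
        _ ≤ g * (4 * r * N) := mul_le_mul_of_nonneg_left (h1.trans h2) hg
        _ = 4 * r * g * N := by ring

/-- The first-order term of a group. -/
lemma lin {r : ℕ} (hr : 1 ≤ r) {G u : Meas} {m W : ℕ} {g a φ ε : ℝ} (hG : Prob G)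
    (hs : Smooth G g) (ha : 0 ≤ a) (hφ : 0 ≤ φ) (hu : l1 u ≤ 1) (mu : mass u = 0)
    (hnu : NB u (G ^ m) (a ^ 2)) (hsp : Spread G m u φ ε) (hW : 2 ≤ W) (hm : 4 * r * W ≤ m) :
    ∃ v : Meas, mass v = 0 ∧
      NB v (G ^ (m * W)) ((2 * a + 2 * Real.sqrt (8 * 4 ^ r * φ ^ 2 * Real.sqrt W)) ^ 2) ∧
      l1 (∑ i ∈ range W, (G ^ m) ^ i * u * (G ^ m) ^ (W - 1 - i) - v) ≤
        W * ((4 * Real.sqrt (4 * r)) ^ r * Real.sqrt (g / m) ^ r + 2 ^ r * ε) := by
  obtain ⟨D', hd, mD, hprop⟩ := hsp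
  set S := Finset.Ico 1 (W - 1) with hS
  set E0 := (4 * Real.sqrt (4 * r)) ^ r * Real.sqrt (g / m) ^ r + 2 ^ r * ε
  have hblock : ∀ i ∈ S, ∃ v : Meas, mass v = 0 ∧
      NB v (G ^ (2 * m))
        (2 * 4 ^ r * φ ^ 2 / Real.sqrt (((min i (W - 1 - i) : ℕ) : ℝ) + 1)) ∧
      l1 (G ^ (m * i) * u * G ^ (m * (W - 1 - i)) - G ^ (m * i) * v * G ^ (m * (W - 1 - i - 1))) ≤
        E0 := fun i hi => by
    rw [hS, Finset.mem_Ico] at hi
    refine mid_block hr hG hs hφ hu hd mD hprop hi.1 (by omega) ?_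
    rw [show i + (W - 1 - i) + 1 = W by omega]; exact hm
  choose! vb hvb using hblock
  set c : ℕ → ℝ := fun i => 2 * 4 ^ r * φ ^ 2 / Real.sqrt (((min i (W - 1 - i) : ℕ) : ℝ) + 1)
    with hc
  have hc0 : ∀ i, 0 ≤ c i := fun i => by rw [hc]; positivity
  set P : ℕ → Meas := fun i => G ^ (m * i) * vb i * G ^ (m * (W - 1 - i - 1)) with hP
  set S0 := Real.sqrt (8 * 4 ^ r * φ ^ 2 * Real.sqrt W)
  have hm1 : 0 < m := by
    have : 0 < 4 * r * W := Nat.mul_pos (by omega) (by omega)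
    omega
  have hclass : ∀ k, NB (∑ i ∈ S with i % 2 = k, P i) (G ^ (m * W)) (S0 ^ 2) := by
    intro k
    set t := S.filter (fun i => i % 2 = k)
    have hinj : Set.InjOn (fun i => m * i) (t : Set ℕ) := fun x _ y _ h =>
      Nat.eq_of_mul_eq_mul_left hm1 h
    have hb := NB.bessel hG.1 hG.2 (w := 2 * m) (v := fun s => vb (s / m))
      (X := fun s => G ^ (m * (W - 1 - s / m - 1))) (A := fun s => c (s / m)) (B := fun _ => 1)
      (t.image fun i => m * i) (m * W)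
      (by
        intro x hx y hy hxy
        simp only [Finset.mem_image, t, Finset.mem_filter] at hx hy
        obtain ⟨i, ⟨-, hi⟩, rfl⟩ := hx; obtain ⟨j, ⟨-, hj⟩, rfl⟩ := hy
        have : i < j := Nat.lt_of_mul_lt_mul_left hxy
        calc m * i + 2 * m = m * (i + 2) := by ring
          _ ≤ m * j := Nat.mul_le_mul_left m (by omega))
      (by
        intro x hx
        simp only [Finset.mem_image, t, Finset.mem_filter, hS, Finset.mem_Ico] at hx
        obtain ⟨i, ⟨hi, -⟩, rfl⟩ := hx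
        calc m * i + 2 * m = m * (i + 2) := by ring
          _ ≤ m * W := Nat.mul_le_mul_left m (by omega))
      (by
        intro x hx
        simp only [Finset.mem_image, t, Finset.mem_filter] at hx
        obtain ⟨i, ⟨hi, -⟩, rfl⟩ := hx
        simp only [Nat.mul_div_cancel_left _ hm1]; exact (hvb i hi).1)
      (fun x _ => hc0 _) (fun _ _ => zero_le_one)
      (by
        intro x hx
        simp only [Finset.mem_image, t, Finset.mem_filter] at hx
        obtain ⟨i, ⟨hi, -⟩, rfl⟩ := hx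
        simp only [Nat.mul_div_cancel_left _ hm1]; exact (hvb i hi).2.1)
      (by
        intro x hx
        simp only [Finset.mem_image, t, Finset.mem_filter, hS, Finset.mem_Ico] at hx
        obtain ⟨i, ⟨hi, -⟩, rfl⟩ := hx
        simp only [Nat.mul_div_cancel_left _ hm1]
        have e : m * W - m * i - 2 * m = m * (W - 1 - i - 1) := by
          rw [mul_comm 2 m, ← Nat.mul_sub, ← Nat.mul_sub, show W - i - 2 = W - 1 - i - 1 by omega]
        rw [e]; exact nb_pow_self hG _)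
    rw [Finset.sum_image hinj, Finset.sum_image hinj] at hb
    simp only [Nat.mul_div_cancel_left _ hm1, mul_one] at hb
    refine hb.mono (hG.1.pow _) ?_
    rw [Real.sq_sqrt (by positivity)]
    refine (sum_le_sum_of_subset_of_nonneg (t := range W) ?_ fun i _ _ => hc0 i).trans ?_
    · intro i hi
      simp only [t, Finset.mem_filter, hS, Finset.mem_Ico] at hi
      exact Finset.mem_range.2 (by omega)
    · calc ∑ i ∈ range W, c i
          = 2 * 4 ^ r * φ ^ 2 *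
              ∑ i ∈ range W, 1 / Real.sqrt (((min i (W - 1 - i) : ℕ) : ℝ) + 1) := by
            rw [mul_sum]; exact sum_congr rfl fun i _ => by simp only [hc]; ring
        _ ≤ 2 * 4 ^ r * φ ^ 2 * (4 * Real.sqrt W) :=
            mul_le_mul_of_nonneg_left (sum_inv_sqrt_min_le W) (by positivity)
        _ = _ := by ring
  set X : ℕ → Meas := fun i => (G ^ m) ^ i * u * (G ^ m) ^ (W - 1 - i) with hX
  have hXnb : ∀ i < W, NB (X i) (G ^ (m * W)) (a ^ 2) := by
    intro i hi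
    have := nb_wrap hG hnu (m * i) (m * (W - 1 - i))
    rw [show m * i + m + m * (W - 1 - i) = m * (i + 1 + (W - 1 - i)) by ring,
      show i + 1 + (W - 1 - i) = W by omega] at this
    simpa only [hX, pow_mul] using this
  have hXmass : ∀ i, mass (X i) = 0 := fun i => by
    simp only [hX, mass_mul, mu, mul_zero, zero_mul]
  have hsplit : ∑ i ∈ range W, X i = X 0 + X (W - 1) + ∑ i ∈ S, X i := by
    obtain ⟨n, rfl⟩ : ∃ n, W = n + 2 := ⟨W - 2, by omega⟩
    simp only [hS, show n + 2 - 1 = n + 1 by omega]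
    rw [Finset.sum_range_succ, Finset.sum_range_eq_add_Ico _ (by omega)]
    abel
  have hpar : ∀ f : ℕ → Meas, ∑ i ∈ S, f i =
      (∑ i ∈ S with i % 2 = 0, f i) + ∑ i ∈ S with i % 2 = 1, f i := by
    intro f
    rw [← Finset.sum_filter_add_sum_filter_not S (fun i => i % 2 = 0) f]
    congr 1
    exact sum_congr (Finset.filter_congr fun i _ => by omega) fun _ _ => rfl
  refine ⟨(X 0 + X (W - 1)) + ((∑ i ∈ S with i % 2 = 0, P i) + ∑ i ∈ S with i % 2 = 1, P i),
    ?_, ?_, ?_⟩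
  · have hz : ∀ k, mass (∑ i ∈ S with i % 2 = k, P i) = 0 := fun k => by
      rw [mass_sum]
      refine sum_eq_zero fun i hi => ?_
      simp only [hP, mass_mul, (hvb i (Finset.mem_filter.1 hi).1).1, mul_zero, zero_mul]
    simp only [mass_add, hXmass, hz, add_zero]
  · have hpos := hG.1.pow (m * W)
    have hS0 : 0 ≤ S0 := Real.sqrt_nonneg _
    rw [show 2 * a + 2 * S0 = (a + a) + (S0 + S0) by ring]
    exact NB.add hpos (by positivity) (by positivity)
      (NB.add hpos ha ha (hXnb 0 (by omega)) (hXnb _ (by omega)))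
      (NB.add hpos hS0 hS0 (hclass 0) (hclass 1))
  · rw [hsplit, ← hpar P]
    rw [show X 0 + X (W - 1) + ∑ i ∈ S, X i - (X 0 + X (W - 1) + ∑ i ∈ S, P i) =
      ∑ i ∈ S, (X i - P i) by rw [sum_sub_distrib]; abel]
    refine (l1_sum_le _ _).trans ((sum_le_sum fun i hi => ?_).trans (le_of_eq_of_le
      (by rw [sum_const, nsmul_eq_mul]) (mul_le_mul_of_nonneg_right ?_ ?_)))
    · simpa only [hX, hP, ← pow_mul] using (hvb i hi).2.2
    · rw [hS, Nat.card_Ico]
      have : W - 1 - 1 ≤ W := by omega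
      exact_mod_cast this
    · have h0 : 0 ≤ ε := (l1_nonneg _).trans hd
      positivity

/-- Powers of a group that is `G ^ (m W)` up to an orthogonal part and a small error. -/
lemma pow_close {P U v : Meas} {Al e : ℝ} {J : ℕ} (hP : Prob P) (hU : Prob U) (mv : mass v = 0)
    (hAl : 0 ≤ Al) (hv : NB v P Al) (hJ : (J : ℝ) * Al ≤ 1 / 128)
    (he : l1 (U - (P + v)) ≤ e) : l1 (U ^ J - P ^ J) ≤ 1 / 8 + 2 * J * e := by
  have hpow : ∀ k ≤ J, l1 ((P + v) ^ k - P ^ k) ≤ 1 / 8 := by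
    intro k hk
    have hkJ : (k : ℝ) * Al ≤ J * Al := mul_le_mul_of_nonneg_right (by exact_mod_cast hk) hAl
    have h2 := pow_sub_one_le hAl (W := k) (by linarith)
    exact NB.l1_le ((NB.pow_sub hP.1 hP.2 mv hAl hv k).mono (hP.1.pow k) (by linarith))
      (by norm_num) (hP.pow k).2
  have hl : ∀ k ≤ J, l1 ((P + v) ^ k) ≤ 2 := by
    intro k hk
    have := l1_add_le ((P + v) ^ k - P ^ k) (P ^ k)
    rw [sub_add_cancel, l1_pow_prob hP] at this
    linarith [hpow k hk]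
  have htel : ∀ k ≤ J, l1 (U ^ k - (P + v) ^ k) ≤ 2 * k * e := by
    intro k
    induction k with
    | zero => intro _; simp [l1_zero]
    | succ n ih =>
      intro hn
      have e1 : U ^ (n + 1) - (P + v) ^ (n + 1) =
          U * (U ^ n - (P + v) ^ n) + (U - (P + v)) * (P + v) ^ n := by
        rw [pow_succ', pow_succ' (P + v), mul_sub, sub_mul]; abel
      rw [e1]
      refine (l1_add_le _ _).trans ?_
      have a1 : l1 (U * (U ^ n - (P + v) ^ n)) ≤ 2 * n * e := by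
        refine (l1_mul_le _ _).trans ?_
        rw [l1_prob hU, one_mul]; exact ih (by omega)
      have a2 : l1 ((U - (P + v)) * (P + v) ^ n) ≤ e * 2 :=
        (l1_mul_le _ _).trans
          (mul_le_mul he (hl n (by omega)) (l1_nonneg _) ((l1_nonneg _).trans he))
      push_cast
      linarith
  calc l1 (U ^ J - P ^ J) ≤ l1 (U ^ J - (P + v) ^ J) + l1 ((P + v) ^ J - P ^ J) :=
        l1_triangle _ _ _
    _ ≤ 2 * J * e + 1 / 8 := add_le_add (htel J le_rfl) (hpow J le_rfl)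
    _ = _ := by ring

/-- Consecutive powers overlap once one of them is close to a smooth power. -/
lemma overlap {G U : Meas} {m N : ℕ} {g lam δ : ℝ} (hG : Prob G) (hU : Prob U) (hs : Smooth G g)
    (hg : 0 ≤ g) (hlam : l1 (U - G ^ m) ≤ lam) (hm : 1 ≤ m) (hN : 1 ≤ N)
    (hgm : 256 * (g * m) ≤ N) (hd : l1 (U ^ N - G ^ (m * N)) ≤ δ) :
    l1 (U ^ N - U ^ (N + 1)) ≤ lam + 2 * δ + 1 / 16 := by
  have hsh : l1 (G ^ (m * N + m) - G ^ (m * N)) ≤ 1 / 16 := by
    refine le_trans (smooth_shift hG hs (Nat.mul_pos hm hN) m) ?_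
    refine (pow_le_pow_iff_left₀ (by positivity) (by norm_num) two_ne_zero).1 ?_
    have hm0 : (0 : ℝ) < m := by exact_mod_cast hm
    have hN0 : (0 : ℝ) < N := by exact_mod_cast hN
    push_cast
    rw [mul_pow, Real.sq_sqrt (by positivity), show (m : ℝ) ^ 2 * (g / (m * N)) = g * m / N by
      field_simp, div_le_iff₀ hN0]
    linarith
  have e : U ^ N - U ^ (N + 1) = (U ^ N - G ^ (m * N)) + (G ^ (m * N) - G ^ (m * N + m)) +
      (G ^ (m * N) - U ^ N) * G ^ m + U ^ N * (G ^ m - U) := by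
    rw [pow_add G (m * N) m, pow_succ U N, sub_mul, mul_sub]; abel
  rw [e]
  have a2 : l1 ((G ^ (m * N) - U ^ N) * G ^ m) ≤ δ := by
    refine (l1_mul_le _ _).trans ?_
    rw [l1_pow_prob hG, mul_one, l1_sub_comm]; exact hd
  have a3 : l1 (U ^ N * (G ^ m - U)) ≤ lam := by
    refine (l1_mul_le _ _).trans ?_
    rw [l1_pow_prob hU, one_mul, l1_sub_comm]; exact hlam
  have a4 : l1 (G ^ (m * N) - G ^ (m * N + m)) ≤ 1 / 16 := by rw [l1_sub_comm]; exact hsh
  linarith [l1_add_le ((U ^ N - G ^ (m * N)) + (G ^ (m * N) - G ^ (m * N + m)) +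
      (G ^ (m * N) - U ^ N) * G ^ m) (U ^ N * (G ^ m - U)),
    l1_add_le ((U ^ N - G ^ (m * N)) + (G ^ (m * N) - G ^ (m * N + m)))
      ((G ^ (m * N) - U ^ N) * G ^ m),
    l1_add_le (U ^ N - G ^ (m * N)) (G ^ (m * N) - G ^ (m * N + m))]

/-- The size of the orthogonal part of a group. -/
lemma al_le (r W : ℕ) (a φ : ℝ) :
    (Real.sqrt 2 * ((W : ℝ) * a ^ 2) +
        (2 * a + 2 * Real.sqrt (8 * 4 ^ r * φ ^ 2 * Real.sqrt W))) ^ 2 ≤
      100 * 4 ^ r * (Real.sqrt W * φ ^ 2 + a ^ 2 + ((W : ℝ) * a ^ 2) ^ 2) := by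
  have h3 : ∀ x y z : ℝ, (x + (y + z)) ^ 2 ≤ 3 * (x ^ 2 + y ^ 2 + z ^ 2) := fun x y z => by
    nlinarith [sq_nonneg (x - y), sq_nonneg (x - z), sq_nonneg (y - z)]
  have h4 : (1 : ℝ) ≤ 4 ^ r := one_le_pow₀ (by norm_num)
  refine (h3 _ _ _).trans ?_
  rw [mul_pow (Real.sqrt 2), Real.sq_sqrt zero_le_two, mul_pow (2 : ℝ), mul_pow (2 : ℝ),
    Real.sq_sqrt (by positivity)]
  calc 3 * (2 * ((W : ℝ) * a ^ 2) ^ 2 + 2 ^ 2 * a ^ 2 + 2 ^ 2 * (8 * 4 ^ r * φ ^ 2 * Real.sqrt W))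
      = 6 * ((W : ℝ) * a ^ 2) ^ 2 + 12 * a ^ 2 + 96 * 4 ^ r * (Real.sqrt W * φ ^ 2) := by ring
    _ ≤ 100 * 4 ^ r * ((W : ℝ) * a ^ 2) ^ 2 + 100 * 4 ^ r * a ^ 2 +
          100 * 4 ^ r * (Real.sqrt W * φ ^ 2) := by
        refine add_le_add (add_le_add ?_ ?_) ?_
        · exact mul_le_mul_of_nonneg_right (by linarith) (sq_nonneg _)
        · exact mul_le_mul_of_nonneg_right (by linarith) (sq_nonneg _)
        · exact mul_le_mul_of_nonneg_right (by linarith) (by positivity)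
    _ = _ := by ring

/-- A group is `G ^ (m W) + v + e`. -/
lemma group {r : ℕ} (hr : 1 ≤ r) {G U : Meas} {m W : ℕ} {g lam a φ ε : ℝ} (hG : Prob G)
    (hU : Prob U) (hs : Smooth G g) (ha : 0 ≤ a) (hφ : 0 ≤ φ) (hε : 0 ≤ ε)
    (hlam : l1 (U - G ^ m) ≤ lam) (hlam1 : lam ≤ 1) (hnu : NB (U - G ^ m) (G ^ m) (a ^ 2))
    (hsp : Spread G m (U - G ^ m) φ ε) (hW : 2 ≤ W) (hm : 4 * r * W ≤ m)
    (hWA : (W : ℝ) * a ^ 2 ≤ 1) :
    ∃ v : Meas, ∃ Al : ℝ, mass v = 0 ∧ 0 ≤ Al ∧ NB v (G ^ (m * W)) Al ∧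
      Al ≤ 100 * 4 ^ r * (Real.sqrt W * φ ^ 2 + a ^ 2 + ((W : ℝ) * a ^ 2) ^ 2) ∧
      l1 (U ^ W - (G ^ (m * W) + v)) ≤
        W * (((4 * Real.sqrt (4 * r)) ^ r + 2 ^ r) * (Real.sqrt (g / m) ^ r + ε)) := by
  set u := U - G ^ m with hu
  have hPm : Prob (G ^ m) := hG.pow m
  have mu : mass u = 0 := by rw [hu, mass_sub, hU.2, hPm.2, sub_self]
  obtain ⟨v1, mv1, hv1, he1⟩ := lin hr hG hs ha hφ (hlam.trans hlam1) mu hnu hsp hW hm
  have hUW : U = G ^ m + u := by rw [hu]; abel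
  set H := U ^ W - (G ^ m) ^ W - ∑ i ∈ range W, (G ^ m) ^ i * u * (G ^ m) ^ (W - 1 - i) with hH
  have hHn : NB H (G ^ (m * W)) ((Real.sqrt 2 * ((W : ℝ) * a ^ 2)) ^ 2) := by
    have h := higher hPm mu (sq_nonneg a) hnu W
    rw [← hUW, ← hH, ← pow_mul G m W] at h
    refine h.mono (hG.1.pow _) ?_
    rw [mul_pow (Real.sqrt 2), Real.sq_sqrt zero_le_two]
    calc (W : ℝ) * (a ^ 2 * ((1 + a ^ 2) ^ W - 1)) = (W : ℝ) * a ^ 2 * ((1 + a ^ 2) ^ W - 1) :=
          (mul_assoc _ _ _).symm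
      _ ≤ (W : ℝ) * a ^ 2 * (2 * ((W : ℝ) * a ^ 2)) :=
          mul_le_mul_of_nonneg_left (pow_sub_one_le (sq_nonneg a) hWA) (by positivity)
      _ = _ := by ring
  have mH : mass H = 0 := by
    rw [hH, mass_sub, mass_sub, mass_sum, mass_pow, mass_pow, hU.2, hPm.2,
      sum_eq_zero (fun i _ => by rw [mass_mul, mass_mul, mu, mul_zero, zero_mul])]
    simp
  refine ⟨H + v1, _, by rw [mass_add, mH, mv1, add_zero], sq_nonneg _,
    NB.add (hG.1.pow (m * W)) (by positivity) (by positivity) hHn hv1, al_le r W a φ, ?_⟩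
  have e : U ^ W - (G ^ (m * W) + (H + v1)) =
      ∑ i ∈ range W, (G ^ m) ^ i * u * (G ^ m) ^ (W - 1 - i) - v1 := by
    rw [hH, pow_mul]; abel
  rw [e]
  refine he1.trans (mul_le_mul_of_nonneg_left ?_ (Nat.cast_nonneg W))
  have hq : 0 ≤ Real.sqrt (g / m) ^ r := by positivity
  have h2r : (0 : ℝ) ≤ 2 ^ r := by positivity
  have hq2 : 0 ≤ (4 * Real.sqrt (4 * r)) ^ r := by positivity
  rw [add_mul, mul_add, mul_add]
  linarith [mul_nonneg hq2 hε, mul_nonneg h2r hq]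

end Group

theorem group_smooth (r : ℕ) (hr : 1 ≤ r) :
    ∃ C : ℝ, 1 ≤ C ∧ ∀ (G U D : Meas) (m J W : ℕ) (g lam a d φu φd ε : ℝ),
      Lev G U D m g lam a d φu φd ε →
      0 ≤ g → 0 ≤ lam → C * lam ≤ 1 → 0 ≤ a → 0 ≤ φu → 0 ≤ ε →
      1 ≤ J → 4 ≤ W → 4 * r * W ≤ m → 256 * (g * m) ≤ J * W →
      C * (J * (Real.sqrt W * φu ^ 2 + a ^ 2 + ((W : ℝ) * a ^ 2) ^ 2)) ≤ 1 →
      C * (J * W * (Real.sqrt (g / m) ^ r + ε)) ≤ 1 →
      Smooth U (C * (J * W)) := by
  obtain ⟨C0, hC0, hsm⟩ := smooth_of_overlap (s := 1 / 2) (by norm_num) (by norm_num)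
  set K1 : ℝ := 100 * 4 ^ r with hK1
  set K2 : ℝ := (4 * Real.sqrt (4 * r)) ^ r + 2 ^ r with hK2
  have hK1' : 100 ≤ K1 := by linarith [one_le_pow₀ (show (1 : ℝ) ≤ 4 by norm_num) (n := r)]
  have hK2' : 0 ≤ K2 := by positivity
  refine ⟨C0 + 128 * K1 + 64 * K2, by linarith, ?_⟩
  intro G U D m J W g lam a d φu φd ε hL hg hlam hClam ha hφ hε hJ hW hm hgm hA hE
  set C := C0 + 128 * K1 + 64 * K2 with hC
  have hC1 : 4 ≤ C := by linarith
  set u := U - G ^ m with hu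
  have hPm : Prob (G ^ m) := hL.probG.pow m
  have mu : mass u = 0 := by rw [hu, mass_sub, hL.probU.2, hPm.2, sub_self]
  have hlam4 : lam ≤ 1 / 4 := by
    have := mul_le_mul_of_nonneg_right hC1 hlam
    linarith
  have hul : l1 u ≤ lam := by
    have := hL.bdU.l1_le
    rwa [hPm.2, mul_one] at this
  have hm1 : 1 ≤ m := by
    have : 4 * r * 1 ≤ 4 * r * W := Nat.mul_le_mul_left _ (by omega)
    omega
  have hJ0 : (1 : ℝ) ≤ J := by exact_mod_cast hJ
  set Z := Real.sqrt W * φu ^ 2 + a ^ 2 + ((W : ℝ) * a ^ 2) ^ 2 with hZ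
  have hZ0 : 0 ≤ Z := by positivity
  have hJZ : (J : ℝ) * Z ≤ 1 / (128 * K1) := by
    rw [le_div_iff₀ (by positivity), mul_comm]
    exact (mul_le_mul_of_nonneg_right (by linarith) (by positivity)).trans hA
  have hWA : (W : ℝ) * a ^ 2 ≤ 1 := by
    have h1 : ((W : ℝ) * a ^ 2) ^ 2 ≤ Z := by
      linarith [mul_nonneg (Real.sqrt_nonneg (W : ℝ)) (sq_nonneg φu), sq_nonneg a]
    have h2 : Z ≤ 1 := ((le_mul_of_one_le_left hZ0 hJ0).trans hJZ).trans
      (by rw [div_le_one (by positivity)]; linarith)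
    nlinarith
  -- the group
  obtain ⟨v, Al, mv, hAl0, hvn, hAlZ, herr⟩ := Group.group hr hL.probG hL.probU hL.smoothG ha hφ hε
    hul (by linarith) hL.nU hL.spU (W := W) (by omega) hm hWA
  have hPW : Prob (G ^ (m * W)) := hL.probG.pow _
  rw [← hK1, ← hZ] at hAlZ
  have hJAl : (J : ℝ) * Al ≤ 1 / 128 :=
    calc (J : ℝ) * Al ≤ J * (K1 * Z) := mul_le_mul_of_nonneg_left hAlZ (Nat.cast_nonneg J)
      _ = K1 * (J * Z) := by ring
      _ ≤ K1 * (1 / (128 * K1)) := mul_le_mul_of_nonneg_left hJZ (by linarith)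
      _ = 1 / 128 := by field_simp
  rw [← hK2] at herr
  have hclose := Group.pow_close hPW (hL.probU.pow W) mv hAl0 hvn hJAl herr
  rw [← pow_mul, ← pow_mul, mul_comm W J, mul_assoc m W J, mul_comm W J] at hclose
  have herr2 : 2 * (J : ℝ) * (W * (K2 * (Real.sqrt (g / m) ^ r + ε))) ≤ 1 / 16 := by
    have hX0 : 0 ≤ (J : ℝ) * W * (Real.sqrt (g / m) ^ r + ε) := by positivity
    have h := mul_le_mul_of_nonneg_right (show 64 * K2 ≤ C by linarith) hX0
    linarith
  have hd : l1 (U ^ (J * W) - G ^ (m * (J * W))) ≤ 3 / 16 := by linarith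
  have hN : 1 ≤ J * W := Nat.mul_pos (by omega) (by omega)
  have hov : l1 (U ^ (J * W) - U ^ (J * W + 1)) ≤ 2 - 2 * (1 / 2) := by
    linarith [Group.overlap hL.probG hL.probU hL.smoothG hg hul hm1 hN (by push_cast; exact hgm) hd]
  have hS := hsm U (J * W) hL.probU hN hov
  intro n hn
  refine (hS n hn).trans (Real.sqrt_le_sqrt (div_le_div_of_nonneg_right ?_ (Nat.cast_nonneg n)))
  push_cast
  exact mul_le_mul_of_nonneg_right (by linarith) (by positivity)

end Vale.Agent.P321
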