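import Vale.Agent.P321.Gain

/-!
# P321: products over slots

`slotProd U D b i k` is the product over the slots `i, …, i + k - 1` of `U + D` (where `b` is true)
or `U`.
-/

namespace Vale.Agent.P321

/-- One slot. -/
noncomputable def slot (U D : Meas) : Bool → Meas
  | true => U + D
  | false => U

/-- Product of the slots `i, …, i + k - 1`. -/
noncomputable def slotProd (U D : Meas) (b : ℕ → Bool) : ℕ → ℕ → Meas
  | _, 0 => 1
  | i, k + 1 => slot U D (b i) * slotProd U D b (i + 1) k

/-- The defect at slot `i`, if present. -/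
noncomputable def defectAt (D : Meas) : Bool → Meas
  | true => D
  | false => 0

lemma slot_eq (U D : Meas) (x : Bool) : slot U D x = U + defectAt D x := by
  cases x <;> simp [slot, defectAt]

lemma mass_slot {U D : Meas} (mU : mass U = 1) (mD : mass D = 0) (x : Bool) :
    mass (slot U D x) = 1 := by cases x <;> simp [slot, mass_add, mU, mD]

lemma mass_slotProd {U D : Meas} (mU : mass U = 1) (mD : mass D = 0) (b : ℕ → Bool) (i k : ℕ) :
    mass (slotProd U D b i k) = 1 := by
  induction k generalizing i with
  | zero => simp [slotProd, mass_one]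
  | succ k ih => simp [slotProd, mass_mul, mass_slot mU mD, ih]

lemma slotProd_congr (U D : Meas) {b c : ℕ → Bool} (i k : ℕ) (h : ∀ t < k, b (i + t) = c (i + t)) :
    slotProd U D b i k = slotProd U D c i k := by
  induction k generalizing i with
  | zero => rfl
  | succ k ih =>
    simp only [slotProd]
    rw [ih (i + 1) fun t ht => by simpa [add_assoc, add_comm 1 t] using h (t + 1) (by omega)]
    have := h 0 (by omega); simp at this; rw [this]

/-- Expansion at the first defect. -/
lemma slotProd_sub (U D : Meas) (b : ℕ → Bool) (i k : ℕ) :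
    slotProd U D b i k - U ^ k = ∑ t ∈ Finset.range k,
      U ^ t * (defectAt D (b (i + t)) * slotProd U D b (i + t + 1) (k - t - 1)) := by
  induction k generalizing i with
  | zero => simp [slotProd]
  | succ k ih =>
    rw [Finset.sum_range_succ']
    simp only [slotProd, pow_succ', slot_eq, add_zero, pow_zero, one_mul, add_tsub_cancel_right,
      Nat.sub_zero]
    have e : ∀ t, U * U ^ t * (defectAt D (b (i + (t + 1))) *
        slotProd U D b (i + (t + 1) + 1) (k + 1 - (t + 1) - 1)) =
        U * (U ^ t * (defectAt D (b (i + 1 + t)) *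
          slotProd U D b (i + 1 + t + 1) (k - t - 1))) := by
      intro t
      rw [mul_assoc, show i + (t + 1) = i + 1 + t by omega,
        show k + 1 - (t + 1) - 1 = k - t - 1 by omega]
    simp only [e, ← Finset.mul_sum, ← ih]
    noncomm_ring

/-- Pointwise bound on the deviation from the pure product. -/
lemma dom_slotProd_sub {U D : Meas} {mu : ℝ} (hU : Pos U) (hmu : 0 ≤ mu) (hD : Dom D U mu)
    (b : ℕ → Bool) (i k : ℕ) : Dom (slotProd U D b i k - U ^ k) (U ^ k) ((1 + mu) ^ k - 1) := by
  induction k generalizing i with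
  | zero => simp [slotProd, Dom]
  | succ k ih =>
    have h1 : Dom (defectAt D (b i)) U mu := by
      cases b i
      · intro w; simp [defectAt, mul_nonneg hmu (hU w)]
      · exact hD
    have hk : 0 ≤ (1 + mu) ^ k - 1 := sub_nonneg.2 (one_le_pow₀ (by linarith))
    have t1 : Dom (U * (slotProd U D b (i + 1) k - U ^ k)) (U ^ (k + 1))
        (1 * ((1 + mu) ^ k - 1)) := by
      rw [pow_succ']; exact Dom.mul hU zero_le_one (Dom.refl hU) (ih _)
    have t2 : Dom (defectAt D (b i) * slotProd U D b (i + 1) k) (U ^ (k + 1))
        (mu * (1 + ((1 + mu) ^ k - 1))) := by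
      rw [pow_succ']
      refine Dom.mul hU hmu h1 ?_
      simpa using (Dom.refl (hU.pow k)).add (ih (i + 1))
    have e : slotProd U D b i (k + 1) - U ^ (k + 1) = U * (slotProd U D b (i + 1) k - U ^ k) +
        defectAt D (b i) * slotProd U D b (i + 1) k := by
      rw [slotProd, slot_eq, pow_succ']; noncomm_ring
    rw [e]
    exact (t1.add t2).mono (hU.pow _) (le_of_eq (by ring))

lemma nb_slot {V U D : Meas} {A h : ℝ} (hV : Pos V) (mV : mass V = 1) (mU : mass U = 1)
    (mD : mass D = 0) (hA : 0 ≤ A) (hh : 0 ≤ h) (hu : NB (U - V) V A) (hD : NB D V h) (x : Bool) :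
    NB (slot U D x) V (1 + 2 * (A + h)) := by
  have hd : NB (slot U D x - V) V (2 * (A + h)) := by
    have key := NB.sum_card (s := (Finset.univ : Finset Bool))
      (f := fun y => if y then U - V else defectAt D x) (A := fun y => if y then A else h)
      (W := V) (by
        rintro (_ | _) -
        · cases x
          · simpa [defectAt] using nb_zero hV hh
          · simpa [defectAt] using hD
        · simpa using hu)
    simp only [Fintype.sum_bool, Finset.card_univ, Fintype.card_bool, if_true,
      Bool.false_eq_true, if_false] at key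
    rw [slot_eq, add_sub_right_comm]
    simpa using key
  simpa using NB.add_self hV mV
    (by rw [mass_sub, mass_slot mU mD, mV, sub_self]) (by linarith) hd

lemma nb_slotProd {V U D : Meas} {A h : ℝ} (hV : Pos V) (mV : mass V = 1) (mU : mass U = 1)
    (mD : mass D = 0) (hA : 0 ≤ A) (hh : 0 ≤ h) (hu : NB (U - V) V A) (hD : NB D V h)
    (b : ℕ → Bool) (i k : ℕ) :
    NB (slotProd U D b i k) (V ^ k) ((1 + 2 * (A + h)) ^ k) := by
  induction k generalizing i with
  | zero => simpa [slotProd] using nb_one
  | succ k ih =>
    rw [slotProd, pow_succ', pow_succ']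
    exact NB.mul hV (hV.pow k) (by linarith) (nb_slot hV mV mU mD hA hh hu hD _) (ih _)

/-- The deviation from the pure product has first order only in `h`. -/
lemma nb_slotProd_sub {V U D : Meas} {A h : ℝ} (hV : Pos V) (mV : mass V = 1) (mU : mass U = 1)
    (mD : mass D = 0) (hA : 0 ≤ A) (hh : 0 ≤ h) (hu : NB (U - V) V A) (hD : NB D V h)
    (b : ℕ → Bool) (i k : ℕ) :
    NB (slotProd U D b i k - U ^ k) (V ^ k) (k ^ 2 * h * (1 + 2 * (A + h)) ^ k) := by
  rw [slotProd_sub]
  set R := 1 + 2 * (A + h)
  have hR : 1 ≤ R := by simp only [R]; linarith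
  refine (NB.sum_card (A := fun _ => h * R ^ k) fun t ht => ?_).mono (hV.pow _) (le_of_eq ?_)
  · have htk := Finset.mem_range.1 ht
    have hU : NB U V R := by simpa [slot] using nb_slot hV mV mU mD hA hh hu hD false
    have hd : NB (defectAt D (b (i + t))) V h := by
      cases b (i + t)
      · exact nb_zero hV hh
      · exact hD
    have h0 := NB.mul (hV.pow t) (hV.mul (hV.pow (k - t - 1))) (by positivity)
      (hU.pow hV (by linarith) t)
      (NB.mul hV (hV.pow _) hh hd
        (nb_slotProd hV mV mU mD hA hh hu hD b (i + t + 1) (k - t - 1)))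
    rw [← pow_succ', ← pow_add, show t + (k - t - 1 + 1) = k by omega] at h0
    refine h0.mono (hV.pow k) ?_
    rw [show R ^ t * (h * R ^ (k - t - 1)) = h * R ^ (t + (k - t - 1)) by rw [pow_add]; ring]
    exact mul_le_mul_of_nonneg_left (pow_le_pow_right₀ hR (by omega)) hh
  · simp; ring

/-- Two complementary patterns: a signed linear part plus second-order terms. -/
lemma slotProd_sub_not (U D : Meas) (b : ℕ → Bool) (K : ℕ) :
    slotProd U D b 0 K - slotProd U D (fun t => !b t) 0 K =
      (∑ t ∈ Finset.range K, (if b t then (1 : ℝ) else -1) • (U ^ t * D * U ^ (K - t - 1))) +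
      ∑ t ∈ Finset.range K, U ^ t * (D *
        (if b t then slotProd U D b (t + 1) (K - t - 1) - U ^ (K - t - 1)
          else U ^ (K - t - 1) - slotProd U D (fun s => !b s) (t + 1) (K - t - 1))) := by
  rw [← sub_sub_sub_cancel_right _ _ (U ^ K), slotProd_sub, slotProd_sub, ← Finset.sum_sub_distrib,
    ← Finset.sum_add_distrib]
  refine Finset.sum_congr rfl fun t _ => ?_
  simp only [zero_add]
  cases b t <;> simp [defectAt, mul_sub, mul_assoc] <;> abel

end Vale.Agent.P321
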