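import Vale.Agent.P321.Basic
import Vale.Agent.P321.Slots

/-!
# P321: the two Thue–Morse patterns and their linear term
-/

noncomputable section

namespace Vale.Agent.P321

lemma tm_snd (r : ℕ) : (tm r).2 = (tm r).1.map (fun b => !b) := by
  induction r with
  | zero => rfl
  | succ r ih =>
    simp only [tm, List.map_append, ih, List.map_map]
    congr 1
    simp [Function.comp_def]

lemma tm_length (r : ℕ) : (tm r).1.length = 2 ^ r ∧ (tm r).2.length = 2 ^ r := by
  induction r with
  | zero => simp [tm]
  | succ r ih => simp [tm, ih, pow_succ, mul_two]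

/-- The mark at position `t`. -/
def markAt (s : List Bool) (t : ℕ) : Bool := s.getD t false

lemma blk_eq_slotProd (U D : Meas) (s : List Bool) :
    blk U (U + D) s = slotProd U D (markAt s) 0 s.length := by
  have key : ∀ (k i : ℕ) (b : ℕ → Bool),
      slotProd U D b i k = blk U (U + D) ((List.range' i k).map b) := by
    intro k
    induction k with
    | zero => intro i b; simp [slotProd, blk]
    | succ k ih =>
      intro i b
      rw [List.range'_succ, List.map_cons, blk_cons, slotProd, ih]
      cases b i <;> simp [slot]
  rw [key]
  congr 1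
  apply List.ext_getElem
  · simp
  · intro n h1 h2
    simp [markAt, List.getElem?_eq_getElem h1]

lemma markAt_map_not (s : List Bool) {t : ℕ} (ht : t < s.length) :
    markAt (s.map (fun b => !b)) t = !markAt s t := by
  simp [markAt, List.getElem?_eq_getElem ht]

lemma blk_not_eq_slotProd (U D : Meas) (s : List Bool) :
    blk U (U + D) (s.map (fun b => !b)) = slotProd U D (fun t => !markAt s t) 0 s.length := by
  rw [blk_eq_slotProd, List.length_map]
  exact slotProd_congr _ _ _ _ fun t ht => by rw [zero_add]; exact markAt_map_not s ht

/-- The signed linear term of a pattern. -/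
def linTerm (U D : Meas) : List Bool → Meas
  | [] => 0
  | x :: s => (if x then (1 : ℝ) else -1) • (D * U ^ s.length) + U * linTerm U D s

lemma linTerm_append (U D : Meas) (s t : List Bool) :
    linTerm U D (s ++ t) = linTerm U D s * U ^ t.length + U ^ s.length * linTerm U D t := by
  induction s with
  | nil => simp [linTerm]
  | cons x s ih =>
    simp only [List.cons_append, linTerm, ih, List.length_append, List.length_cons, add_mul,
      mul_add, smul_mul_assoc, pow_add, pow_succ', ← mul_assoc, ← add_assoc]

lemma linTerm_not (U D : Meas) (s : List Bool) :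
    linTerm U D (s.map (fun b => !b)) = -linTerm U D s := by
  induction s with
  | nil => simp [linTerm]
  | cons x s ih =>
    simp only [List.map_cons, linTerm, ih, List.length_map]
    cases x <;> simp [add_comm]

lemma linTerm_eq_sum (U D : Meas) (s : List Bool) :
    linTerm U D s = ∑ t ∈ Finset.range s.length,
      (if markAt s t then (1 : ℝ) else -1) • (U ^ t * D * U ^ (s.length - t - 1)) := by
  induction s with
  | nil => simp [linTerm]
  | cons x s ih =>
    rw [linTerm, List.length_cons, Finset.sum_range_succ', ih, Finset.mul_sum, add_comm]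
    congr 1
    · refine Finset.sum_congr rfl fun t _ => ?_
      rw [mul_smul_comm, show s.length + 1 - (t + 1) - 1 = s.length - t - 1 by omega, pow_succ']
      simp [markAt, mul_assoc]
    · simp [markAt]

lemma linTerm_tm_succ (U D : Meas) (r : ℕ) :
    linTerm U D (tm (r + 1)).1 = linTerm U D (tm r).1 * U ^ (2 ^ r) -
      U ^ (2 ^ r) * linTerm U D (tm r).1 := by
  rw [tm, linTerm_append, (tm_length r).1, (tm_length r).2, tm_snd, linTerm_not, mul_neg,
    sub_eq_add_neg]

/-- The difference of the two patterns: linear term plus second-order terms. -/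
lemma blk_tm_sub (U D : Meas) (r : ℕ) :
    blk U (U + D) (tm r).1 - blk U (U + D) (tm r).2 = linTerm U D (tm r).1 +
      ∑ t ∈ Finset.range (2 ^ r), U ^ t * (D *
        (if markAt (tm r).1 t then
          slotProd U D (markAt (tm r).1) (t + 1) (2 ^ r - t - 1) - U ^ (2 ^ r - t - 1)
        else U ^ (2 ^ r - t - 1) -
          slotProd U D (fun s => !markAt (tm r).1 s) (t + 1) (2 ^ r - t - 1))) := by
  rw [tm_snd, blk_eq_slotProd, blk_not_eq_slotProd, linTerm_eq_sum, (tm_length r).1]
  exact slotProd_sub_not U D _ _

lemma prob_slotProd {U D : Meas} (hU : Prob U) (hV : Prob (U + D)) (b : ℕ → Bool) (i k : ℕ) :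
    Prob (slotProd U D b i k) := by
  induction k generalizing i with
  | zero => exact prob_one
  | succ k ih =>
    rw [slotProd]
    cases b i
    · exact hU.mul (ih _)
    · exact hV.mul (ih _)

end Vale.Agent.P321
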