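import Vale.Agent.P321.Window
import Vale.Agent.P321.Patterns

/-!
# P321: one level of the recursion
-/

noncomputable section

namespace Vale.Agent.P321

/-- The new surrogate of the first word. -/
def nextU (r P : ℕ) (U D : Meas) : Meas := U ^ P * blk U (U + D) (tm r).1 * U ^ P

/-- The new surrogate of the second word. -/
def nextV (r P : ℕ) (U D : Meas) : Meas := U ^ P * blk U (U + D) (tm r).2 * U ^ P

/-- The new total variation error. -/
def stepErr (r P B T m : ℕ) (g gU ε : ℝ) : ℝ :=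
  ((T : ℝ) * Real.sqrt (g / (m * B))) ^ r + Real.sqrt (gU / P) ^ r + ε

/-- The hypotheses of a step. -/
structure StepHyp (r : ℕ) (G U D : Meas) (m P B T : ℕ) (g gU lam a d φd ε : ℝ) : Prop where
  hr : 1 ≤ r
  probG : Prob G
  smoothG : Smooth G g
  probU : Prob U
  massD : mass D = 0
  bdU : Bd (U - G ^ m) (G ^ m) lam
  bdD : Bd D (G ^ m) lam
  nU : Nle (U - G ^ m) (G ^ m) a
  nD : Nle D (G ^ m) d
  spD : Spread G m D φd ε
  smoothU : Smooth U gU
  g0 : 0 ≤ g
  gU0 : 0 ≤ gU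
  lam0 : 0 ≤ lam
  lam1 : lam * 2 ^ (r + 2) ≤ 1
  a0 : 0 ≤ a
  d0 : 0 ≤ d
  d1 : d ≤ 1
  φ0 : 0 ≤ φd
  ε0 : 0 ≤ ε
  hB : 2 ≤ B
  hT : 1 ≤ T
  hm : 4 * r * T ≤ m
  hP : 4 * r ≤ P
  hPB : B + 2 ^ r ≤ P
  haB : a * (B : ℝ) ^ 2 ≤ 1

namespace StepHyp

variable {r : ℕ} {G U D : Meas} {m P B T : ℕ} {g gU lam a d φd ε : ℝ}

lemma lam_half (h : StepHyp r G U D m P B T g gU lam a d φd ε) : lam ≤ 1 / 4 := by
  have h1 : (4 : ℝ) ≤ 2 ^ (r + 2) := by
    calc (4 : ℝ) = 2 ^ 2 := by norm_num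
      _ ≤ 2 ^ (r + 2) := pow_le_pow_right₀ one_le_two (by omega)
  nlinarith [h.lam1, h.lam0]

lemma a_quarter (h : StepHyp r G U D m P B T g gU lam a d φd ε) : a ≤ 1 / 4 := by
  have h1 : (2 : ℝ) ≤ B := by exact_mod_cast h.hB
  have := h.haB
  nlinarith [h.a0, mul_le_mul h1 h1 zero_le_two (by linarith)]

lemma bdD_U (h : StepHyp r G U D m P B T g gU lam a d φd ε) : Dom D U (2 * lam) := by
  have hl := h.lam_half
  have h1 := Dom.trans h.bdD (h.probG.1.pow m) h.lam0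
    (Dom.of_sub h.bdU (h.probG.1.pow m) (by linarith))
  refine h1.mono h.probU.1 ?_
  calc lam * (1 / (1 - lam)) ≤ lam * 2 :=
        mul_le_mul_of_nonneg_left (by rw [div_le_iff₀ (by linarith)]; linarith) h.lam0
    _ = 2 * lam := by ring

lemma probV (h : StepHyp r G U D m P B T g gU lam a d φd ε) : Prob (U + D) := by
  refine ⟨fun w => ?_, by rw [mass_add, h.probU.2, h.massD, add_zero]⟩
  have h1 := (abs_le.1 (h.bdD_U w)).1
  have h2 := h.probU.1 w
  have hl := h.lam_half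
  simp only [MonoidAlgebra.coeff_add, Finsupp.add_apply]
  nlinarith

/-- Uniform bound on the rest of a pattern. -/
lemma rest_nb (h : StepHyp r G U D m P B T g gU lam a d φd ε) (b : ℕ → Bool) (i k : ℕ)
    (hk : k ≤ 2 ^ r) : Nle (slotProd U D b i k) ((G ^ m) ^ k) ((5 : ℝ) ^ 2 ^ r) := by
  refine (nb_slotProd (h.probG.1.pow m) (h.probG.pow m).2 h.probU.2 h.massD (sq_nonneg a)
    (sq_nonneg d) h.nU h.nD b i k).mono ((h.probG.1.pow m).pow k) ?_
  have h1 : 1 + 2 * (a ^ 2 + d ^ 2) ≤ 5 := by nlinarith [h.a_quarter, h.a0, h.d0, h.d1]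
  calc (1 + 2 * (a ^ 2 + d ^ 2)) ^ k ≤ (5 : ℝ) ^ k := pow_le_pow_left₀ (by positivity) h1 k
    _ ≤ 5 ^ 2 ^ r := pow_le_pow_right₀ (by norm_num) hk
    _ ≤ ((5 : ℝ) ^ 2 ^ r) ^ 2 := le_self_pow₀ (one_le_pow₀ (by norm_num)) two_ne_zero

lemma rest_sub_nb (h : StepHyp r G U D m P B T g gU lam a d φd ε) (b : ℕ → Bool) (i k : ℕ)
    (hk : k ≤ 2 ^ r) :
    Nle (slotProd U D b i k - U ^ k) ((G ^ m) ^ k) (2 ^ r * 5 ^ 2 ^ r * d) := by
  refine (nb_slotProd_sub (h.probG.1.pow m) (h.probG.pow m).2 h.probU.2 h.massD (sq_nonneg a)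
    (sq_nonneg d) h.nU h.nD b i k).mono ((h.probG.1.pow m).pow k) ?_
  have h1 : 1 + 2 * (a ^ 2 + d ^ 2) ≤ 5 := by nlinarith [h.a_quarter, h.a0, h.d0, h.d1]
  have hk' : (k : ℝ) ≤ 2 ^ r := by exact_mod_cast hk
  calc (k : ℝ) ^ 2 * d ^ 2 * (1 + 2 * (a ^ 2 + d ^ 2)) ^ k
      ≤ ((2 : ℝ) ^ r) ^ 2 * d ^ 2 * (5 : ℝ) ^ k := by gcongr
    _ ≤ ((2 : ℝ) ^ r) ^ 2 * d ^ 2 * ((5 : ℝ) ^ 2 ^ r) ^ 2 :=
        mul_le_mul_of_nonneg_left ((pow_le_pow_right₀ (by norm_num) hk).trans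
          (le_self_pow₀ (one_le_pow₀ (by norm_num)) two_ne_zero)) (by positivity)
    _ = (2 ^ r * 5 ^ 2 ^ r * d) ^ 2 := by ring

lemma rest_l1 (h : StepHyp r G U D m P B T g gU lam a d φd ε) (b : ℕ → Bool) (i k : ℕ) :
    l1 (slotProd U D b i k) ≤ 1 := by
  have hp := prob_slotProd h.probU h.probV b i k
  rw [hp.1.l1_eq, hp.2]

/-- One term of the expansion. -/
lemma term_spread (h : StepHyp r G U D m P B T g gU lam a d φd ε) {t : ℕ} (ht : t < 2 ^ r)
    {X : Meas} {bx ex : ℝ} (hbx : 0 ≤ bx) (hX : Nle X ((G ^ m) ^ (2 ^ r - t - 1)) bx)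
    (hX1 : L1 X ex) :
    Spread U (2 * P + 2 ^ r) (U ^ P * (U ^ t * (D * X)) * U ^ P)
      (winC r * bx * (φd / Real.sqrt T + (B : ℝ) ^ 2 * a * d))
      (winE r * ex * (((T : ℝ) * Real.sqrt (g / (m * B))) ^ r + ε)) := by
  have hl := h.lam_half
  have hP := h.hPB
  have key := window r h.hr (o := P + t) (e := P) h.probG h.smoothG h.probU h.massD h.bdU h.bdD
    h.nU h.nD h.spD h.g0 h.lam0 (by linarith) h.a0 h.d0 h.φ0 h.ε0 hbx h.hB h.hT h.hm
    (by omega) h.haB (by omega) (by omega) hX hX1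
  rw [show P + t + (2 ^ r - t - 1 + 1) + P = 2 * P + 2 ^ r by omega] at key
  rwa [← mul_assoc (U ^ P), ← pow_add]

lemma first_spread (h : StepHyp r G U D m P B T g gU lam a d φd ε) :
    Spread U (2 * P + 2 ^ r) (nextU r P U D - U ^ (2 * P + 2 ^ r))
      (2 ^ r * (winC r * 5 ^ 2 ^ r * (φd / Real.sqrt T + (B : ℝ) ^ 2 * a * d)))
      (2 ^ r * (winE r * (((T : ℝ) * Real.sqrt (g / (m * B))) ^ r + ε))) := by
  have hX0 : 0 ≤ φd / Real.sqrt T + (B : ℝ) ^ 2 * a * d := by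
    have := h.φ0; have := h.a0; have := h.d0; positivity
  have hwc := one_le_winC r
  have hwe := one_le_winE r
  have e : nextU r P U D - U ^ (2 * P + 2 ^ r) = ∑ t ∈ Finset.range (2 ^ r),
      U ^ P * (U ^ t * (defectAt D (markAt (tm r).1 t) *
        slotProd U D (markAt (tm r).1) (t + 1) (2 ^ r - t - 1))) * U ^ P := by
    rw [← Finset.sum_mul, ← Finset.mul_sum]
    have := slotProd_sub U D (markAt (tm r).1) 0 (2 ^ r)
    simp only [zero_add] at this
    rw [← this, nextU, blk_eq_slotProd, (tm_length r).1, mul_sub, sub_mul, ← pow_add, ← pow_add]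
    congr 2; omega
  rw [e]
  have key := Spread.sum h.probU (m := 2 * P + 2 ^ r) (Finset.range (2 ^ r))
    (D := fun t => U ^ P * (U ^ t * (defectAt D (markAt (tm r).1 t) *
      slotProd U D (markAt (tm r).1) (t + 1) (2 ^ r - t - 1))) * U ^ P)
    (φ := fun _ => winC r * 5 ^ 2 ^ r * (φd / Real.sqrt T + (B : ℝ) ^ 2 * a * d))
    (ε := fun _ => winE r * (((T : ℝ) * Real.sqrt (g / (m * B))) ^ r + ε))
    (fun t _ => by positivity) (fun t ht => by
      have htK := Finset.mem_range.1 ht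
      cases markAt (tm r).1 t
      · have := h.ε0
        simpa [defectAt] using spread_zero h.probU (m := 2 * P + 2 ^ r)
          (φ := winC r * 5 ^ 2 ^ r * (φd / Real.sqrt T + (B : ℝ) ^ 2 * a * d)) (by positivity)
      · simpa [defectAt] using h.term_spread htK (ex := 1) (by positivity)
          (h.rest_nb (markAt (tm r).1) (t + 1) (2 ^ r - t - 1) (by omega)) (h.rest_l1 _ _ _))
  simpa using key

/-- The linear term of the difference is negligible. -/
lemma linear_l1 (h : StepHyp r G U D m P B T g gU lam a d φd ε) :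
    l1 (U ^ P * linTerm U D (tm r).1 * U ^ P) ≤
      (2 * 2 ^ r * Real.sqrt (2 * r)) ^ r * Real.sqrt (gU / P) ^ r := by
  have hr := h.hr
  have hP := h.hP
  have hN1 : 1 ≤ P / r := (Nat.one_le_div_iff (by omega)).2 (by omega)
  have hrN : r * (P / r) ≤ P := Nat.mul_div_le _ _
  have hN2 : P ≤ 2 * r * (P / r) := by
    have h1 := Nat.div_add_mod P r
    have h2 := Nat.mod_lt P (show r > 0 by omega)
    have h3 : r ≤ r * (P / r) := Nat.le_mul_of_pos_right _ hN1
    rw [mul_assoc]; omega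
  have hD1 : l1 D ≤ 1 := by
    refine (Dom.l1_le h.bdD).trans ?_
    rw [mass_pow, h.probG.2, one_pow, mul_one]; linarith [h.lam_half]
  have key := tm_linear h.probU h.smoothU hN1 zero_le_one (fun i => linTerm U D (tm i).1)
    (by
      show l1 _ ≤ _
      simpa [tm, linTerm, l1_neg] using hD1)
    (r := r) (fun i _ => linTerm_tm_succ U D i)
  have e : U ^ P * linTerm U D (tm r).1 * U ^ P = U ^ (P - r * (P / r)) *
      (U ^ (r * (P / r)) * linTerm U D (tm r).1 * U ^ (r * (P / r))) * U ^ (P - r * (P / r)) := by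
    simp only [← mul_assoc]
    rw [← pow_add, mul_assoc (_ * linTerm U D (tm r).1), ← pow_add, Nat.sub_add_cancel hrN,
      Nat.add_sub_cancel' hrN]
  rw [e]
  refine (l1_pad_le (h.probU.pow _) (h.probU.pow _)).trans (le_trans key ?_)
  rw [mul_one, ← mul_pow]
  refine pow_le_pow_left₀ (by positivity) ?_ r
  rw [mul_assoc (2 * 2 ^ r), ← Real.sqrt_mul (by positivity : (0 : ℝ) ≤ 2 * r)]
  refine mul_le_mul_of_nonneg_left (Real.sqrt_le_sqrt ?_) (by positivity)
  have hP0 : (0 : ℝ) < P := by exact_mod_cast (show 0 < P by omega)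
  rw [← mul_div_assoc, div_le_div_iff₀ (by exact_mod_cast hN1) hP0]
  have h5 : (P : ℝ) ≤ 2 * r * (P / r : ℕ) := by exact_mod_cast hN2
  calc gU * (P : ℝ) ≤ gU * (2 * r * (P / r : ℕ)) := mul_le_mul_of_nonneg_left h5 h.gU0
    _ = 2 * r * gU * (P / r : ℕ) := by ring

lemma second_spread (h : StepHyp r G U D m P B T g gU lam a d φd ε) :
    Spread U (2 * P + 2 ^ r) (nextV r P U D - nextU r P U D)
      (2 ^ r * (winC r * (2 ^ r * 5 ^ 2 ^ r * d) * (φd / Real.sqrt T + (B : ℝ) ^ 2 * a * d)))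
      ((2 * 2 ^ r * Real.sqrt (2 * r)) ^ r * Real.sqrt (gU / P) ^ r +
        2 ^ r * (winE r * 2 * (((T : ℝ) * Real.sqrt (g / (m * B))) ^ r + ε))) := by
  have hX0 : 0 ≤ φd / Real.sqrt T + (B : ℝ) ^ 2 * a * d := by
    have := h.φ0; have := h.a0; have := h.d0; positivity
  have hwc := one_le_winC r
  set b := markAt (tm r).1 with hb
  obtain ⟨X, hXdef⟩ : ∃ X : ℕ → Meas, ∀ t, X t = -(if b t then
      slotProd U D b (t + 1) (2 ^ r - t - 1) - U ^ (2 ^ r - t - 1)
    else U ^ (2 ^ r - t - 1) - slotProd U D (fun s => !b s) (t + 1) (2 ^ r - t - 1)) :=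
    ⟨_, fun _ => rfl⟩
  have key := Spread.sum h.probU (m := 2 * P + 2 ^ r) (Finset.range (2 ^ r))
    (D := fun t => U ^ P * (U ^ t * (D * X t)) * U ^ P)
    (φ := fun _ => winC r * (2 ^ r * 5 ^ 2 ^ r * d) * (φd / Real.sqrt T + (B : ℝ) ^ 2 * a * d))
    (ε := fun _ => winE r * 2 * (((T : ℝ) * Real.sqrt (g / (m * B))) ^ r + ε))
    (fun t _ => by have := h.d0; positivity) (fun t ht => by
      have htK := Finset.mem_range.1 ht
      have hUk : l1 (U ^ (2 ^ r - t - 1)) ≤ 1 := by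
        rw [(h.probU.pow _).1.l1_eq, (h.probU.pow _).2]
      refine h.term_spread htK (by have := h.d0; positivity) ?_ ?_
      · rw [hXdef]
        cases b t
        · simpa [Nle] using h.rest_sub_nb (fun s => !b s) (t + 1) _ (by omega)
        · simpa [Nle] using (h.rest_sub_nb b (t + 1) (2 ^ r - t - 1) (by omega)).neg
      · show l1 (X t) ≤ 2
        rw [hXdef, l1_neg]
        cases b t
        · simp only [Bool.false_eq_true, if_false]
          exact (l1_sub_le _ _).trans (by linarith [h.rest_l1 (fun s => !b s) (t + 1) (2 ^ r - t - 1)])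
        · simp only [if_true]
          exact (l1_sub_le _ _).trans (by linarith [h.rest_l1 b (t + 1) (2 ^ r - t - 1)]))
  have e : nextV r P U D - nextU r P U D -
      ∑ t ∈ Finset.range (2 ^ r), U ^ P * (U ^ t * (D * X t)) * U ^ P =
      -(U ^ P * linTerm U D (tm r).1 * U ^ P) := by
    rw [← Finset.sum_mul, ← Finset.mul_sum, nextU, nextV, ← sub_mul, ← mul_sub, ← sub_mul, ← mul_sub,
      ← neg_mul, ← mul_neg]
    congr 2
    have h2 := blk_tm_sub U D r
    rw [← hb] at h2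
    have h3 : ∑ t ∈ Finset.range (2 ^ r), U ^ t * (D * X t) =
        -∑ t ∈ Finset.range (2 ^ r), U ^ t * (D * (if b t then
          slotProd U D b (t + 1) (2 ^ r - t - 1) - U ^ (2 ^ r - t - 1)
        else U ^ (2 ^ r - t - 1) - slotProd U D (fun s => !b s) (t + 1) (2 ^ r - t - 1))) := by
      rw [← Finset.sum_neg_distrib]
      exact Finset.sum_congr rfl fun t _ => by rw [hXdef, mul_neg, mul_neg]
    rw [h3, ← neg_sub (blk U (U + D) (tm r).1), h2]
    abel
  have hd : l1 (nextV r P U D - nextU r P U D -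
      ∑ t ∈ Finset.range (2 ^ r), U ^ P * (U ^ t * (D * X t)) * U ^ P) ≤
      (2 * 2 ^ r * Real.sqrt (2 * r)) ^ r * Real.sqrt (gU / P) ^ r := by
    rw [e, l1_neg]; exact h.linear_l1
  simpa using key.of_close hd

lemma next_bd (h : StepHyp r G U D m P B T g gU lam a d φd ε) :
    Bd (nextU r P U D - U ^ (2 * P + 2 ^ r)) (U ^ (2 * P + 2 ^ r)) (2 ^ (r + 2) * lam) ∧
    Bd (nextV r P U D - nextU r P U D) (U ^ (2 * P + 2 ^ r)) (2 ^ (r + 3) * lam) := by
  have hl := h.lam1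
  have hl0 := h.lam0
  have hlam : (1 + 2 * lam) ^ 2 ^ r - 1 ≤ 2 ^ (r + 2) * lam := by
    have h1 := pow_one_add_le (show 0 ≤ 2 * lam by linarith) (2 ^ r) (by
      push_cast; rw [pow_add] at hl; nlinarith)
    refine h1.trans (le_of_eq ?_)
    push_cast; ring
  have key : ∀ (s : List Bool), s.length = 2 ^ r →
      Dom (U ^ P * blk U (U + D) s * U ^ P - U ^ (2 * P + 2 ^ r)) (U ^ (2 * P + 2 ^ r))
        (2 ^ (r + 2) * lam) := by
    intro s hs
    have h1 := (dom_slotProd_sub h.probU.1 (by linarith) h.bdD_U (markAt s) 0 s.length).mono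
      (h.probU.1.pow _) (hs ▸ hlam)
    rw [← blk_eq_slotProd, hs] at h1
    have h2 := Dom.mul ((h.probU.1.pow P).mul (h.probU.1.pow (2 ^ r)))
      (mul_nonneg zero_le_one (by positivity))
      (Dom.mul (h.probU.1.pow P) zero_le_one (Dom.refl (h.probU.1.pow P)) h1)
      (Dom.refl (h.probU.1.pow P))
    rw [mul_one, one_mul, mul_sub, sub_mul, ← pow_add, ← pow_add,
      show P + 2 ^ r + P = 2 * P + 2 ^ r by omega] at h2
    exact h2
  refine ⟨key _ (tm_length r).1, ?_⟩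
  have h3 := (key _ (tm_length r).2).sub (key _ (tm_length r).1)
  rw [sub_sub_sub_cancel_right] at h3
  exact h3.mono (h.probU.1.pow _) (le_of_eq (by ring))

end StepHyp

/-- Assembling the new state from the two spread bounds. -/
lemma lev_assemble {U U' D' : Meas} {n : ℕ} {gU lam CX CE C x d E : ℝ} (hU : Prob U)
    (hs : Smooth U gU) (pU : Prob U') (mD : mass D' = 0)
    (b1 : Bd (U' - U ^ n) (U ^ n) (C * lam)) (b2 : Bd D' (U ^ n) (C * lam))
    (s1 : Spread U n (U' - U ^ n) (CX * x) (CE * E)) (s2 : Spread U n D' (CX * (d * x)) (CE * E))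
    (hl : 0 ≤ lam) (hCl : C * lam ≤ 1) (hx : 0 ≤ x) (hd : 0 ≤ d) (hE : 0 ≤ E) (hCX : 0 ≤ CX)
    (hCE : 1 ≤ CE) (h1 : CX ≤ C) (h2 : 2 * CE ≤ C) :
    Lev U U' D' n gU (C * lam) (C * (x + Real.sqrt E)) (C * (d * x + Real.sqrt E))
      (C * (x + Real.sqrt E)) (C * (d * x + Real.sqrt E)) (C * E) := by
  have hC0 : 0 ≤ C := hCX.trans h1
  have hCE0 : 0 ≤ CE := le_trans zero_le_one hCE
  have hCl0 : 0 ≤ C * lam := mul_nonneg hC0 hl
  have hCEE : 0 ≤ CE * E := mul_nonneg hCE0 hE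
  have hsE : 0 ≤ Real.sqrt E := Real.sqrt_nonneg _
  have hroot : Real.sqrt (2 * (C * lam) * (CE * E)) ≤ C * Real.sqrt E := by
    have hle : Real.sqrt (2 * (C * lam) * (CE * E)) ≤ Real.sqrt (2 * CE * E) := by
      refine Real.sqrt_le_sqrt ?_
      calc 2 * (C * lam) * (CE * E) ≤ 2 * 1 * (CE * E) :=
            mul_le_mul_of_nonneg_right (mul_le_mul_of_nonneg_left hCl zero_le_two) hCEE
        _ = 2 * CE * E := by ring
    refine hle.trans ?_
    rw [Real.sqrt_mul (mul_nonneg zero_le_two hCE0)]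
    refine mul_le_mul_of_nonneg_right (le_trans ?_ h2) hsE
    rw [Real.sqrt_le_left (mul_nonneg zero_le_two hCE0)]
    exact le_self_pow₀ (by linarith) two_ne_zero
  have hdx : 0 ≤ d * x := mul_nonneg hd hx
  have e1 : CX * x + Real.sqrt (2 * (C * lam) * (CE * E)) ≤ C * (x + Real.sqrt E) := by
    rw [mul_add]; exact add_le_add (mul_le_mul_of_nonneg_right h1 hx) hroot
  have e2 : CX * (d * x) + Real.sqrt (2 * (C * lam) * (CE * E)) ≤ C * (d * x + Real.sqrt E) := by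
    rw [mul_add]; exact add_le_add (mul_le_mul_of_nonneg_right h1 hdx) hroot
  have f1 : CX * x ≤ C * (x + Real.sqrt E) :=
    (le_add_of_nonneg_right (Real.sqrt_nonneg _)).trans e1
  have f2 : CX * (d * x) ≤ C * (d * x + Real.sqrt E) :=
    (le_add_of_nonneg_right (Real.sqrt_nonneg _)).trans e2
  have f3 : CE * E ≤ C * E := mul_le_mul_of_nonneg_right (by linarith) hE
  obtain ⟨u', hu1, -, hu2⟩ := s1.exists_nle hU
  obtain ⟨d', hd1, -, hd2⟩ := s2.exists_nle hU
  have n1 := Bd.transfer (hU.1.pow n) hCl0 (mul_nonneg hCX hx) hCEE b1 hu1 hu2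
  have n2 := Bd.transfer (hU.1.pow n) hCl0 (mul_nonneg hCX hdx) hCEE b2 hd1 hd2
  exact ⟨hU, hs, pU, mD, b1, b2,
    Nle.mono (hU.1.pow n) n1 (add_nonneg (mul_nonneg hCX hx) (Real.sqrt_nonneg _)) e1,
    Nle.mono (hU.1.pow n) n2 (add_nonneg (mul_nonneg hCX hdx) (Real.sqrt_nonneg _)) e2,
    s1.mono hU (mul_nonneg hCX hx) f1 f3, s2.mono hU (mul_nonneg hCX hdx) f2 f3⟩

/-- The constant in front of the main terms. -/
def stepCX (r : ℕ) : ℝ := 2 ^ r * (2 ^ r * winC r * 5 ^ 2 ^ r)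

/-- The constant in front of the error. -/
def stepCE (r : ℕ) : ℝ := (2 * 2 ^ r * Real.sqrt (2 * r)) ^ r + 2 * 2 ^ r * winE r

lemma stepCX_nonneg (r : ℕ) : 0 ≤ stepCX r := by
  have := one_le_winC r
  unfold stepCX; positivity

lemma one_le_stepCE (r : ℕ) : 1 ≤ stepCE r := by
  have h1 := one_le_winE r
  have h2 : (1 : ℝ) ≤ 2 ^ r := one_le_pow₀ one_le_two
  have h3 : 0 ≤ (2 * 2 ^ r * Real.sqrt (2 * r)) ^ r := by positivity
  have h4 := mul_le_mul h2 h1 zero_le_one (by positivity)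
  unfold stepCE; linarith

namespace StepHyp

variable {r : ℕ} {G U D : Meas} {m P B T : ℕ} {g gU lam a d φd ε : ℝ}

lemma x_nonneg (h : StepHyp r G U D m P B T g gU lam a d φd ε) :
    0 ≤ φd / Real.sqrt T + (B : ℝ) ^ 2 * a * d :=
  add_nonneg (div_nonneg h.φ0 (Real.sqrt_nonneg _))
    (mul_nonneg (mul_nonneg (sq_nonneg _) h.a0) h.d0)

lemma err_nonneg (h : StepHyp r G U D m P B T g gU lam a d φd ε) :
    0 ≤ stepErr r P B T m g gU ε := by
  have := h.ε0
  unfold stepErr; positivity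

lemma first_bound (h : StepHyp r G U D m P B T g gU lam a d φd ε) :
    Spread U (2 * P + 2 ^ r) (nextU r P U D - U ^ (2 * P + 2 ^ r))
      (stepCX r * (φd / Real.sqrt T + (B : ℝ) ^ 2 * a * d))
      (stepCE r * stepErr r P B T m g gU ε) := by
  have hx := h.x_nonneg
  have hwc := one_le_winC r
  have hwe := one_le_winE r
  have hp : (1 : ℝ) ≤ 2 ^ r := one_le_pow₀ one_le_two
  have h3 : 0 ≤ (2 * 2 ^ r * Real.sqrt (2 * r)) ^ r := by positivity
  have h4 : 0 ≤ 2 ^ r * winE r := by positivity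
  refine h.first_spread.mono h.probU (by positivity) ?_ ?_
  · rw [← mul_assoc]
    refine mul_le_mul_of_nonneg_right ?_ hx
    unfold stepCX
    refine mul_le_mul_of_nonneg_left ?_ (by positivity)
    rw [mul_assoc ((2 : ℝ) ^ r)]
    exact le_mul_of_one_le_left (by positivity) hp
  · rw [← mul_assoc]
    have hε := h.ε0
    refine mul_le_mul ?_ ?_ (by positivity) (le_trans zero_le_one (one_le_stepCE r))
    · unfold stepCE; linarith
    · unfold stepErr
      have : 0 ≤ Real.sqrt (gU / P) ^ r := by positivity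
      linarith

lemma second_bound (h : StepHyp r G U D m P B T g gU lam a d φd ε) :
    Spread U (2 * P + 2 ^ r) (nextV r P U D - nextU r P U D)
      (stepCX r * (d * (φd / Real.sqrt T + (B : ℝ) ^ 2 * a * d)))
      (stepCE r * stepErr r P B T m g gU ε) := by
  have hx := h.x_nonneg
  have hd := h.d0
  have hε := h.ε0
  have hwc := one_le_winC r
  have hwe := one_le_winE r
  refine h.second_spread.mono h.probU (by positivity) (le_of_eq (by unfold stepCX; ring)) ?_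
  unfold stepCE stepErr
  have h3 : 0 ≤ (2 * 2 ^ r * Real.sqrt (2 * r)) ^ r *
      (((T : ℝ) * Real.sqrt (g / (m * B))) ^ r + ε) := by positivity
  have h4 : 0 ≤ 2 * 2 ^ r * winE r * Real.sqrt (gU / P) ^ r := by positivity
  nlinarith

end StepHyp

theorem step (r : ℕ) (hr : 1 ≤ r) :
    ∃ C : ℝ, 1 ≤ C ∧ ∀ (G U D : Meas) (m P B T : ℕ) (g gU lam a d φu φd ε : ℝ),
      Lev G U D m g lam a d φu φd ε → Smooth U gU →
      0 ≤ g → 0 ≤ gU → 0 ≤ lam → C * lam ≤ 1 → 0 ≤ a → 0 ≤ d → d ≤ 1 → 0 ≤ φd → 0 ≤ ε →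
      2 ≤ B → 1 ≤ T → 4 * r * T ≤ m → 4 * r ≤ P → B + 2 ^ r ≤ P → a * (B : ℝ) ^ 2 ≤ 1 →
      Lev U (nextU r P U D) (nextV r P U D - nextU r P U D) (2 * P + 2 ^ r) gU (C * lam)
        (C * (φd / Real.sqrt T + (B : ℝ) ^ 2 * a * d + Real.sqrt (stepErr r P B T m g gU ε)))
        (C * (d * (φd / Real.sqrt T + (B : ℝ) ^ 2 * a * d) +
          Real.sqrt (stepErr r P B T m g gU ε)))
        (C * (φd / Real.sqrt T + (B : ℝ) ^ 2 * a * d + Real.sqrt (stepErr r P B T m g gU ε)))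
        (C * (d * (φd / Real.sqrt T + (B : ℝ) ^ 2 * a * d) +
          Real.sqrt (stepErr r P B T m g gU ε)))
        (C * stepErr r P B T m g gU ε) := by
  have hCX := stepCX_nonneg r
  have hCE := one_le_stepCE r
  have hp3 : (2 : ℝ) ^ (r + 2) ≤ 2 ^ (r + 3) := pow_le_pow_right₀ one_le_two (by omega)
  have hp32 : (1 : ℝ) ≤ 2 ^ (r + 3) := one_le_pow₀ one_le_two
  refine ⟨2 ^ (r + 3) + stepCX r + 2 * stepCE r, by linarith, ?_⟩
  intro G U D m P B T g gU lam a d φu φd ε hL hsU hg hgU hl hCl ha hd hd1 hφ hε hB hT hm hP hPB haB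
  have hl1 : lam * 2 ^ (r + 2) ≤ 1 := by
    refine le_trans ?_ hCl
    rw [mul_comm]; exact mul_le_mul_of_nonneg_right (by linarith) hl
  have h : StepHyp r G U D m P B T g gU lam a d φd ε :=
    ⟨hr, hL.probG, hL.smoothG, hL.probU, hL.massD, hL.bdU, hL.bdD, hL.nU, hL.nD, hL.spD, hsU, hg,
      hgU, hl, hl1, ha, hd, hd1, hφ, hε, hB, hT, hm, hP, hPB, haB⟩
  obtain ⟨b1, b2⟩ := h.next_bd
  have pU : Prob (nextU r P U D) :=
    ((hL.probU.pow P).mul (blk_prob hL.probU h.probV _)).mul (hL.probU.pow P)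
  have pV : Prob (nextV r P U D) :=
    ((hL.probU.pow P).mul (blk_prob hL.probU h.probV _)).mul (hL.probU.pow P)
  exact lev_assemble hL.probU hsU pU (by rw [mass_sub, pU.2, pV.2, sub_self])
    (b1.mono (hL.probU.1.pow _) (mul_le_mul_of_nonneg_right (by linarith) hl))
    (b2.mono (hL.probU.1.pow _) (mul_le_mul_of_nonneg_right (by linarith) hl))
    h.first_bound h.second_bound hl hCl h.x_nonneg hd h.err_nonneg hCX hCE (by linarith)
    (by linarith)

end Vale.Agent.P321
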