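import Vale.Agent.P321.Base
import Vale.Agent.P321.BaseOverlap
import Vale.Agent.P321.Step
import Vale.Agent.P321.GroupOverlap
import Vale.Agent.P321.Estimator

/-!
# P321: the number of traces needed grows faster than every polynomial

The levels are built with powers of one large integer `μ`; `ν = 1/μ`.
-/

noncomputable section

namespace Vale.Agent.P321

open Filter

private theorem nle_mono {f W : Meas} {a b : ℝ} (h : Nle f W a) (hW : Pos W) (ha : 0 ≤ a)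
    (hab : a ≤ b) : Nle f W b :=
  NB.mono h hW (pow_le_pow_left₀ ha hab 2)

private theorem spread_mono {G D : Meas} {m : ℕ} {φ ψ ε δ : ℝ} (h : Spread G m D φ ε)
    (hG : Prob G) (hφ0 : 0 ≤ φ) (hφ : φ ≤ ψ) (hε : ε ≤ δ) : Spread G m D ψ δ := by
  obtain ⟨D', h1, h2, h3⟩ := h
  refine ⟨D', h1.trans hε, h2, fun L w X n' b hb hX => ?_⟩
  have hw : 0 ≤ wsq L w := Real.sqrt_nonneg _
  exact nle_mono (h3 L w X n' b hb hX) (hG.pow _).1 (by positivity) (by gcongr)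

private theorem smooth_mono {G : Meas} {g g' : ℝ} (h : Smooth G g) (hg : g ≤ g') :
    Smooth G g' :=
  fun N hN => (h N hN).trans (Real.sqrt_le_sqrt (by gcongr))

private theorem lev_mono {G U D : Meas} {m : ℕ} {g g' lam lam' a a' d d' φu φu' φd φd' ε ε' : ℝ}
    (h : Lev G U D m g lam a d φu φd ε) (h0 : 0 ≤ a ∧ 0 ≤ d ∧ 0 ≤ φu ∧ 0 ≤ φd) (hg : g ≤ g')
    (hl : lam ≤ lam') (ha : a ≤ a') (hd : d ≤ d') (hu : φu ≤ φu') (hv : φd ≤ φd') (he : ε ≤ ε') :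
    Lev G U D m g' lam' a' d' φu' φd' ε' :=
  have hW := (h.probG.pow m).1
  ⟨h.probG, smooth_mono h.smoothG hg, h.probU, h.massD, Dom.mono h.bdU hW hl, Dom.mono h.bdD hW hl,
    nle_mono h.nU hW h0.1 ha, nle_mono h.nD hW h0.2.1 hd,
    spread_mono h.spU h.probG h0.2.2.1 hu he, spread_mono h.spD h.probG h0.2.2.2 hv he⟩

private theorem lev_probV {G U D : Meas} {m : ℕ} {g lam a d φu φd ε : ℝ}
    (h : Lev G U D m g lam a d φu φd ε) (hl : lam ≤ 1 / 2) : Prob (U + D) := by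
  refine ⟨fun w => ?_, by rw [mass_add, h.probU.2, h.massD, add_zero]⟩
  have hW := (h.probG.pow m).1 w
  have h1 := abs_le.1 (h.bdU w)
  have h2 := abs_le.1 (h.bdD w)
  have := mul_le_mul_of_nonneg_right hl hW
  simp only [MonoidAlgebra.coeff_sub, Finsupp.sub_apply] at h1
  simp only [MonoidAlgebra.coeff_add, Finsupp.add_apply]
  linarith [h1.1, h2.1]

/-! ### Words -/

/-- A list of marks between two blocks of `P` unmarked ones. -/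
private def pads (P : ℕ) (s : List Bool) : List Bool :=
  List.replicate P false ++ s ++ List.replicate P false

private theorem blk_pads {M : Type*} [Monoid M] (u v : M) (P : ℕ) (s : List Bool) :
    blk u v (pads P s) = u ^ P * blk u v s * u ^ P := by
  simp [blk, pads, List.prod_append, mul_assoc]

private theorem blk_replicate {M : Type*} [Monoid M] (u v : M) (N : ℕ) :
    blk u v (List.replicate N false) = u ^ N := by
  simp [blk]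

private theorem map_blk {M M' : Type*} [Monoid M] [Monoid M'] (f : M →* M') (u v : M)
    (s : List Bool) : f (blk u v s) = blk (f u) (f v) s := by
  simp only [blk, map_list_prod, List.map_map]
  congr 1
  refine List.map_congr_left fun b _ => ?_
  cases b <;> rfl

private theorem tm_spec (r : ℕ) : (tm r).1.length = 2 ^ r ∧ (tm r).2.length = 2 ^ r ∧
    (∃ t, (tm r).1 = false :: t) ∧ ∃ t, (tm r).2 = true :: t := by
  induction r with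
  | zero => simp [tm]
  | succ r ih =>
    obtain ⟨h1, h2, ⟨t, ht⟩, ⟨t', ht'⟩⟩ := ih
    refine ⟨?_, ?_, ⟨t ++ (tm r).2, ?_⟩, ⟨t' ++ (tm r).1, ?_⟩⟩
    · simp only [tm, List.length_append, h1, h2]; ring
    · simp only [tm, List.length_append, h1, h2]; ring
    · simp [tm, ht]
    · simp [tm, ht']

private theorem len_pow (u : Word) (n : ℕ) : (u ^ n).length = n * u.length := by
  induction n with
  | zero => simp
  | succ n ih => rw [pow_succ, FreeMonoid.length_mul, ih]; ring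

private theorem len_blk {u v : Word} (huv : u.length = v.length) (s : List Bool) :
    (blk u v s).length = s.length * u.length := by
  induction s with
  | nil => simp [blk]
  | cons b s ih =>
    rw [blk_cons, FreeMonoid.length_mul, ih, List.length_cons]
    cases b <;> simp [huv] <;> ring

private theorem next_ne {u v : Word} (huv : u.length = v.length) (hne : u ≠ v) (r P : ℕ) :
    blk u v (pads P (tm r).1) ≠ blk u v (pads P (tm r).2) := by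
  obtain ⟨-, -, ⟨t, ht⟩, ⟨t', ht'⟩⟩ := tm_spec r
  rw [blk_pads, blk_pads, mul_assoc, mul_assoc]
  intro h
  have h' := mul_left_cancel h
  rw [mul_left_inj, ht, ht', blk_cons, blk_cons] at h'
  have h'' := congrArg FreeMonoid.toList h'
  simp only [FreeMonoid.toList_mul, Bool.false_eq_true, if_false, if_true] at h''
  exact hne (FreeMonoid.toList.injective (List.append_inj_left h'' huv))

/-! ### Powers of `μ` -/

private theorem le_one_div_pow {x C : ℝ} (hx : 0 < x) (hx1 : x ≤ 1) (hC : C * x ≤ 1) {i j : ℕ}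
    (hij : j + 1 ≤ i) : C * x ^ i ≤ x ^ j := by
  rcases le_or_gt C 0 with h | h
  · exact (mul_nonpos_of_nonpos_of_nonneg h (by positivity)).trans (by positivity)
  · calc C * x ^ i ≤ C * x ^ (j + 1) :=
          mul_le_mul_of_nonneg_left (pow_le_pow_of_le_one hx.le hx1 hij) h.le
      _ = (C * x) * x ^ j := by ring
      _ ≤ 1 * x ^ j := by gcongr
      _ = x ^ j := one_mul _

private theorem pow_mul_inv_pow {x : ℝ} (hx : x ≠ 0) {i j : ℕ} (hij : i ≤ j) :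
    x ^ i * x⁻¹ ^ j = x⁻¹ ^ (j - i) := by
  conv_lhs => rw [← Nat.add_sub_cancel' hij, pow_add, ← mul_assoc, ← mul_pow,
    mul_inv_cancel₀ hx, one_pow, one_mul]

private theorem pow_mul_inv_pow' {x : ℝ} (hx : x ≠ 0) {i j : ℕ} (hij : j ≤ i) :
    x ^ i * x⁻¹ ^ j = x ^ (i - j) := by
  conv_lhs => rw [← Nat.sub_add_cancel hij, pow_add, mul_assoc, ← mul_pow,
    mul_inv_cancel₀ hx, one_pow, mul_one]

private theorem sqrt_div_le {g m x : ℝ} {i : ℕ} (hx : 0 < x) (hm : 0 < m)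
    (h : g * x ^ (2 * i) ≤ m) : Real.sqrt (g / m) ≤ x⁻¹ ^ i := by
  rw [← Real.sqrt_sq (by positivity : (0 : ℝ) ≤ x⁻¹ ^ i)]
  refine Real.sqrt_le_sqrt ?_
  rw [div_le_iff₀ hm, inv_pow, inv_pow, ← pow_mul, mul_comm i 2, inv_mul_eq_div,
    le_div_iff₀ (pow_pos hx _)]
  exact h

private theorem eventually_ge (C : ℝ) : ∀ᶠ μ : ℕ in atTop, C ≤ (μ : ℝ) :=
  tendsto_natCast_atTop_atTop.eventually (eventually_ge_atTop C)

/-- Level `≥ 2`, all sizes given by powers of `μ`. -/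
private def Good (q : ℝ) (H a b R : ℕ) (Λ : ℝ) (μ : ℕ) : Prop :=
  ∃ (u v : Word) (G U D : Meas) (m : ℕ) (g lam ε : ℝ),
    Lev G U D m g lam ((μ : ℝ)⁻¹ ^ a) ((μ : ℝ)⁻¹ ^ b) ((μ : ℝ)⁻¹ ^ a) ((μ : ℝ)⁻¹ ^ b) ε ∧
    (0 ≤ g ∧ g ≤ (μ : ℝ) ^ (2 * H)) ∧ (μ ^ (2 * H + 4) ≤ m ∧ m ≤ μ ^ (2 * H + 5)) ∧
    (0 ≤ lam ∧ lam ≤ Λ * (μ : ℝ)⁻¹) ∧ (0 ≤ ε ∧ ε ≤ (μ : ℝ)⁻¹ ^ R) ∧
    L1 (law q u - U) ε ∧ L1 (law q v - (U + D)) ε ∧
    u.length = v.length ∧ u.length ≤ μ ^ (4 * H + 10) ∧ u ≠ v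

/-- The common assembly of a new level from the outputs of `step`. -/
private theorem assemble {q : ℝ} (h0 : 0 < q) (h1 : q < 1) {r P : ℕ} {u v : Word}
    {G U D G' : Meas} {m m' : ℕ} {g lam a d φu φd ε g' lam' a' d' φu' φd' ε' : ℝ}
    (hL : Lev G U D m g lam a d φu φd ε) (hl : lam ≤ 1 / 2)
    (_hL' : Lev G' (nextU r P U D) (nextV r P U D - nextU r P U D) m' g' lam' a' d' φu' φd' ε')
    (he : 0 ≤ ε) (hu : L1 (law q u - U) ε) (hv : L1 (law q v - (U + D)) ε)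
    (huv : u.length = v.length) (hne : u ≠ v) :
    ∃ u' v' : Word,
      L1 (law q u' - nextU r P U D) ((2 * P + 2 ^ r : ℕ) * ε) ∧
      L1 (law q v' - (nextU r P U D + (nextV r P U D - nextU r P U D)))
        ((2 * P + 2 ^ r : ℕ) * ε) ∧
      u'.length = v'.length ∧ u'.length = (2 * P + 2 ^ r) * u.length ∧ u' ≠ v' := by
  obtain ⟨hl1, hl2, -, -⟩ := tm_spec r
  have hV := lev_probV hL hl
  have hp1 : (pads P (tm r).1).length = 2 * P + 2 ^ r := by simp [pads, hl1]; ring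
  have hp2 : (pads P (tm r).2).length = 2 * P + 2 ^ r := by simp [pads, hl2]; ring
  refine ⟨blk u v (pads P (tm r).1), blk u v (pads P (tm r).2), ?_, ?_, ?_, ?_, next_ne huv hne r P⟩
  · rw [← hp1, map_blk, nextU, ← blk_pads]
    exact blk_L1 (law_prob h0 h1 u) (law_prob h0 h1 v) hL.probU hV he hu hv _
  · rw [← hp2, map_blk, add_sub_cancel, nextV, ← blk_pads]
    exact blk_L1 (law_prob h0 h1 u) (law_prob h0 h1 v) hL.probU hV he hu hv _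
  · rw [len_blk huv, len_blk huv, hp1, hp2]
  · rw [len_blk huv, hp1]

private theorem base_words (h : ℕ) (hh : 1 ≤ h) :
    (baseU h).length = (baseV h).length ∧ (baseU h).length = 4 * h + 1 ∧ baseU h ≠ baseV h := by
  have e2 : w01.length = 2 := rfl
  have e1 : (FreeMonoid.of true).length = 1 := rfl
  have l1 : (baseU h).length = 4 * h + 1 := by
    simp only [baseU, FreeMonoid.length_mul, len_pow, e1, e2]; omega
  have l2 : (baseV h).length = 4 * h + 1 := by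
    simp only [baseV, FreeMonoid.length_mul, len_pow, e1, e2]; omega
  refine ⟨l1.trans l2.symm, l1, ?_⟩
  rw [baseU, baseV, pow_succ, mul_assoc, mul_assoc, mul_assoc]
  intro he
  have he' := congrArg FreeMonoid.toList (mul_left_cancel he)
  simp [w01, FreeMonoid.toList_mul, FreeMonoid.toList_of] at he'

/-- Smoothing of the surrogate of the first level. -/
private theorem first_smooth {q s Cso : ℝ} {Co h : ℕ} (h0 : 0 < q) (h1 : q < 1) {U D : Meas}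
    {e g : ℝ} (hU : Prob U) (hV : Prob (U + D)) (he0 : 0 ≤ e)
    (hu : L1 (law q (baseU h) - U) e) (hv : L1 (law q (baseV h) - (U + D)) e)
    (hsm : ∀ (G : Meas) (N : ℕ), Prob G → 1 ≤ N →
      L1 (G ^ N - G ^ (N + 1)) (2 - 2 * (s / 2)) → Smooth G (Cso * N))
    (hCso : 0 ≤ Cso) {N : ℕ} (hN1 : 1 ≤ N) (hN : N ≤ Co * h)
    (hov : L1 (law q (baseU h) ^ N - law q (baseU h) ^ (N + 1)) (2 - 2 * s))
    (he : 3 * (Co * h : ℕ) * e ≤ s) (hg : Cso * (Co * h : ℕ) ≤ g) :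
    Smooth U g := by
  have hNR : (N : ℝ) ≤ (Co * h : ℕ) := by exact_mod_cast hN
  refine smooth_mono (hsm U N hU hN1 ?_)
    (le_trans (mul_le_mul_of_nonneg_left hNR hCso) hg)
  have key : ∀ n : ℕ, l1 (law q (baseU h) ^ n - U ^ n) ≤ n * e := fun n => by
    have := blk_L1 (law_prob h0 h1 (baseU h)) (law_prob h0 h1 (baseV h)) hU hV he0 hu hv
      (List.replicate n false)
    simpa [blk_replicate] using this
  have k1 := key N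
  have k2 := key (N + 1)
  have hov' : l1 (law q (baseU h) ^ N - law q (baseU h) ^ (N + 1)) ≤ 2 - 2 * s := hov
  have t1 := l1_triangle (U ^ N) (law q (baseU h) ^ N) (U ^ (N + 1))
  have t2 := l1_triangle (law q (baseU h) ^ N) (law q (baseU h) ^ (N + 1)) (U ^ (N + 1))
  rw [l1_sub_comm (U ^ N) (law q (baseU h) ^ N)] at t1
  have hN1R : (1 : ℝ) ≤ N := by exact_mod_cast hN1
  have : (2 * (N : ℝ) + 1) * e ≤ 3 * (Co * h : ℕ) * e := by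
    gcongr
    linarith
  show l1 _ ≤ _
  push_cast at k2
  linarith

/-- The error of the first level is negligible. -/
private theorem first_err {k μ : ℕ} {Cb : ℝ} (hk : 1 ≤ k) (hμ : 1 ≤ μ) (hCb : 1 ≤ Cb)
    (hCμ : Cb * (1 + (Nat.factorial (4 * k) : ℝ)) ≤ μ) :
    0 ≤ baseErr (2 * k) (μ ^ 2000) (μ ^ 998) ((μ : ℝ)⁻¹ ^ 400) Cb ∧
    baseErr (2 * k) (μ ^ 2000) (μ ^ 998) ((μ : ℝ)⁻¹ ^ 400) Cb ≤ (μ : ℝ)⁻¹ ^ (2 * k) := by
  have hμ1 : (1 : ℝ) ≤ μ := by exact_mod_cast hμ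
  have hx : (0 : ℝ) < μ := by linarith
  have hi : (0 : ℝ) < (μ : ℝ)⁻¹ := inv_pos.2 hx
  refine ⟨by rw [baseErr]; positivity, ?_⟩
  have hf : (0 : ℝ) < (Nat.factorial (4 * k) : ℝ) := by exact_mod_cast Nat.factorial_pos _
  have t1 : (((μ ^ 998 : ℕ) : ℝ) / Real.sqrt ((μ ^ 2000 : ℕ) : ℝ)) ^ (2 * k) =
      (μ : ℝ)⁻¹ ^ (4 * k) := by
    rw [Nat.cast_pow, Nat.cast_pow, show (2000 : ℕ) = 1000 * 2 from rfl, pow_mul _ 1000 2,
      Real.sqrt_sq (by positivity), div_eq_mul_inv, ← inv_pow,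
      pow_mul_inv_pow hx.ne' (by norm_num), ← pow_mul]
    congr 1
    omega
  have hCb' : Cb ≤ μ := by
    have : Cb * 1 ≤ Cb * (1 + (Nat.factorial (4 * k) : ℝ)) := by gcongr; linarith
    linarith
  have hy : (μ : ℝ) ≤ ((μ : ℝ)⁻¹ ^ 400) ^ 2 * ((μ ^ 998 : ℕ) : ℝ) / Cb := by
    rw [le_div_iff₀ (by linarith), Nat.cast_pow, ← pow_mul, mul_comm ((μ : ℝ)⁻¹ ^ (400 * 2)),
      inv_pow, ← div_eq_mul_inv, le_div_iff₀ (by positivity)]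
    calc (μ : ℝ) * Cb * μ ^ (400 * 2) ≤ μ * μ * μ ^ (400 * 2) := by gcongr
      _ = (μ : ℝ) ^ 802 := by ring
      _ ≤ (μ : ℝ) ^ 998 := pow_le_pow_right₀ hμ1 (by norm_num)
  have t2 : Real.exp (-(((μ : ℝ)⁻¹ ^ 400) ^ 2 * ((μ ^ 998 : ℕ) : ℝ)) / Cb) ≤
      (Nat.factorial (4 * k) : ℝ) * (μ : ℝ)⁻¹ ^ (4 * k) := by
    refine (Real.exp_le_exp.2 (show _ ≤ -(μ : ℝ) by rw [neg_div]; linarith)).trans ?_
    have := Real.pow_div_factorial_le_exp (μ : ℝ) hx.le (4 * k)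
    rw [Real.exp_neg, inv_pow, ← div_eq_mul_inv, inv_le_comm₀ (Real.exp_pos _) (by positivity),
      inv_div]
    exact this
  rw [baseErr, t1]
  calc Cb * ((μ : ℝ)⁻¹ ^ (4 * k) + _)
      ≤ Cb * ((μ : ℝ)⁻¹ ^ (4 * k) +
          (Nat.factorial (4 * k) : ℝ) * (μ : ℝ)⁻¹ ^ (4 * k)) := by gcongr
    _ = Cb * (1 + (Nat.factorial (4 * k) : ℝ)) * (μ : ℝ)⁻¹ ^ (4 * k) := by ring
    _ ≤ (μ : ℝ)⁻¹ ^ (2 * k) := le_one_div_pow hi (inv_le_one_of_one_le₀ hμ1)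
        (by rw [← div_eq_mul_inv, div_le_one hx]; exact hCμ) (by omega)

/-- The numerical bounds for the first step. -/
private theorem first_num {k m μ : ℕ} {g ε : ℝ} (hk : 4600 ≤ k) (hμ : 1 ≤ μ)
    (hg : g ≤ μ) (hm : μ ^ 2000 ≤ m) (he0 : 0 ≤ ε) (he : ε ≤ (μ : ℝ)⁻¹ ^ (2 * k)) :
    let δ := stepErr (2 * k) (μ ^ 2006) (μ ^ 200) (μ ^ 1098) m g ((μ : ℝ) ^ 2002) ε
    0 ≤ δ ∧ δ ≤ 3 * (μ : ℝ)⁻¹ ^ (2 * k) ∧
    (μ : ℝ)⁻¹ ^ 997 / Real.sqrt ((μ ^ 1098 : ℕ) : ℝ) +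
      ((μ ^ 200 : ℕ) : ℝ) ^ 2 * (μ : ℝ)⁻¹ ^ 498 * (μ : ℝ)⁻¹ ^ 1496 + Real.sqrt δ ≤
      4 * (μ : ℝ)⁻¹ ^ 1546 ∧
    (μ : ℝ)⁻¹ ^ 1496 * ((μ : ℝ)⁻¹ ^ 997 / Real.sqrt ((μ ^ 1098 : ℕ) : ℝ) +
      ((μ ^ 200 : ℕ) : ℝ) ^ 2 * (μ : ℝ)⁻¹ ^ 498 * (μ : ℝ)⁻¹ ^ 1496) + Real.sqrt δ ≤
      4 * (μ : ℝ)⁻¹ ^ 3042 := by
  intro δ
  have hμ1 : (1 : ℝ) ≤ μ := by exact_mod_cast hμ
  have hx : (0 : ℝ) < μ := by linarith
  have hi : (0 : ℝ) < (μ : ℝ)⁻¹ := inv_pos.2 hx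
  have hanti : ∀ {i j : ℕ}, i ≤ j → (μ : ℝ)⁻¹ ^ j ≤ (μ : ℝ)⁻¹ ^ i :=
    fun h => pow_le_pow_of_le_one hi.le (inv_le_one_of_one_le₀ hμ1) h
  have hmR : (μ : ℝ) ^ 2000 ≤ m := by exact_mod_cast hm
  have hmpos : (0 : ℝ) < m := lt_of_lt_of_le (pow_pos hx _) hmR
  have t1 : ((μ ^ 1098 : ℕ) : ℝ) * Real.sqrt (g / (m * ((μ ^ 200 : ℕ) : ℝ))) ≤ (μ : ℝ)⁻¹ := by
    push_cast
    calc (μ : ℝ) ^ 1098 * Real.sqrt (g / (m * (μ : ℝ) ^ 200))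
        ≤ (μ : ℝ) ^ 1098 * (μ : ℝ)⁻¹ ^ 1099 := by
          gcongr
          refine sqrt_div_le hx (by positivity) ?_
          calc g * (μ : ℝ) ^ (2 * 1099) ≤ (μ : ℝ) * (μ : ℝ) ^ (2 * 1099) := by gcongr
            _ = (μ : ℝ) ^ 2199 := by ring
            _ ≤ (μ : ℝ) ^ 2200 := pow_le_pow_right₀ hμ1 (by norm_num)
            _ = (μ : ℝ) ^ 2000 * (μ : ℝ) ^ 200 := by ring
            _ ≤ m * (μ : ℝ) ^ 200 := by gcongr
      _ = (μ : ℝ)⁻¹ := by rw [pow_mul_inv_pow hx.ne' (by norm_num)]; simp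
  have t2 : Real.sqrt ((μ : ℝ) ^ 2002 / ((μ ^ 2006 : ℕ) : ℝ)) ≤ (μ : ℝ)⁻¹ :=
    (sqrt_div_le (i := 1) hx (by positivity) (by
      push_cast
      rw [← pow_add]
      exact pow_le_pow_right₀ hμ1 (by norm_num))).trans_eq (pow_one _)
  have hδ0 : 0 ≤ δ := by simp only [δ, stepErr]; positivity
  have hδ : δ ≤ 3 * (μ : ℝ)⁻¹ ^ (2 * k) := by
    simp only [δ, stepErr]
    have u1 := pow_le_pow_left₀ (by positivity) t1 (2 * k)
    have u2 := pow_le_pow_left₀ (Real.sqrt_nonneg _) t2 (2 * k)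
    linarith
  have hsδ : Real.sqrt δ ≤ 2 * (μ : ℝ)⁻¹ ^ 3042 := by
    refine le_trans ?_ (mul_le_mul_of_nonneg_left (hanti (show 3042 ≤ k by omega))
      (by norm_num : (0 : ℝ) ≤ 2))
    rw [← Real.sqrt_sq (by positivity : (0 : ℝ) ≤ 2 * (μ : ℝ)⁻¹ ^ k)]
    refine Real.sqrt_le_sqrt (hδ.trans ?_)
    rw [mul_pow, ← pow_mul, mul_comm k 2]
    have : 0 ≤ (μ : ℝ)⁻¹ ^ (2 * k) := by positivity
    linarith
  have hX : (μ : ℝ)⁻¹ ^ 997 / Real.sqrt ((μ ^ 1098 : ℕ) : ℝ) +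
      ((μ ^ 200 : ℕ) : ℝ) ^ 2 * (μ : ℝ)⁻¹ ^ 498 * (μ : ℝ)⁻¹ ^ 1496 ≤
      2 * (μ : ℝ)⁻¹ ^ 1546 := by
    push_cast
    rw [show (1098 : ℕ) = 549 * 2 from rfl, pow_mul (μ : ℝ) 549 2,
      Real.sqrt_sq (by positivity), div_eq_mul_inv, ← inv_pow, ← pow_add, ← pow_mul,
      mul_assoc, ← pow_add, pow_mul_inv_pow hx.ne' (by norm_num)]
    have := hanti (show 1546 ≤ 498 + 1496 - 200 * 2 by norm_num)
    linarith
  have e : (μ : ℝ)⁻¹ ^ 3042 = (μ : ℝ)⁻¹ ^ 1496 * (μ : ℝ)⁻¹ ^ 1546 := by rw [← pow_add]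
  have hb' := hanti (show 1546 ≤ 3042 by norm_num)
  have := mul_le_mul_of_nonneg_left hX (by positivity : (0 : ℝ) ≤ (μ : ℝ)⁻¹ ^ 1496)
  refine ⟨hδ0, hδ, ?_, ?_⟩ <;> linarith

private theorem good_first {q : ℝ} (h0 : 0 < q) (h1 : q < 1) (R : ℕ) :
    ∃ Λ : ℝ, ∀ᶠ μ : ℕ in atTop, Good q 1001 1540 3036 R Λ μ := by
  obtain ⟨k, hk⟩ : ∃ k, k = R + 4600 := ⟨_, rfl⟩
  obtain ⟨Cb, hCb1, hbase⟩ := base h0 h1 (2 * k) (by omega)
  obtain ⟨Cs, hCs1, hstep⟩ := step (2 * k) (by omega)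
  obtain ⟨s, Co, hs0, hs1, hover⟩ := base_overlap h0 h1
  obtain ⟨Cso, hCso, hsmooth⟩ := smooth_of_overlap (s := s / 2) (by linarith) (by linarith)
  refine ⟨Cs, ?_⟩
  filter_upwards [eventually_ge_atTop (8 * k + 2 ^ (2 * k) + Co + 8),
    eventually_ge (Cb * (1 + (Nat.factorial (4 * k) : ℝ))), eventually_ge (4 * Cb),
    eventually_ge (4 * Cs), eventually_ge (Cso * Co), eventually_ge (3 * Co / s)]
    with μ hμ hCf hCbμ hCsμ hCsoμ hCoμ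
  have h2k : 1 ≤ 2 ^ (2 * k) := Nat.one_le_two_pow
  have hμN : 1 ≤ μ := by omega
  have hμ1 : (1 : ℝ) ≤ μ := by exact_mod_cast hμN
  have hx : (0 : ℝ) < μ := by linarith
  have hi : (0 : ℝ) < (μ : ℝ)⁻¹ := inv_pos.2 hx
  have hx1 : (μ : ℝ)⁻¹ ≤ 1 := inv_le_one_of_one_le₀ hμ1
  have hanti : ∀ {i j : ℕ}, i ≤ j → (μ : ℝ)⁻¹ ^ j ≤ (μ : ℝ)⁻¹ ^ i :=
    fun h => pow_le_pow_of_le_one hi.le hx1 h
  have hC : ∀ {C : ℝ}, C ≤ μ → C * (μ : ℝ)⁻¹ ≤ 1 := fun {C} hC => by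
    rw [← div_eq_mul_inv, div_le_one hx]; exact hC
  have hμge : ∀ {j : ℕ}, 1 ≤ j → μ ≤ μ ^ j := fun h => Nat.le_self_pow (by omega) μ
  obtain ⟨he0, he⟩ := first_err (k := k) (by omega) hμN hCb1 hCf
  obtain ⟨U, D, hL, hu, hv⟩ := hbase (μ ^ 2000) (μ ^ 998) ((μ : ℝ)⁻¹ ^ 400)
    (Nat.one_le_pow _ _ hμN)
    (by push_cast
        calc Cb * (μ : ℝ) ^ 998 ≤ μ * (μ : ℝ) ^ 998 := by gcongr; linarith
          _ ≤ (μ : ℝ) ^ 2000 := by rw [← pow_succ']; exact pow_le_pow_right₀ hμ1 (by norm_num))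
    (by positivity)
    ((mul_le_mul_of_nonneg_left (hanti (show 1 ≤ 400 by norm_num)) (by linarith)).trans
      (by rw [pow_one]; exact hC (by linarith)))
    (by rw [Nat.cast_pow, ← pow_mul, mul_comm, pow_mul_inv_pow' hx.ne' (by norm_num)]
        calc Cb ≤ (μ : ℝ) ^ 1 := by rw [pow_one]; linarith
          _ ≤ _ := pow_le_pow_right₀ hμ1 (by norm_num))
  set e := baseErr (2 * k) (μ ^ 2000) (μ ^ 998) ((μ : ℝ)⁻¹ ^ 400) Cb with hedef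
  have hse : Real.sqrt e ≤ (μ : ℝ)⁻¹ ^ k := by
    rw [← Real.sqrt_sq (by positivity : (0 : ℝ) ≤ (μ : ℝ)⁻¹ ^ k), ← pow_mul, mul_comm k 2]
    exact Real.sqrt_le_sqrt he
  have hC2 : 2 * Cb * (μ : ℝ)⁻¹ ≤ 1 := hC (by linarith)
  have ha1 : Cb / Real.sqrt ((μ ^ 998 : ℕ) : ℝ) + Real.sqrt e ≤ (μ : ℝ)⁻¹ ^ 498 := by
    rw [Nat.cast_pow, show (998 : ℕ) = 499 * 2 from rfl, pow_mul, Real.sqrt_sq (by positivity),
      div_eq_mul_inv, ← inv_pow]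
    refine le_trans ?_ (le_one_div_pow hi hx1 hC2 (show 498 + 1 ≤ 499 by norm_num))
    have := hanti (show 499 ≤ k by omega)
    nlinarith [show (0 : ℝ) ≤ (μ : ℝ)⁻¹ ^ 499 by positivity]
  have hd1 : Cb / (((μ ^ 998 : ℕ) : ℝ) * Real.sqrt ((μ ^ 998 : ℕ) : ℝ)) + Real.sqrt e ≤
      (μ : ℝ)⁻¹ ^ 1496 := by
    rw [Nat.cast_pow, show Real.sqrt ((μ : ℝ) ^ 998) = (μ : ℝ) ^ 499 by
        rw [show (998 : ℕ) = 499 * 2 from rfl, pow_mul, Real.sqrt_sq (by positivity)],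
      ← pow_add, div_eq_mul_inv, ← inv_pow]
    refine le_trans ?_ (le_one_div_pow hi hx1 hC2 (show 1496 + 1 ≤ 998 + 499 by norm_num))
    have := hanti (show 998 + 499 ≤ k by omega)
    nlinarith [show (0 : ℝ) ≤ (μ : ℝ)⁻¹ ^ (998 + 499) by positivity]
  have hp1 : Cb / ((μ ^ 998 : ℕ) : ℝ) ≤ (μ : ℝ)⁻¹ ^ 997 := by
    rw [Nat.cast_pow, div_eq_mul_inv, ← inv_pow]
    exact le_one_div_pow hi hx1 (hC (by linarith)) (by norm_num)
  have hL1 : Lev (bgLaw q) U D (2 * μ ^ 2000 + 1) Cb ((μ : ℝ)⁻¹ ^ 400) ((μ : ℝ)⁻¹ ^ 498)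
      ((μ : ℝ)⁻¹ ^ 1496) Cb ((μ : ℝ)⁻¹ ^ 997) ((μ : ℝ)⁻¹ ^ (2 * k)) :=
    lev_mono hL ⟨by positivity, by positivity, by positivity, by positivity⟩ le_rfl le_rfl
      ha1 hd1 le_rfl hp1 he
  have hl2 : (μ : ℝ)⁻¹ ^ 400 ≤ 1 / 2 := by
    have := hanti (show 1 ≤ 400 by norm_num)
    rw [pow_one] at this
    have := hC (C := 2) (by linarith)
    linarith
  obtain ⟨hlen, hlenU, hne⟩ := base_words (μ ^ 2000) (Nat.one_le_pow _ _ hμN)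
  have hu1 : L1 (law q (baseU (μ ^ 2000)) - U) ((μ : ℝ)⁻¹ ^ (2 * k)) := le_trans hu he
  have hv1 : L1 (law q (baseV (μ ^ 2000)) - (U + D)) ((μ : ℝ)⁻¹ ^ (2 * k)) := le_trans hv he
  obtain ⟨N, hN1, hN, hov⟩ := hover (μ ^ 2000) (le_trans (by omega) (hμge (by norm_num)))
  have hsm : Smooth U ((μ : ℝ) ^ 2002) := by
    refine first_smooth h0 h1 hL1.probU (lev_probV hL1 hl2) (by positivity) hu1 hv1 hsmooth
      hCso.le hN1 hN hov ?_ ?_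
    · push_cast
      calc 3 * (Co * (μ : ℝ) ^ 2000) * (μ : ℝ)⁻¹ ^ (2 * k)
          = 3 * Co * (μ : ℝ)⁻¹ ^ (2 * k - 2000) := by
            rw [← pow_mul_inv_pow hx.ne' (show 2000 ≤ 2 * k by omega)]; ring
        _ ≤ 3 * Co * (μ : ℝ)⁻¹ ^ 1 :=
            mul_le_mul_of_nonneg_left (hanti (by omega)) (by positivity)
        _ ≤ s := by
            rw [pow_one, ← div_eq_mul_inv, div_le_iff₀ hx]
            rw [div_le_iff₀ hs0] at hCoμ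
            linarith
    · push_cast
      calc Cso * (Co * (μ : ℝ) ^ 2000) = Cso * Co * (μ : ℝ) ^ 2000 := by ring
        _ ≤ μ * (μ : ℝ) ^ 2000 := by gcongr
        _ ≤ (μ : ℝ) ^ 2002 := by rw [← pow_succ']; exact pow_le_pow_right₀ hμ1 (by norm_num)
  have key := hstep (bgLaw q) U D (2 * μ ^ 2000 + 1) (μ ^ 2006) (μ ^ 200) (μ ^ 1098) Cb
    ((μ : ℝ) ^ 2002) _ _ _ _ _ _ hL1 hsm (by linarith) (by positivity) (by positivity)
    ((mul_le_mul_of_nonneg_left (hanti (show 1 ≤ 400 by norm_num)) (by linarith)).trans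
      (by rw [pow_one]; exact hC (by linarith)))
    (by positivity) (by positivity) (pow_le_one₀ hi.le hx1) (by positivity) (by positivity)
    (le_trans (by omega) (hμge (by norm_num))) (Nat.one_le_pow _ _ hμN) ?_ ?_ ?_ ?_
  rotate_left
  · calc 4 * (2 * k) * μ ^ 1098 ≤ μ * μ ^ 1098 := by gcongr; omega
      _ ≤ μ ^ 2000 := by rw [← pow_succ']; exact Nat.pow_le_pow_right hμN (by norm_num)
      _ ≤ 2 * μ ^ 2000 + 1 := by omega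
  · exact le_trans (by omega) (hμge (by norm_num))
  · have e1 : μ ^ 200 ≤ μ ^ 2005 := Nat.pow_le_pow_right hμN (by norm_num)
    have e2 : μ ≤ μ ^ 2005 := hμge (by norm_num)
    have e3 : 2 * μ ^ 2005 ≤ μ * μ ^ 2005 := Nat.mul_le_mul_right _ (by omega)
    rw [← pow_succ', show 2005 + 1 = 2006 from rfl] at e3
    omega
  · push_cast
    rw [← pow_mul, mul_comm, pow_mul_inv_pow hx.ne' (by norm_num)]
    exact pow_le_one₀ hi.le hx1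
  obtain ⟨u', v', hu', hv', huv', hlen', hne'⟩ :=
    assemble h0 h1 hL1 hl2 key (by positivity) hu1 hv1 hlen hne
  obtain ⟨hδ0, hδ, hA, hD⟩ := first_num (k := k) (m := 2 * μ ^ 2000 + 1) (g := Cb) (by omega) hμN
    (by linarith) (by omega) (show (0 : ℝ) ≤ (μ : ℝ)⁻¹ ^ (2 * k) by positivity) le_rfl
  have hCs4 : 4 * Cs * (μ : ℝ)⁻¹ ≤ 1 := hC hCsμ
  have hCs0 : 0 ≤ Cs := by linarith
  have hm' : (2 * μ ^ 2006 + 2 ^ (2 * k)) ≤ μ ^ 2007 := by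
    have e1 : 3 * μ ^ 2006 ≤ μ * μ ^ 2006 := Nat.mul_le_mul_right _ (by omega)
    have e2 : μ ≤ μ ^ 2006 := hμge (by norm_num)
    rw [← pow_succ', show 2006 + 1 = 2007 from rfl] at e1
    omega
  have herr : ((2 * μ ^ 2006 + 2 ^ (2 * k) : ℕ) : ℝ) * (μ : ℝ)⁻¹ ^ (2 * k) ≤
      (μ : ℝ)⁻¹ ^ R := by
    calc ((2 * μ ^ 2006 + 2 ^ (2 * k) : ℕ) : ℝ) * (μ : ℝ)⁻¹ ^ (2 * k)
        ≤ (μ : ℝ) ^ 2007 * (μ : ℝ)⁻¹ ^ (2 * k) := by
          refine mul_le_mul_of_nonneg_right ?_ (by positivity)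
          exact_mod_cast hm'
      _ ≤ _ := by rw [pow_mul_inv_pow hx.ne' (by omega)]; exact hanti (by omega)
  have hA' := (mul_le_mul_of_nonneg_left hA hCs0).trans
    ((le_of_eq (by ring)).trans (le_one_div_pow hi hx1 hCs4
      (show 1540 + 1 ≤ 1546 by norm_num)))
  have hD' := (mul_le_mul_of_nonneg_left hD hCs0).trans
    ((le_of_eq (by ring)).trans (le_one_div_pow hi hx1 hCs4
      (show 3036 + 1 ≤ 3042 by norm_num)))
  refine ⟨u', v', U, _, _, _, (μ : ℝ) ^ 2002, Cs * (μ : ℝ)⁻¹ ^ 400, (μ : ℝ)⁻¹ ^ R,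
    lev_mono key ⟨by positivity, by positivity, by positivity, by positivity⟩ le_rfl le_rfl
      hA' hD' hA' hD' ?_,
    ⟨by positivity, pow_le_pow_right₀ hμ1 (by norm_num)⟩, ⟨?_, ?_⟩,
    ⟨by positivity, ?_⟩, ⟨by positivity, le_rfl⟩, le_trans hu' herr, le_trans hv' herr,
    huv', ?_, hne'⟩
  · calc _ ≤ 4 * Cs * (μ : ℝ)⁻¹ ^ (2 * k) := by
          have : 0 ≤ (μ : ℝ)⁻¹ ^ (2 * k) := by positivity
          nlinarith
      _ ≤ (μ : ℝ)⁻¹ ^ R := le_one_div_pow hi hx1 hCs4 (by omega)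
  · rw [show 2 * 1001 + 4 = 2006 from rfl]; omega
  · rw [show 2 * 1001 + 5 = 2007 from rfl]; exact hm'
  · exact mul_le_mul_of_nonneg_left ((hanti (show 1 ≤ 400 by norm_num)).trans_eq (pow_one _)) hCs0
  · rw [hlen', hlenU]
    calc (2 * μ ^ 2006 + 2 ^ (2 * k)) * (4 * μ ^ 2000 + 1) ≤ μ ^ 2007 * (μ * μ ^ 2000) := by
          refine Nat.mul_le_mul hm' ?_
          have := Nat.one_le_pow 2000 μ hμN
          have : 5 * μ ^ 2000 ≤ μ * μ ^ 2000 := Nat.mul_le_mul_right _ (by omega)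
          omega
      _ ≤ μ ^ (4 * 1001 + 10) := by
          rw [← pow_succ', ← pow_add]; exact Nat.pow_le_pow_right hμN (by norm_num)

/-- Smoothing of the surrogate of a level. -/
private theorem next_smooth {G U D : Meas} {m H a Q μ : ℕ} {g lam d φd ε Cg : ℝ}
    (hCg1 : 1 ≤ Cg)
    (hgroup : ∀ (G U D : Meas) (m J W : ℕ) (g lam a d φu φd ε : ℝ),
      Lev G U D m g lam a d φu φd ε →
      0 ≤ g → 0 ≤ lam → Cg * lam ≤ 1 → 0 ≤ a → 0 ≤ φu → 0 ≤ ε →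
      1 ≤ J → 4 ≤ W → 4 * Q * W ≤ m → 256 * (g * m) ≤ J * W →
      Cg * (J * (Real.sqrt W * φu ^ 2 + a ^ 2 + ((W : ℝ) * a ^ 2) ^ 2)) ≤ 1 →
      Cg * (J * W * (Real.sqrt (g / m) ^ Q + ε)) ≤ 1 →
      Smooth U (Cg * (J * W)))
    (hL : Lev G U D m g lam ((μ : ℝ)⁻¹ ^ a) d ((μ : ℝ)⁻¹ ^ a) φd ε)
    (hH : 30 ≤ H) (ha : 3 * H + 12 ≤ 2 * a) (hQ : 4 * H + 16 ≤ 2 * Q)
    (hμ : 256 + 4 * Q ≤ μ) (hCμ : 4 * Cg ≤ μ)
    (hg0 : 0 ≤ g) (hg : g ≤ (μ : ℝ) ^ (2 * H))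
    (hm1 : μ ^ (2 * H + 4) ≤ m) (hm2 : m ≤ μ ^ (2 * H + 5))
    (hl0 : 0 ≤ lam) (hcg : Cg * lam ≤ 1) (he0 : 0 ≤ ε) (he : ε ≤ (μ : ℝ)⁻¹ ^ (2 * Q)) :
    Smooth U ((μ : ℝ) ^ (4 * H + 12)) := by
  have hμN : 1 ≤ μ := by omega
  have hμ1 : (1 : ℝ) ≤ μ := by exact_mod_cast hμN
  have hx : (0 : ℝ) < μ := by linarith
  have hi : (0 : ℝ) < (μ : ℝ)⁻¹ := inv_pos.2 hx
  have hanti : ∀ {i : ℕ}, 1 ≤ i → (μ : ℝ)⁻¹ ^ i ≤ (μ : ℝ)⁻¹ := fun h => by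
    simpa using pow_le_pow_of_le_one hi.le (inv_le_one_of_one_le₀ hμ1) h
  have hC : 4 * Cg * (μ : ℝ)⁻¹ ≤ 1 := by rw [← div_eq_mul_inv, div_le_one hx]; exact hCμ
  have hi0 : 0 ≤ Cg * (μ : ℝ)⁻¹ := by positivity
  have hmR1 : (μ : ℝ) ^ (2 * H + 4) ≤ m := by exact_mod_cast hm1
  have hmR2 : (m : ℝ) ≤ (μ : ℝ) ^ (2 * H + 5) := by exact_mod_cast hm2
  have hgm : Real.sqrt (g / m) ≤ (μ : ℝ)⁻¹ ^ 2 :=
    sqrt_div_le hx (lt_of_lt_of_le (pow_pos hx _) hmR1) (by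
      calc g * (μ : ℝ) ^ (2 * 2) ≤ (μ : ℝ) ^ (2 * H) * (μ : ℝ) ^ (2 * 2) := by gcongr
        _ = (μ : ℝ) ^ (2 * H + 4) := by ring
        _ ≤ (m : ℝ) := hmR1)
  have key := hgroup G U D m (μ ^ (2 * H + 10)) (μ ^ (2 * H)) g lam _ _ _ _ ε hL hg0 hl0 hcg
    (by positivity) (by positivity) he0 (Nat.one_le_pow _ _ hμN)
    (le_trans (by omega) (Nat.le_self_pow (by omega) μ)) ?_ ?_ ?_ ?_
  · refine smooth_mono key ?_
    push_cast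
    rw [← pow_add]
    calc Cg * (μ : ℝ) ^ (2 * H + 10 + 2 * H) ≤ μ * (μ : ℝ) ^ (2 * H + 10 + 2 * H) := by
          gcongr; linarith
      _ ≤ (μ : ℝ) ^ (4 * H + 12) := by
          rw [← pow_succ']; exact pow_le_pow_right₀ hμ1 (by omega)
  · calc 4 * Q * μ ^ (2 * H) ≤ μ * μ ^ (2 * H) := by gcongr; omega
      _ ≤ μ ^ (2 * H + 4) := by rw [← pow_succ']; exact Nat.pow_le_pow_right hμN (by omega)
      _ ≤ m := hm1
  · push_cast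
    have hμ256 : (256 : ℝ) ≤ μ := by exact_mod_cast (show 256 ≤ μ by omega)
    calc 256 * (g * m) ≤ (μ : ℝ) * ((μ : ℝ) ^ (2 * H) * (μ : ℝ) ^ (2 * H + 5)) := by gcongr
      _ ≤ (μ : ℝ) ^ (2 * H + 10) * (μ : ℝ) ^ (2 * H) := by
        rw [← pow_add, ← pow_succ', ← pow_add]; exact pow_le_pow_right₀ hμ1 (by omega)
  · rw [show Real.sqrt ((μ ^ (2 * H) : ℕ) : ℝ) = (μ : ℝ) ^ H by
      rw [Nat.cast_pow, mul_comm, pow_mul, Real.sqrt_sq (by positivity)]]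
    push_cast
    calc Cg * ((μ : ℝ) ^ (2 * H + 10) * ((μ : ℝ) ^ H * ((μ : ℝ)⁻¹ ^ a) ^ 2 +
            ((μ : ℝ)⁻¹ ^ a) ^ 2 + ((μ : ℝ) ^ (2 * H) * ((μ : ℝ)⁻¹ ^ a) ^ 2) ^ 2))
        = Cg * ((μ : ℝ) ^ (3 * H + 10) * (μ : ℝ)⁻¹ ^ (2 * a) +
            (μ : ℝ) ^ (2 * H + 10) * (μ : ℝ)⁻¹ ^ (2 * a) +
            (μ : ℝ) ^ (6 * H + 10) * (μ : ℝ)⁻¹ ^ (4 * a)) := by ring
      _ ≤ Cg * ((μ : ℝ)⁻¹ + (μ : ℝ)⁻¹ + (μ : ℝ)⁻¹) := by
        rw [pow_mul_inv_pow hx.ne' (by omega), pow_mul_inv_pow hx.ne' (by omega),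
          pow_mul_inv_pow hx.ne' (by omega)]
        exact mul_le_mul_of_nonneg_left
          (add_le_add (add_le_add (hanti (by omega)) (hanti (by omega))) (hanti (by omega)))
          (by linarith)
      _ ≤ 1 := by linarith
  · push_cast
    rw [← pow_add]
    calc Cg * ((μ : ℝ) ^ (2 * H + 10 + 2 * H) * (Real.sqrt (g / m) ^ Q + ε))
        ≤ Cg * ((μ : ℝ) ^ (2 * H + 10 + 2 * H) *
            ((μ : ℝ)⁻¹ ^ (2 * Q) + (μ : ℝ)⁻¹ ^ (2 * Q))) := by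
          gcongr
          rw [pow_mul]
          exact pow_le_pow_left₀ (Real.sqrt_nonneg _) hgm Q
      _ ≤ Cg * ((μ : ℝ)⁻¹ + (μ : ℝ)⁻¹) := by
          rw [mul_add, pow_mul_inv_pow hx.ne' (by omega)]
          exact mul_le_mul_of_nonneg_left (add_le_add (hanti (by omega)) (hanti (by omega)))
            (by linarith)
      _ ≤ 1 := by linarith

/-- The numerical bounds for one step. -/
private theorem next_num {H a b β Q m μ : ℕ} {g ε : ℝ} (hQ : 2 * b + β ≤ Q)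
    (ha : 9 * β ≤ a) (hμ : 1 ≤ μ) (hg : g ≤ (μ : ℝ) ^ (2 * H))
    (hm1 : μ ^ (2 * H + 4) ≤ m) (he0 : 0 ≤ ε) (he : ε ≤ (μ : ℝ)⁻¹ ^ (2 * Q)) :
    let δ := stepErr Q (μ ^ (4 * H + 16)) (μ ^ (4 * β)) (μ ^ (2 * β)) m g
      ((μ : ℝ) ^ (4 * H + 12)) ε
    0 ≤ δ ∧ δ ≤ 3 * (μ : ℝ)⁻¹ ^ (2 * Q) ∧
    (μ : ℝ)⁻¹ ^ b / Real.sqrt ((μ ^ (2 * β) : ℕ) : ℝ) +
      ((μ ^ (4 * β) : ℕ) : ℝ) ^ 2 * (μ : ℝ)⁻¹ ^ a * (μ : ℝ)⁻¹ ^ b + Real.sqrt δ ≤
      4 * (μ : ℝ)⁻¹ ^ (b + β) ∧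
    (μ : ℝ)⁻¹ ^ b * ((μ : ℝ)⁻¹ ^ b / Real.sqrt ((μ ^ (2 * β) : ℕ) : ℝ) +
      ((μ ^ (4 * β) : ℕ) : ℝ) ^ 2 * (μ : ℝ)⁻¹ ^ a * (μ : ℝ)⁻¹ ^ b) + Real.sqrt δ ≤
      4 * (μ : ℝ)⁻¹ ^ (2 * b + β) := by
  intro δ
  have hμ1 : (1 : ℝ) ≤ μ := by exact_mod_cast hμ
  have hx : (0 : ℝ) < μ := by linarith
  have hi : (0 : ℝ) < (μ : ℝ)⁻¹ := inv_pos.2 hx
  have hanti : ∀ {i j : ℕ}, i ≤ j → (μ : ℝ)⁻¹ ^ j ≤ (μ : ℝ)⁻¹ ^ i :=
    fun h => pow_le_pow_of_le_one hi.le (inv_le_one_of_one_le₀ hμ1) h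
  have hmR1 : (μ : ℝ) ^ (2 * H + 4) ≤ m := by exact_mod_cast hm1
  have hmpos : (0 : ℝ) < m := lt_of_lt_of_le (pow_pos hx _) hmR1
  have t1 : ((μ ^ (2 * β) : ℕ) : ℝ) * Real.sqrt (g / (m * ((μ ^ (4 * β) : ℕ) : ℝ))) ≤
      (μ : ℝ)⁻¹ ^ 2 := by
    push_cast
    calc (μ : ℝ) ^ (2 * β) * Real.sqrt (g / (m * (μ : ℝ) ^ (4 * β)))
        ≤ (μ : ℝ) ^ (2 * β) * (μ : ℝ)⁻¹ ^ (2 * β + 2) := by
          gcongr
          refine sqrt_div_le hx (by positivity) ?_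
          calc g * (μ : ℝ) ^ (2 * (2 * β + 2))
              ≤ (μ : ℝ) ^ (2 * H) * (μ : ℝ) ^ (2 * (2 * β + 2)) := by gcongr
            _ = (μ : ℝ) ^ (2 * H + 4) * (μ : ℝ) ^ (4 * β) := by ring
            _ ≤ m * (μ : ℝ) ^ (4 * β) := by gcongr
      _ = (μ : ℝ)⁻¹ ^ 2 := by
        rw [pow_mul_inv_pow hx.ne' (by omega), Nat.add_sub_cancel_left]
  have t2 : Real.sqrt ((μ : ℝ) ^ (4 * H + 12) / ((μ ^ (4 * H + 16) : ℕ) : ℝ)) ≤
      (μ : ℝ)⁻¹ ^ 2 := sqrt_div_le hx (by push_cast; positivity)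
        (by push_cast; rw [← pow_add])
  have hδ0 : 0 ≤ δ := by simp only [δ, stepErr]; positivity
  have hδ : δ ≤ 3 * (μ : ℝ)⁻¹ ^ (2 * Q) := by
    simp only [δ, stepErr]
    have u1 := pow_le_pow_left₀ (by positivity) t1 Q
    have u2 := pow_le_pow_left₀ (Real.sqrt_nonneg _) t2 Q
    rw [← pow_mul] at u1 u2
    linarith
  have hsδ : Real.sqrt δ ≤ 2 * (μ : ℝ)⁻¹ ^ (2 * b + β) := by
    refine le_trans ?_ (mul_le_mul_of_nonneg_left (hanti hQ) (by norm_num : (0 : ℝ) ≤ 2))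
    rw [← Real.sqrt_sq (by positivity : (0 : ℝ) ≤ 2 * (μ : ℝ)⁻¹ ^ Q)]
    refine Real.sqrt_le_sqrt (hδ.trans ?_)
    rw [mul_pow, ← pow_mul, mul_comm Q 2]
    have : 0 ≤ (μ : ℝ)⁻¹ ^ (2 * Q) := by positivity
    linarith
  have hX : (μ : ℝ)⁻¹ ^ b / Real.sqrt ((μ ^ (2 * β) : ℕ) : ℝ) +
      ((μ ^ (4 * β) : ℕ) : ℝ) ^ 2 * (μ : ℝ)⁻¹ ^ a * (μ : ℝ)⁻¹ ^ b ≤
      2 * (μ : ℝ)⁻¹ ^ (b + β) := by
    push_cast
    rw [mul_comm 2 β, pow_mul (μ : ℝ) β 2, Real.sqrt_sq (by positivity), ← pow_mul,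
      pow_mul_inv_pow hx.ne' (by omega), ← pow_add, div_eq_mul_inv, ← inv_pow, ← pow_add]
    have := hanti (i := b + β) (j := a - 4 * β * 2 + b) (by omega)
    linarith
  have e : (μ : ℝ)⁻¹ ^ (2 * b + β) = (μ : ℝ)⁻¹ ^ b * (μ : ℝ)⁻¹ ^ (b + β) := by ring
  have hb' := hanti (show b + β ≤ 2 * b + β by omega)
  have := mul_le_mul_of_nonneg_left hX (by positivity : (0 : ℝ) ≤ (μ : ℝ)⁻¹ ^ b)
  refine ⟨hδ0, hδ, ?_, ?_⟩ <;> linarith

private theorem good_next {q : ℝ} (h0 : 0 < q) (h1 : q < 1) {H a b : ℕ} (hH : 30 ≤ H)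
    (ha : 3 * H + 12 ≤ 2 * a) (hb : 3 * (2 * H + 6) + 40 ≤ 2 * b)
    (h : ∀ R, ∃ Λ : ℝ, ∀ᶠ μ : ℕ in atTop, Good q H a b R Λ μ) (R : ℕ) :
    ∃ Λ : ℝ, ∀ᶠ μ : ℕ in atTop,
      Good q (2 * H + 6) (b + H / 10 - 2) (2 * b + H / 10 - 2) R Λ μ := by
  obtain ⟨Q, hQ⟩ : ∃ Q, Q = R + 2 * b + 8 * H + 40 := ⟨_, rfl⟩
  obtain ⟨β, hβ⟩ : ∃ β, β = H / 10 := ⟨_, rfl⟩
  have h10 : 10 * β ≤ H := by omega
  have hβ1 : 1 ≤ β := by omega
  rw [← hβ]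
  obtain ⟨Cg, hCg1, hgroup⟩ := group_smooth Q (by omega)
  obtain ⟨Cs, hCs1, hstep⟩ := step Q (by omega)
  obtain ⟨Λ, hev⟩ := h (2 * Q)
  refine ⟨Cs * Λ, ?_⟩
  filter_upwards [hev, eventually_ge_atTop (256 + 4 * Q + 2 ^ Q),
    eventually_ge (4 * Cs), eventually_ge (4 * Cg), eventually_ge (2 * Λ),
    eventually_ge (Cs * Λ), eventually_ge (Cg * Λ)]
    with μ hG hμ hCsμ hCgμ hΛμ hsΛ hgΛ
  obtain ⟨u, v, G, U, D, m, g, lam, ε, hL, ⟨hg0, hg⟩, ⟨hm1, hm2⟩, ⟨hl0, hl⟩, ⟨he0, he⟩,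
    hu, hv, huv, hlen, hne⟩ := hG
  have h2Q : 1 ≤ 2 ^ Q := Nat.one_le_two_pow
  have hμN : 1 ≤ μ := by omega
  have hx : (0 : ℝ) < μ := by exact_mod_cast hμN
  have hμ1 : (1 : ℝ) ≤ μ := by exact_mod_cast hμN
  have hi : (0 : ℝ) < (μ : ℝ)⁻¹ := inv_pos.2 hx
  have hx1 : (μ : ℝ)⁻¹ ≤ 1 := inv_le_one_of_one_le₀ hμ1
  have hC : ∀ {C : ℝ}, C ≤ μ → C * (μ : ℝ)⁻¹ ≤ 1 := fun {C} hC => by
    rw [← div_eq_mul_inv, div_le_one hx]; exact hC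
  have hlC : ∀ {C : ℝ}, 0 ≤ C → C * Λ ≤ μ → C * lam ≤ 1 := fun {C} h0 h1 =>
    (mul_le_mul_of_nonneg_left hl h0).trans (by rw [← mul_assoc]; exact hC h1)
  have hcs : Cs * lam ≤ 1 := hlC (by linarith) hsΛ
  have hl2 : lam ≤ 1 / 2 := by linarith [hlC (by norm_num) hΛμ]
  have hμge : ∀ {j : ℕ}, 1 ≤ j → μ ≤ μ ^ j := fun h => Nat.le_self_pow (by omega) μ
  have hsm : Smooth U ((μ : ℝ) ^ (4 * H + 12)) :=
    next_smooth hCg1 hgroup hL hH ha (by omega) (by omega) hCgμ hg0 hg hm1 hm2 hl0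
      (hlC (by linarith) hgΛ) he0 he
  have key := hstep G U D m (μ ^ (4 * H + 16)) (μ ^ (4 * β)) (μ ^ (2 * β)) g
    ((μ : ℝ) ^ (4 * H + 12)) lam _ _ _ _ ε hL hsm hg0 (by positivity) hl0 hcs (by positivity)
    (by positivity) (pow_le_one₀ hi.le hx1) (by positivity) he0
    (le_trans (by omega) (hμge (by omega))) (Nat.one_le_pow _ _ hμN) ?_ ?_ ?_ ?_
  rotate_left
  · calc 4 * Q * μ ^ (2 * β) ≤ μ * μ ^ (2 * β) := by gcongr; omega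
      _ ≤ μ ^ (2 * H + 4) := by rw [← pow_succ']; exact Nat.pow_le_pow_right hμN (by omega)
      _ ≤ m := hm1
  · exact le_trans (by omega) (hμge (by omega))
  · have e1 : μ ^ (4 * β) ≤ μ ^ (4 * H + 15) := Nat.pow_le_pow_right hμN (by omega)
    have e2 : μ ≤ μ ^ (4 * H + 15) := hμge (by omega)
    have e3 : 2 * μ ^ (4 * H + 15) ≤ μ * μ ^ (4 * H + 15) :=
      Nat.mul_le_mul_right _ (by omega)
    rw [← pow_succ', show 4 * H + 15 + 1 = 4 * H + 16 from rfl] at e3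
    omega
  · push_cast
    rw [← pow_mul, mul_comm, pow_mul_inv_pow hx.ne' (by omega)]
    exact pow_le_one₀ hi.le hx1
  obtain ⟨u', v', hu', hv', huv', hlen', hne'⟩ := assemble h0 h1 hL hl2 key he0 hu hv huv hne
  obtain ⟨hδ0, hδ, hA, hD⟩ := next_num (b := b) (β := β) (a := a) (Q := Q) (by omega) (by omega)
    hμN hg hm1 he0 he
  have hCs4 : 4 * Cs * (μ : ℝ)⁻¹ ≤ 1 := hC hCsμ
  have hCs0 : 0 ≤ Cs := by linarith
  have hm' : (2 * μ ^ (4 * H + 16) + 2 ^ Q) ≤ μ ^ (4 * H + 17) := by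
    have e1 : 3 * μ ^ (4 * H + 16) ≤ μ * μ ^ (4 * H + 16) := Nat.mul_le_mul_right _ (by omega)
    have e2 : μ ≤ μ ^ (4 * H + 16) := hμge (by omega)
    rw [← pow_succ', show 4 * H + 16 + 1 = 4 * H + 17 from rfl] at e1
    omega
  have herr : ((2 * μ ^ (4 * H + 16) + 2 ^ Q : ℕ) : ℝ) * ε ≤ (μ : ℝ)⁻¹ ^ R := by
    calc ((2 * μ ^ (4 * H + 16) + 2 ^ Q : ℕ) : ℝ) * ε
        ≤ (μ : ℝ) ^ (4 * H + 17) * (μ : ℝ)⁻¹ ^ (2 * Q) := by
          refine mul_le_mul ?_ he he0 (by positivity)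
          exact_mod_cast hm'
      _ ≤ _ := by
          rw [pow_mul_inv_pow hx.ne' (by omega)]
          exact pow_le_pow_of_le_one hi.le hx1 (by omega)
  have hA' := (mul_le_mul_of_nonneg_left hA hCs0).trans
    ((le_of_eq (by ring)).trans (le_one_div_pow hi hx1 hCs4
      (show b + β - 2 + 1 ≤ b + β by omega)))
  have hD' := (mul_le_mul_of_nonneg_left hD hCs0).trans
    ((le_of_eq (by ring)).trans (le_one_div_pow hi hx1 hCs4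
      (show 2 * b + β - 2 + 1 ≤ 2 * b + β by omega)))
  refine ⟨u', v', U, _, _, _, (μ : ℝ) ^ (4 * H + 12), Cs * lam, (μ : ℝ)⁻¹ ^ R,
    lev_mono key ⟨by positivity, by positivity, by positivity, by positivity⟩ le_rfl le_rfl
      hA' hD' hA' hD' ?_,
    ⟨by positivity, pow_le_pow_right₀ hμ1 (by omega)⟩, ⟨?_, ?_⟩,
    ⟨mul_nonneg hCs0 hl0, ?_⟩, ⟨by positivity, le_rfl⟩, le_trans hu' herr, le_trans hv' herr,
    huv', ?_, hne'⟩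
  · calc _ ≤ 4 * Cs * (μ : ℝ)⁻¹ ^ (2 * Q) := by
          have : 0 ≤ (μ : ℝ)⁻¹ ^ (2 * Q) := by positivity
          nlinarith
      _ ≤ (μ : ℝ)⁻¹ ^ R := le_one_div_pow hi hx1 hCs4 (by omega)
  · rw [show 2 * (2 * H + 6) + 4 = 4 * H + 16 by omega]; omega
  · rw [show 2 * (2 * H + 6) + 5 = 4 * H + 17 by omega]; exact hm'
  · rw [mul_assoc]; exact mul_le_mul_of_nonneg_left hl hCs0
  · rw [hlen']
    calc (2 * μ ^ (4 * H + 16) + 2 ^ Q) * u.length ≤ μ ^ (4 * H + 17) * μ ^ (4 * H + 10) :=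
          Nat.mul_le_mul hm' hlen
      _ ≤ μ ^ (4 * (2 * H + 6) + 10) := by
          rw [← pow_add]; exact Nat.pow_le_pow_right hμN (by omega)

theorem superpolynomial {q : ℝ} (h0 : 0 < q) (h1 : q < 1) (A : ℕ) :
    ∃ N : ℕ, ∀ n, N ≤ n → ∀ m : ℕ, m ≤ n ^ A →
      ∀ est : (Fin m → List Bool) → (Fin n → Bool) → ℝ,
        (∀ t y, 0 ≤ est t y) → (∀ t, ∑ y, est t y ≤ 1) →
        ∃ x, success q est x < 2 / 3 := by
  have key : ∀ j : ℕ, ∃ H a b : ℕ, H + 6 = 2 ^ j * 1007 ∧ 3 * H + 12 ≤ 2 * a ∧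
      3 * (2 * H + 6) + 40 ≤ 2 * b ∧ 90 * j * 2 ^ j ≤ 2 * b ∧
      ∀ R, ∃ Λ : ℝ, ∀ᶠ μ : ℕ in atTop, Good q H a b R Λ μ := by
    intro j
    induction j with
    | zero => exact ⟨1001, 1540, 3036, by norm_num, by norm_num, by norm_num, by norm_num,
        good_first h0 h1⟩
    | succ j ih =>
      obtain ⟨H, a, b, hH, ha, hb, hj, hgood⟩ := ih
      have h2 : 1 ≤ 2 ^ j := Nat.one_le_two_pow
      have e1 : 90 * (j + 1) * 2 ^ (j + 1) = 2 * (90 * j * 2 ^ j) + 180 * 2 ^ j := by ring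
      refine ⟨2 * H + 6, b + H / 10 - 2, 2 * b + H / 10 - 2, ?_, by omega, by omega, by omega,
        good_next h0 h1 (by omega) ha hb hgood⟩
      rw [pow_succ]; omega
  obtain ⟨H, a, b, hH, -, hb, hj, hgood⟩ := key (100 * (A + 2))
  obtain ⟨E, hE⟩ : ∃ E, E = 4 * H + 10 := ⟨_, rfl⟩
  have hbE : E * A + 1 ≤ b := by
    have hA : 100 * (A + 2) = 100 * A + 200 := by ring
    rw [hA] at hH hj
    have hpos := Nat.one_le_two_pow (n := 100 * A + 200)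
    generalize 2 ^ (100 * A + 200) = X at hH hj hpos
    have e1 : E * A ≤ 4028 * X * A := Nat.mul_le_mul_right A (by omega)
    have e2 : 90 * (100 * A + 200) * X = 9000 * (X * A) + 18000 * X := by ring
    have e3 : 4028 * X * A = 4028 * (X * A) := by ring
    generalize X * A = Y at e2 e3
    omega
  clear hH hj hb key
  obtain ⟨Λ, hev⟩ := hgood b
  obtain ⟨μ₀, hμ₀⟩ := eventually_atTop.1
    (hev.and (eventually_ge (10 * (2 : ℝ) ^ (E * A))))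
  refine ⟨(μ₀ + 1) ^ E, fun n hn m hm est hnn hsum => ?_⟩
  have hE0 : E ≠ 0 := by omega
  set μ := Nat.findGreatest (fun x => x ^ E ≤ n) n with hμ
  have hμ0n : μ₀ + 1 ≤ n := le_trans (Nat.le_self_pow hE0 _) hn
  have hμge : μ₀ + 1 ≤ μ := Nat.le_findGreatest hμ0n hn
  have hμE : μ ^ E ≤ n := Nat.findGreatest_spec (P := fun x => x ^ E ≤ n) hμ0n hn
  have hlt : n < (μ + 1) ^ E := by
    by_contra hcon
    push Not at hcon
    have h2 : μ + 1 ≤ n := le_trans (Nat.le_self_pow hE0 _) hcon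
    exact Nat.findGreatest_is_greatest (P := fun x => x ^ E ≤ n) (Nat.lt_succ_self μ) h2 hcon
  obtain ⟨⟨u, v, G, U, D, k, g, lam, ε, hL, -, -, -, ⟨he, heR⟩, hu, hv, huv, hlen, hne⟩, hbig⟩ :=
    hμ₀ μ (by omega)
  have hx : (0 : ℝ) < (μ : ℝ) := by
    have : 0 < μ := by omega
    exact_mod_cast this
  have hDb : L1 D ((μ : ℝ)⁻¹ ^ b) :=
    Nle.toL1 (hL.probG.pow k) (by positivity) hL.nD
  have hclose : L1 (law q u - law q v) (3 * (μ : ℝ)⁻¹ ^ b) := by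
    have e : law q u - law q v = law q u - U - (law q v - (U + D)) - D := by abel
    have f1 : l1 (law q u - U) ≤ ε := hu
    have f2 : l1 (law q v - (U + D)) ≤ ε := hv
    have f3 : l1 D ≤ (μ : ℝ)⁻¹ ^ b := hDb
    have f4 := l1_sub_le (law q u - U) (law q v - (U + D))
    have f5 := l1_sub_le (law q u - U - (law q v - (U + D))) D
    rw [← e] at f5
    show l1 _ ≤ _
    linarith
  refine exists_failure h0 h1 u v n m _ huv ((hlen.trans_eq (by rw [hE])).trans hμE) hne hclose ?_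
    est hnn hsum
  have hmn : (m : ℝ) ≤ ((2 : ℝ) * μ) ^ (E * A) := by
    have h2 : m ≤ (2 * μ) ^ (E * A) := by
      refine hm.trans ?_
      rw [pow_mul]
      exact Nat.pow_le_pow_left (hlt.le.trans (Nat.pow_le_pow_left (by omega) E)) A
    exact_mod_cast h2
  calc (m : ℝ) * (3 * (μ : ℝ)⁻¹ ^ b)
      ≤ ((2 : ℝ) * μ) ^ (E * A) * (3 * (μ : ℝ)⁻¹ ^ b) := by gcongr
    _ = 3 * 2 ^ (E * A) * (μ : ℝ)⁻¹ ^ (b - E * A) := by
      rw [mul_pow, ← pow_mul_inv_pow hx.ne' (show E * A ≤ b by omega)]; ring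
    _ ≤ 3 * 2 ^ (E * A) * (μ : ℝ)⁻¹ ^ 1 := by
      gcongr ?_ * ?_
      exact pow_le_pow_of_le_one (by positivity)
        (inv_le_one_of_one_le₀ (by exact_mod_cast (show 1 ≤ μ by omega))) (by omega)
    _ < 1 / 3 := by
      rw [pow_one, ← div_eq_mul_inv, div_lt_iff₀ hx]
      have : (0 : ℝ) < 2 ^ (E * A) := by positivity
      linarith

end Vale.Agent.P321
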