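import Vale.Agent.P321.Alg

/-!
# P321: the gain of one step

A defect `D` followed by any `X`, inside pads of surrogate units `U`, is rewritten as a short core,
translated inside pure pads (small by orthogonality), plus a correction of second order.
-/

namespace Vale.Agent.P321

lemma Dom.pos_of_sub {U W : Meas} {a : ℝ} (h : Dom (U - W) W a) (hW : Pos W) (ha : a ≤ 1) :
    Pos U := fun w => by
  have h1 := (abs_le.1 (h w)).1
  simp only [MonoidAlgebra.coeff_sub, Finsupp.sub_apply] at h1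
  nlinarith [hW w]

lemma Dom.of_sub {U W : Meas} {a : ℝ} (h : Dom (U - W) W a) (hW : Pos W) (ha : a < 1) :
    Dom W U (1 / (1 - a)) := fun w => by
  have h1 := (abs_le.1 (h w)).1
  simp only [MonoidAlgebra.coeff_sub, Finsupp.sub_apply] at h1
  rw [abs_of_nonneg (hW w), div_mul_eq_mul_div, one_mul, le_div_iff₀ (by linarith)]
  nlinarith

/-- Replacing pads on both sides of a core. -/
lemma NB.wrap {U V y : Meas} {a k : ℕ} {alpha Y : ℝ} (hU : Pos U) (mU : mass U = 1)
    (mV : mass V = 1) (hal : 0 ≤ alpha) (hY : 0 ≤ Y) (hv : NB (V - U) U alpha)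
    (hy : NB y (U ^ k) Y) :
    NB (U ^ a * y * U ^ a - V ^ a * y * V ^ a) (U ^ (a + k + a))
      (2 * (((1 + alpha) ^ a - 1) * Y * (2 + ((1 + alpha) ^ a - 1)))) := by
  set e := (1 + alpha) ^ a - 1
  have he : 0 ≤ e := sub_nonneg.2 (one_le_pow₀ (by linarith))
  have mvu : mass (V - U) = 0 := by rw [mass_sub, mV, mU, sub_self]
  have hsub : NB (V ^ a - U ^ a) (U ^ a) e := by
    simpa using NB.pow_sub hU mU mvu hal hv a
  have hVa : NB (V ^ a) (U ^ a) (1 + e) := by
    have h2 : mass (V ^ a - U ^ a) = 0 := by rw [mass_sub, mass_pow, mass_pow, mV, mU, sub_self]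
    simpa using NB.add_self (hU.pow a) (by rw [mass_pow, mU, one_pow]) h2 he hsub
  have hUa : NB (U ^ a) (U ^ a) 1 := by simpa [mass_pow, mU] using nb_self (hU.pow a)
  have t1 : NB ((U ^ a - V ^ a) * y * U ^ a) (U ^ a * U ^ k * U ^ a) (e * Y * 1) := by
    refine NB.mul ((hU.pow a).mul (hU.pow k)) (hU.pow a) (mul_nonneg he hY) ?_ hUa
    exact NB.mul (hU.pow a) (hU.pow k) he (by simpa using hsub.neg) hy
  have t2 : NB (V ^ a * y * (U ^ a - V ^ a)) (U ^ a * U ^ k * U ^ a) ((1 + e) * Y * e) := by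
    refine NB.mul ((hU.pow a).mul (hU.pow k)) (hU.pow a)
      (mul_nonneg (by linarith) hY) ?_ (by simpa using hsub.neg)
    exact NB.mul (hU.pow a) (hU.pow k) (by linarith) hVa hy
  rw [← pow_add, ← pow_add] at t1 t2
  have key := NB.sum_card (s := (Finset.univ : Finset Bool))
    (f := fun b => if b then (U ^ a - V ^ a) * y * U ^ a else V ^ a * y * (U ^ a - V ^ a))
    (A := fun b => if b then e * Y * 1 else (1 + e) * Y * e)
    (W := U ^ (a + k + a)) (by rintro (_ | _) - <;> simp [t2] <;> simpa using t1)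
  simp only [Fintype.sum_bool, Finset.card_univ, Fintype.card_bool, if_true,
    Bool.false_eq_true, if_false] at key
  have e2 : U ^ a * y * U ^ a - V ^ a * y * V ^ a =
      (U ^ a - V ^ a) * y * U ^ a + V ^ a * y * (U ^ a - V ^ a) := by noncomm_ring
  rw [e2]
  refine key.mono (hU.pow _) (le_of_eq ?_)
  push_cast; ring

/-- The gain: a defect `D` followed by `X`, in pads of `a + 1` units `U`, is up to `kap` a short
core plus a second-order correction.  Here `ghat` is the translate average in `G`-units. -/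
theorem gain {G U D X ghat : Meas} {m a j : ℕ} {lam alpha h B Gam kap : ℝ}
    (hG : Pos G) (mG : mass G = 1) (hl : 0 ≤ lam) (hl1 : lam < 1)
    (mU : mass U = 1) (hUd : Dom (U - G ^ m) (G ^ m) lam)
    (hal : 0 ≤ alpha) (hu : NB (G ^ m - U) U alpha)
    (hh : 0 ≤ h) (hD : NB D (G ^ m) h) (mD : mass D = 0)
    (hB : 0 ≤ B) (hX : NB X ((G ^ m) ^ j) B)
    (hGam : 0 ≤ Gam) (mghat : mass ghat = 0) (hghat : NB ghat ((G ^ m) ^ (j + 3)) Gam)
    (htr : l1 ((G ^ m) ^ (a + 1) * (D * X) * (G ^ m) ^ (a + 1) -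
      (G ^ m) ^ a * ghat * (G ^ m) ^ a) ≤ kap) :
    ∃ corr : Meas, mass corr = 0 ∧
      NB ghat (U ^ (j + 3)) (Gam * (1 / (1 - lam)) ^ (j + 3)) ∧
      NB corr (U ^ (a + (j + 3) + a))
        (4 * (((1 + alpha) ^ (a + 1) - 1) * (2 + ((1 + alpha) ^ (a + 1) - 1))) *
          (h * B + Gam) * (1 / (1 - lam)) ^ (j + 3)) ∧
      l1 (U ^ (a + 1) * (D * X) * U ^ (a + 1) - (U ^ a * ghat * U ^ a + corr)) ≤ kap := by
  set V := G ^ m
  have hV : Pos V := hG.pow m
  have mV : mass V = 1 := by rw [mass_pow, mG, one_pow]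
  have hU : Pos U := hUd.pos_of_sub hV hl1.le
  have hVU : Dom V U (1 / (1 - lam)) := hUd.of_sub hV hl1
  set r := 1 / (1 - lam)
  have hr : 1 ≤ r := by rw [le_div_iff₀ (by linarith)]; linarith
  have hy : NB (D * X) (U ^ (j + 1)) (h * B * r ^ (j + 1)) := by
    refine NB.change ?_ (mul_nonneg hh hB) (hVU.pow hU (by linarith) (j + 1))
    rw [pow_succ']; exact NB.mul hV (hV.pow j) hh hD hX
  have hg : NB ghat (U ^ (j + 3)) (Gam * r ^ (j + 3)) :=
    hghat.change hGam (hVU.pow hU (by linarith) _)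
  have w1 := NB.wrap (a := a + 1) hU mU mV hal (by positivity) hu hy
  have w2 := NB.wrap (a := a) hU mU mV hal (by positivity) hu hg
  rw [show a + 1 + (j + 1) + (a + 1) = a + (j + 3) + a by omega] at w1
  set e1 := (1 + alpha) ^ (a + 1) - 1 with he1
  set e0 := (1 + alpha) ^ a - 1 with he0
  have h0 : 0 ≤ e0 := sub_nonneg.2 (one_le_pow₀ (by linarith))
  have h01 : e0 ≤ e1 := sub_le_sub_right (pow_le_pow_right₀ (by linarith) (Nat.le_succ a)) _
  set c1 := U ^ (a + 1) * (D * X) * U ^ (a + 1) - V ^ (a + 1) * (D * X) * V ^ (a + 1) with hc1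
  set c2 := U ^ a * ghat * U ^ a - V ^ a * ghat * V ^ a with hc2
  refine ⟨c1 - c2, ?_, hg, ?_, ?_⟩
  · simp [c1, c2, mass_sub, mass_mul, mD, mghat]
  · have key := NB.sum_card (s := (Finset.univ : Finset Bool))
      (f := fun b => if b then c1 else -c2)
      (A := fun b => if b then 2 * (e1 * (h * B * r ^ (j + 1)) * (2 + e1))
        else 2 * (e0 * (Gam * r ^ (j + 3)) * (2 + e0)))
      (W := U ^ (a + (j + 3) + a)) (by
        rintro (_ | _) -
        · simpa using w2.neg
        · simpa using w1)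
    simp only [Fintype.sum_bool, Finset.card_univ, Fintype.card_bool, if_true,
      Bool.false_eq_true, if_false, ← sub_eq_add_neg] at key
    refine key.mono (hU.pow _) ?_
    have hp : r ^ (j + 1) ≤ r ^ (j + 3) := pow_le_pow_right₀ hr (by omega)
    have q1 : e1 * (h * B * r ^ (j + 1)) * (2 + e1) ≤ e1 * (h * B * r ^ (j + 3)) * (2 + e1) := by
      have : 0 ≤ 2 + e1 := by linarith
      have : 0 ≤ e1 := by linarith
      gcongr
    have q2 : e0 * (Gam * r ^ (j + 3)) * (2 + e0) ≤ e1 * (Gam * r ^ (j + 3)) * (2 + e1) := by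
      have : 0 ≤ 2 + e1 := by linarith
      have : 0 ≤ e1 := by linarith
      gcongr <;> positivity
    push_cast
    linarith
  · refine le_trans (le_of_eq ?_) htr
    congr 1
    simp only [c1, c2]; abel

end Vale.Agent.P321
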