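import Mathlib

/-!
# P321: smoothing inside pads

Generic estimates in a real algebra with a submultiplicative seminorm: overlap of two consecutive
powers gives smoothing of high powers, and finite differences of translations of an element
inside powers of `G` are small.
-/

open Finset Polynomial

noncomputable section

namespace Vale.Agent.P321.Kernel

variable {A : Type*} [Ring A] [Algebra ℝ A] {nu : RingSeminorm A}

/-- The hypotheses on the seminorm. -/
structure Good (nu : RingSeminorm A) : Prop where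
  smul_le : ∀ (r : ℝ) (x : A), nu (r • x) ≤ |r| * nu x
  one_le : nu 1 ≤ 1

lemma Good.pow_le (h : Good nu) {G : A} (hG : nu G ≤ 1) (n : ℕ) : nu (G ^ n) ≤ 1 := by
  induction n with
  | zero => simpa using h.one_le
  | succ k ih =>
    rw [pow_succ]
    exact (map_mul_le_mul nu _ _).trans
      (mul_le_one₀ ih (apply_nonneg nu G) hG)

lemma Good.mul_pow_le (h : Good nu) {G : A} (hG : nu G ≤ 1) (x : A) (n : ℕ) :
    nu (x * G ^ n) ≤ nu x := by
  refine (map_mul_le_mul nu _ _).trans ?_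
  exact mul_le_of_le_one_right (apply_nonneg nu x) (h.pow_le hG n)

/-- Longer pads only help. -/
lemma Good.pow_sub_le (h : Good nu) {G : A} (hG : nu G ≤ 1) {m n : ℕ} (hmn : m ≤ n) :
    nu (G ^ n * (1 - G)) ≤ nu (G ^ m * (1 - G)) := by
  obtain ⟨k, rfl⟩ := Nat.exists_eq_add_of_le hmn
  have hc : G ^ k * (1 - G) = (1 - G) * G ^ k :=
    (((Commute.one_left G).sub_left (Commute.refl G)).symm.pow_left k).eq
  rw [pow_add, mul_assoc, hc, ← mul_assoc]
  exact h.mul_pow_le hG _ k

lemma sum_choose_sq (m : ℕ) (a : ℝ) :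
    ∑ i ∈ range (m + 1), (m.choose i : ℝ) * (2 * (i : ℝ) - m + a) ^ 2 = 2 ^ m * (a ^ 2 + m) := by
  induction m generalizing a with
  | zero => simp
  | succ k ih =>
    rw [Finset.sum_choose_succ_mul (fun i _ => (2 * (i : ℝ) - ((k + 1 : ℕ) : ℝ) + a) ^ 2) k]
    have h1 := ih (a + 1)
    have h2 := ih (a - 1)
    have e1 : ∑ i ∈ range (k + 1), (k.choose i : ℝ) *
        (2 * (((i + 1 : ℕ)) : ℝ) - ((k + 1 : ℕ) : ℝ) + a) ^ 2 = 2 ^ k * ((a + 1) ^ 2 + k) := by
      rw [← h1]; refine sum_congr rfl fun i _ => ?_; push_cast; ring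
    have e2 : ∑ i ∈ range (k + 1), (k.choose i : ℝ) *
        (2 * (i : ℝ) - ((k + 1 : ℕ) : ℝ) + a) ^ 2 = 2 ^ k * ((a - 1) ^ 2 + k) := by
      rw [← h2]; refine sum_congr rfl fun i _ => ?_; push_cast; ring
    rw [e1, e2, pow_succ]; push_cast; ring

lemma sum_choose_abs (m : ℕ) :
    ∑ i ∈ range (m + 1), (m.choose i : ℝ) * |2 * (i : ℝ) - m| ≤ 2 ^ m * Real.sqrt m := by
  have h := Finset.sum_mul_sq_le_sq_mul_sq (range (m + 1))
    (fun i => Real.sqrt (m.choose i)) (fun i => Real.sqrt (m.choose i) * |2 * (i : ℝ) - m|)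
  have e1 : ∑ i ∈ range (m + 1), Real.sqrt (m.choose i) ^ 2 = 2 ^ m := by
    rw [sum_congr rfl fun i _ => Real.sq_sqrt (Nat.cast_nonneg _)]
    exact_mod_cast Nat.sum_range_choose m
  have e2 : ∑ i ∈ range (m + 1), (Real.sqrt (m.choose i) * |2 * (i : ℝ) - m|) ^ 2 =
      2 ^ m * (m : ℝ) := by
    have := sum_choose_sq m 0
    simp only [add_zero, zero_pow two_ne_zero, zero_add] at this
    rw [← this]
    refine sum_congr rfl fun i _ => ?_
    rw [mul_pow, Real.sq_sqrt (Nat.cast_nonneg _), sq_abs]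
  have e3 : ∑ i ∈ range (m + 1), Real.sqrt (m.choose i) *
      (Real.sqrt (m.choose i) * |2 * (i : ℝ) - m|) =
      ∑ i ∈ range (m + 1), (m.choose i : ℝ) * |2 * (i : ℝ) - m| := by
    refine sum_congr rfl fun i _ => ?_
    rw [← mul_assoc, Real.mul_self_sqrt (Nat.cast_nonneg _)]
  rw [e1, e2, e3] at h
  refine abs_le_of_sq_le_sq' ?_ (by positivity) |>.2
  rw [mul_pow, Real.sq_sqrt (Nat.cast_nonneg m)]
  calc _ ≤ _ := h
    _ = _ := by ring

/-- Smoothing of the symmetric lazy step. -/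
lemma Good.half_pow_sub_le (h : Good nu) {G : A} (hG : nu G ≤ 1) (j : ℕ) :
    nu (((1 / 2 : ℝ) • (1 + G)) ^ j * (1 - G)) ≤ 2 / Real.sqrt (j + 1) := by
  set w : ℕ → ℝ := fun i => ((j + 1).choose i : ℝ) * ((j + 1 : ℕ) - 2 * (i : ℝ)) / (j + 1)
  have hexp : (1 + G) ^ j * (1 - G) = ∑ i ∈ range (j + 2), w i • G ^ i := by
    have hb : (1 + G) ^ j = ∑ i ∈ range (j + 1), (j.choose i : ℝ) • G ^ i := by
      rw [add_comm, (Commute.one_left G).symm.add_pow]
      refine sum_congr rfl fun i _ => ?_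
      rw [one_pow, mul_one, Algebra.smul_def, map_natCast, ← (Nat.cast_commute _ _).eq]
    rw [hb, Finset.sum_mul]
    have hR : ∀ i, w i = (j.choose i : ℝ) - (if i = 0 then 0 else (j.choose (i - 1) : ℝ)) := by
      intro i
      have hj : (0 : ℝ) < j + 1 := by positivity
      simp only [w]
      rw [div_eq_iff hj.ne']
      cases i with
      | zero => simp
      | succ k =>
        have h1 : ((j + 1 : ℝ)) * (j.choose k : ℝ) = ((j + 1).choose (k + 1) : ℝ) * (k + 1) := by
          exact_mod_cast Nat.add_one_mul_choose_eq j k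
        have h2 : ((j + 1).choose (k + 1) : ℝ) = (j.choose k : ℝ) + (j.choose (k + 1) : ℝ) := by
          exact_mod_cast Nat.choose_succ_succ' j k
        simp only [Nat.succ_ne_zero, ↓reduceIte, Nat.add_sub_cancel]
        push_cast
        linear_combination ((j : ℝ) + 1) * h2 + 2 * h1
    simp only [hR, sub_smul, Finset.sum_sub_distrib]
    rw [Finset.sum_range_succ _ (j + 1), Nat.choose_succ_self, Finset.sum_range_succ' _ (j + 1)]
    simp [mul_sub, Finset.sum_sub_distrib, pow_succ]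
  rw [_root_.smul_pow, smul_mul_assoc, hexp]
  refine (h.smul_le _ _).trans ?_
  have h2 : nu (∑ i ∈ range (j + 2), w i • G ^ i) ≤ ∑ i ∈ range (j + 2), |w i| := by
    refine (Finset.le_sum_of_subadditive nu (map_zero nu).le (fun a b => map_add_le_add nu a b) _ _).trans ?_
    refine sum_le_sum fun i _ => (h.smul_le _ _).trans ?_
    exact mul_le_of_le_one_right (abs_nonneg _) (h.pow_le hG i)
  have h3 : ∑ i ∈ range (j + 2), |w i| ≤ 2 ^ (j + 1) * Real.sqrt (j + 1) / (j + 1) := by
    have hs := sum_choose_abs (j + 1)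
    push_cast at hs
    refine le_trans (le_of_eq ?_) (div_le_div_of_nonneg_right hs (by positivity))
    rw [Finset.sum_div]
    refine sum_congr rfl fun i _ => ?_
    simp only [w]
    rw [abs_div, abs_mul, abs_sub_comm, Nat.abs_cast,
      abs_of_nonneg (by positivity : (0 : ℝ) ≤ (j : ℝ) + 1)]
    push_cast
    rfl
  calc |(1 / 2 : ℝ) ^ j| * nu (∑ i ∈ range (j + 2), w i • G ^ i)
      ≤ (1 / 2 : ℝ) ^ j * (2 ^ (j + 1) * Real.sqrt (j + 1) / (j + 1)) := by
        rw [abs_of_nonneg (by positivity : (0 : ℝ) ≤ (1 / 2) ^ j)]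
        exact mul_le_mul_of_nonneg_left (h2.trans h3) (by positivity)
    _ = 2 / Real.sqrt (j + 1) := by
        have hj : (0 : ℝ) < j + 1 := by positivity
        have hs := Real.sq_sqrt hj.le
        have h12 : (1 / 2 : ℝ) ^ j * 2 ^ (j + 1) = 2 := by
          rw [pow_succ, ← mul_assoc, ← mul_pow]; norm_num
        rw [← mul_div_assoc, ← mul_assoc, h12]
        field_simp
        linarith

/-- Common part of two consecutive powers: smoothing of high powers. -/
lemma Good.amplify_sum (h : Good nu) {G c R : A} {s : ℝ} {M : ℕ} (hG : nu G ≤ 1) (hc : nu c ≤ s)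
    (hR : nu R ≤ 1 - s) (hT : G ^ M = c * ((1 / 2 : ℝ) • (1 + G)) + R) (K j : ℕ) :
    nu ((G ^ M) ^ K * ((1 / 2 : ℝ) • (1 + G)) ^ j * (1 - G)) ≤
      ∑ i ∈ range (K + 1), (K.choose i : ℝ) * (s ^ i * (1 - s) ^ (K - i)) *
        (2 / Real.sqrt ((i : ℝ) + j + 1)) := by
  set S := (1 / 2 : ℝ) • (1 + G) with hS
  have hs0 : 0 ≤ s := (apply_nonneg nu c).trans hc
  have hs1 : 0 ≤ 1 - s := (apply_nonneg nu R).trans hR
  induction K generalizing j with
  | zero =>
    simp only [pow_zero, one_mul, zero_add, range_one, sum_singleton, Nat.choose_self, Nat.cast_one,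
      Nat.sub_zero, Nat.cast_zero]
    exact h.half_pow_sub_le hG j
  | succ k ih =>
    have hcomm : Commute S ((G ^ M) ^ k) :=
      ((((Commute.one_left G).add_left (Commute.refl G)).smul_left _).pow_right M).pow_right k
    have e : (G ^ M) ^ (k + 1) * S ^ j * (1 - G) =
        c * ((G ^ M) ^ k * S ^ (j + 1) * (1 - G)) + R * ((G ^ M) ^ k * S ^ j * (1 - G)) := by
      have hx : S * ((G ^ M) ^ k * S ^ j * (1 - G)) = (G ^ M) ^ k * S ^ (j + 1) * (1 - G) := by
        rw [← mul_assoc, ← mul_assoc, hcomm.eq, mul_assoc ((G ^ M) ^ k) S, ← pow_succ']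
      conv_lhs => rw [pow_succ', mul_assoc, mul_assoc, ← mul_assoc ((G ^ M) ^ k)]
      nth_rewrite 1 [hT]
      rw [add_mul, mul_assoc c S, hx]
    simp only [mul_assoc (Nat.choose _ _ : ℝ)]
    rw [e, Finset.sum_choose_succ_mul
      (fun i i' => s ^ i * (1 - s) ^ i' * (2 / Real.sqrt ((i : ℝ) + j + 1))) k]
    refine (map_add_le_add nu _ _).trans ?_
    rw [add_comm (nu (c * _))]
    refine add_le_add ?_ ?_
    · refine (map_mul_le_mul nu _ _).trans ?_
      refine (mul_le_mul hR (ih j) (apply_nonneg nu _) hs1).trans (le_of_eq ?_)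
      rw [Finset.mul_sum]
      refine sum_congr rfl fun i hi => ?_
      rw [Nat.succ_sub (Nat.lt_succ_iff.1 (Finset.mem_range.1 hi)), pow_succ]
      ring
    · refine (map_mul_le_mul nu _ _).trans ?_
      refine (mul_le_mul hc (ih (j + 1)) (apply_nonneg nu _) hs0).trans (le_of_eq ?_)
      rw [Finset.mul_sum]
      refine sum_congr rfl fun i hi => ?_
      push_cast
      rw [show (i : ℝ) + ((j : ℝ) + 1) + 1 = (i : ℝ) + 1 + j + 1 by ring, pow_succ]
      ring

lemma sum_binom_inv_le {s : ℝ} (hs : 0 < s) (hs1 : s ≤ 1) (K : ℕ) :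
    ∑ i ∈ range (K + 1), (K.choose i : ℝ) * (s ^ i * (1 - s) ^ (K - i)) / ((i : ℝ) + 1) ≤
      1 / (((K : ℝ) + 1) * s) := by
  have hK : (0 : ℝ) < ((K : ℝ) + 1) * s := by positivity
  have hbin : ∑ i ∈ range (K + 2), s ^ i * (1 - s) ^ (K + 1 - i) * ((K + 1).choose i : ℝ) = 1 := by
    rw [← add_pow]; simp
  rw [le_div_iff₀ hK, Finset.sum_mul]
  have hsplit := Finset.sum_range_succ'
    (fun i => s ^ i * (1 - s) ^ (K + 1 - i) * ((K + 1).choose i : ℝ)) (K + 1)
  have h0 : 0 ≤ s ^ 0 * (1 - s) ^ (K + 1 - 0) * ((K + 1).choose 0 : ℝ) :=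
    mul_nonneg (mul_nonneg (by positivity) (pow_nonneg (by linarith) _)) (Nat.cast_nonneg _)
  have heq : ∑ i ∈ range (K + 1),
      (K.choose i : ℝ) * (s ^ i * (1 - s) ^ (K - i)) / ((i : ℝ) + 1) * (((K : ℝ) + 1) * s) =
      ∑ i ∈ range (K + 1), s ^ (i + 1) * (1 - s) ^ (K + 1 - (i + 1)) *
        ((K + 1).choose (i + 1) : ℝ) := by
    refine sum_congr rfl fun i _ => ?_
    have hi : (0 : ℝ) < (i : ℝ) + 1 := by positivity
    have h1 : ((K : ℝ) + 1) * (K.choose i : ℝ) = ((K + 1).choose (i + 1) : ℝ) * ((i : ℝ) + 1) := by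
      exact_mod_cast Nat.add_one_mul_choose_eq K i
    rw [Nat.succ_sub_succ, pow_succ, div_mul_eq_mul_div, div_eq_iff hi.ne']
    linear_combination (s ^ i * (1 - s) ^ (K - i) * s) * h1
  rw [heq]
  linarith

/-- If `G ^ M` dominates `c * (1 + G) / 2` with `c` of mass `s`, then `G ^ (M K) (1 - G)` is small. -/
lemma Good.amplify (h : Good nu) {G c R : A} {s : ℝ} {M : ℕ} (hG : nu G ≤ 1) (hs : 0 < s)
    (hc : nu c ≤ s) (hR : nu R ≤ 1 - s) (hT : G ^ M = c * ((1 / 2 : ℝ) • (1 + G)) + R) (K : ℕ) :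
    nu (G ^ (M * K) * (1 - G)) ≤ 2 / Real.sqrt (((K : ℝ) + 1) * s) := by
  have hs1 : s ≤ 1 := by linarith [(apply_nonneg nu R).trans hR]
  set w : ℕ → ℝ := fun i => (K.choose i : ℝ) * (s ^ i * (1 - s) ^ (K - i)) with hw
  have hw0 : ∀ i, 0 ≤ w i := fun i =>
    mul_nonneg (Nat.cast_nonneg _) (mul_nonneg (by positivity) (pow_nonneg (by linarith) _))
  have hw1 : ∑ i ∈ range (K + 1), w i = 1 := by
    have := add_pow s (1 - s) K
    simp only [add_sub_cancel, one_pow] at this
    rw [this]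
    exact sum_congr rfl fun i _ => by rw [hw]; ring
  have hmain := h.amplify_sum hG hc hR hT K 0
  simp only [pow_zero, mul_one, ← pow_mul, Nat.cast_zero, add_zero] at hmain
  refine hmain.trans ?_
  have hcs := Finset.sum_mul_sq_le_sq_mul_sq (range (K + 1)) (fun i => Real.sqrt (w i))
    (fun i => Real.sqrt (w i) * (2 / Real.sqrt ((i : ℝ) + 1)))
  have e1 : ∑ i ∈ range (K + 1), Real.sqrt (w i) ^ 2 = 1 := by
    rw [sum_congr rfl fun i _ => Real.sq_sqrt (hw0 i), hw1]
  have e2 : ∑ i ∈ range (K + 1), (Real.sqrt (w i) * (2 / Real.sqrt ((i : ℝ) + 1))) ^ 2 =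
      4 * ∑ i ∈ range (K + 1), w i / ((i : ℝ) + 1) := by
    rw [Finset.mul_sum]
    refine sum_congr rfl fun i _ => ?_
    rw [mul_pow, Real.sq_sqrt (hw0 i), div_pow, Real.sq_sqrt (by positivity)]
    ring
  have e3 : ∀ i ∈ range (K + 1), Real.sqrt (w i) * (Real.sqrt (w i) * (2 / Real.sqrt ((i : ℝ) + 1))) =
      w i * (2 / Real.sqrt ((i : ℝ) + 1)) := fun i _ => by
    rw [← mul_assoc, Real.mul_self_sqrt (hw0 i)]
  rw [e1, one_mul, e2, sum_congr rfl e3] at hcs
  have hKs : (0 : ℝ) < ((K : ℝ) + 1) * s := by positivity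
  refine (abs_le_of_sq_le_sq' ?_ (by positivity)).2
  rw [div_pow, Real.sq_sqrt hKs.le]
  calc _ ≤ _ := hcs
    _ ≤ 4 * (1 / (((K : ℝ) + 1) * s)) :=
        mul_le_mul_of_nonneg_left (sum_binom_inv_le hs hs1 K) (by norm_num)
    _ = _ := by ring

/-- Moving `X` between the pads: `shiftEval G X a b Q = ∑ᵢ Qᵢ G^(a+i) X G^(b-i)`. -/
def shiftEval (G X : A) (a b : ℕ) (Q : ℝ[X]) : A :=
  Q.sum fun i t => t • (G ^ (a + i) * X * G ^ (b - i))

/-- The sum of the absolute values of the coefficients. -/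
def coeffL1 (Q : ℝ[X]) : ℝ := Q.sum fun _ t => |t|

variable (G X : A)

lemma shiftEval_add (a b : ℕ) (P Q : ℝ[X]) :
    shiftEval G X a b (P + Q) = shiftEval G X a b P + shiftEval G X a b Q := by
  unfold shiftEval
  exact Polynomial.sum_add_index P Q _ (fun _ => zero_smul _ _) (fun _ _ _ => add_smul _ _ _)

lemma shiftEval_monomial (a b i : ℕ) (t : ℝ) :
    shiftEval G X a b (monomial i t) = t • (G ^ (a + i) * X * G ^ (b - i)) := by
  unfold shiftEval
  exact Polynomial.sum_monomial_index t _ (zero_smul _ _)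

lemma shiftEval_sub (a b : ℕ) (P Q : ℝ[X]) :
    shiftEval G X a b (P - Q) = shiftEval G X a b P - shiftEval G X a b Q := by
  rw [eq_sub_iff_add_eq, ← shiftEval_add, sub_add_cancel]

lemma shiftEval_one_sub (a b : ℕ) (Q : ℝ[X]) (hQ : Q.natDegree + 1 ≤ b) :
    shiftEval G X a b ((1 - Polynomial.X) * Q) =
      shiftEval G (X * G - G * X) a (b - 1) Q := by
  rw [sub_mul, one_mul, shiftEval_sub]
  rw [Q.as_sum_range' (Q.natDegree + 1) (Nat.lt_succ_self _)]
  simp only [Finset.mul_sum, Polynomial.X_mul_monomial]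
  have hlin : ∀ (X' : A) (a' b' : ℕ) (f : ℕ → ℝ[X]) (N : ℕ),
      shiftEval G X' a' b' (∑ i ∈ range N, f i) = ∑ i ∈ range N, shiftEval G X' a' b' (f i) := by
    intro X' a' b' f N
    induction N with
    | zero => simp [shiftEval]
    | succ k ih => rw [sum_range_succ, sum_range_succ, shiftEval_add, ih]
  rw [hlin, hlin, hlin, ← sum_sub_distrib]
  refine sum_congr rfl fun i hi => ?_
  have hi' : i < b := lt_of_lt_of_le (Finset.mem_range.1 hi) hQ
  rw [shiftEval_monomial, shiftEval_monomial, shiftEval_monomial, ← smul_sub]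
  congr 1
  obtain ⟨e, he⟩ : ∃ e, b = i + e + 1 := ⟨b - i - 1, by omega⟩
  subst he
  rw [show i + e + 1 - i = e + 1 by omega, show i + e + 1 - (i + 1) = e by omega,
    show i + e + 1 - 1 - i = e by omega, ← add_assoc, pow_succ' G e, pow_succ G (a + i), mul_sub,
    sub_mul]
  simp only [mul_assoc]

variable {G X} {phi : ℝ} {N : ℕ}

/-- Single shifted term. -/
lemma Good.shift_term_le (h : Good nu) (hG : nu G ≤ 1) (hphi : nu (G ^ N * (1 - G)) ≤ phi)
    (r : ℕ) : ∀ (X : A) (a b : ℕ), r * N ≤ a → r * N ≤ b →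
      nu (G ^ a * (fun Y => Y * G - G * Y)^[r] X * G ^ b) ≤ (2 * phi) ^ r * nu X := by
  have hphi0 : 0 ≤ phi := (apply_nonneg nu _).trans hphi
  induction r with
  | zero =>
    intro X a b _ _
    simp only [Function.iterate_zero, id, pow_zero, one_mul]
    exact (h.mul_pow_le hG _ b).trans ((map_mul_le_mul nu _ _).trans
      (mul_le_of_le_one_left (apply_nonneg nu X) (h.pow_le hG a)))
  | succ k ih =>
    intro X a b ha hb
    rw [Function.iterate_succ_apply']
    set Y := (fun Y => Y * G - G * Y)^[k] X with hY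
    obtain ⟨a', rfl⟩ : ∃ a', a = N + a' := ⟨a - N, by rw [Nat.succ_mul] at ha; omega⟩
    obtain ⟨b', rfl⟩ : ∃ b', b = b' + N := ⟨b - N, by rw [Nat.succ_mul] at hb; omega⟩
    rw [Nat.succ_mul] at ha hb
    have e : G ^ (N + a') * (Y * G - G * Y) * G ^ (b' + N) =
        G ^ N * (1 - G) * (G ^ a' * Y * G ^ (b' + N)) -
          G ^ (N + a') * Y * G ^ b' * ((1 - G) * G ^ N) := by
      have hc : (1 - G) * G ^ a' = G ^ a' * (1 - G) :=
        (((Commute.one_left G).sub_left (Commute.refl G)).pow_right a').eq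
      have hc2 : G ^ b' * (1 - G) = (1 - G) * G ^ b' :=
        (((Commute.one_left G).sub_left (Commute.refl G)).pow_right b').symm.eq
      have hl : G ^ N * (1 - G) * (G ^ a' * Y * G ^ (b' + N)) =
          G ^ (N + a') * (1 - G) * Y * G ^ (b' + N) := by
        rw [pow_add G N a', ← mul_assoc, ← mul_assoc, mul_assoc (G ^ N) (1 - G), hc, ← mul_assoc]
      have hr : G ^ (N + a') * Y * G ^ b' * ((1 - G) * G ^ N) =
          G ^ (N + a') * Y * ((1 - G) * G ^ (b' + N)) := by
        rw [pow_add G b' N, mul_assoc (G ^ (N + a') * Y), ← mul_assoc (G ^ b'), hc2, ← mul_assoc (1 - G)]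
      rw [hl, hr]
      simp only [mul_sub, sub_mul, mul_one, one_mul, ← mul_assoc]
      abel
    have hY1 := ih X a' (b' + N) (by omega) (by omega)
    have hY2 := ih X (N + a') b' (by omega) (by omega)
    have hphi' : nu ((1 - G) * G ^ N) ≤ phi := by
      rwa [(((Commute.one_left G).sub_left (Commute.refl G)).pow_right N).eq]
    rw [e]
    refine (map_sub_le_add nu _ _).trans ?_
    refine (add_le_add ((map_mul_le_mul nu _ _).trans (mul_le_mul hphi hY1 (apply_nonneg nu _) hphi0))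
      ((map_mul_le_mul nu _ _).trans (mul_le_mul hY2 hphi' (apply_nonneg nu _)
        (mul_nonneg (by positivity) (apply_nonneg nu X))))).trans (le_of_eq ?_)
    rw [pow_succ]; ring

/-- A multiple of `(1 - X)^r` moves `X` inside the pads at small cost. -/
theorem Good.shiftEval_le (h : Good nu) (hG : nu G ≤ 1) (hphi : nu (G ^ N * (1 - G)) ≤ phi)
    (r : ℕ) {a b : ℕ} (Q : ℝ[X]) (ha : r * N ≤ a) (hb : r * N + Q.natDegree + r ≤ b) :
    nu (shiftEval G X a b ((1 - Polynomial.X) ^ r * Q)) ≤ (2 * phi) ^ r * coeffL1 Q * nu X := by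
  have key : ∀ (r' : ℕ) (X : A) (b : ℕ), r * N + Q.natDegree + r' ≤ b →
      shiftEval G X a b ((1 - Polynomial.X) ^ r' * Q) =
        shiftEval G ((fun Y => Y * G - G * Y)^[r'] X) a (b - r') Q := by
    intro r'
    induction r' with
    | zero => simp
    | succ k ih =>
      intro X b hb
      have hdeg : ((1 - Polynomial.X : ℝ[X]) ^ k * Q).natDegree ≤ k + Q.natDegree := by
        refine natDegree_mul_le.trans (add_le_add ?_ le_rfl)
        refine natDegree_pow_le.trans ?_
        have : (1 - Polynomial.X : ℝ[X]).natDegree ≤ 1 :=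
          (natDegree_sub_le _ _).trans (by simp)
        calc k * _ ≤ k * 1 := Nat.mul_le_mul_left k this
          _ = k := mul_one k
      rw [pow_succ', mul_assoc, shiftEval_one_sub G X a b _ (by omega), ih _ (b - 1) (by omega),
        ← Function.iterate_succ_apply, Nat.sub_sub, add_comm 1 k]
  rw [key r X b hb]
  unfold shiftEval coeffL1
  simp only [Polynomial.sum_def]
  refine (Finset.le_sum_of_subadditive nu (map_zero nu).le (fun u v => map_add_le_add nu u v) _ _).trans ?_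
  rw [Finset.mul_sum, Finset.sum_mul]
  refine sum_le_sum fun i hi => (h.smul_le _ _).trans ?_
  rw [mul_comm ((2 * phi) ^ r), mul_assoc (|_|)]
  refine mul_le_mul_of_nonneg_left (h.shift_term_le hG hphi r X (a + i) (b - r - i) (by omega) ?_)
    (abs_nonneg _)
  have := le_natDegree_of_mem_supp i hi
  omega

lemma coeffL1_nonneg (P : ℝ[X]) : 0 ≤ coeffL1 P := Finset.sum_nonneg fun _ _ => abs_nonneg _

lemma coeffL1_monomial (i : ℕ) (t : ℝ) : coeffL1 (monomial i t) = |t| :=
  Polynomial.sum_monomial_index t _ abs_zero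

lemma coeffL1_add_le (P Q : ℝ[X]) : coeffL1 (P + Q) ≤ coeffL1 P + coeffL1 Q := by
  have hsub : ∀ R : ℝ[X], R.support ⊆ P.support ∪ Q.support ∪ R.support := fun R => subset_union_right
  have hval : ∀ (R : ℝ[X]) (S : Finset ℕ), R.support ⊆ S →
      coeffL1 R = ∑ i ∈ S, |R.coeff i| := fun R S hS =>
    Finset.sum_subset hS fun i _ hi => by simp [Polynomial.notMem_support_iff.1 hi]
  set S := P.support ∪ Q.support ∪ (P + Q).support
  rw [hval (P + Q) S subset_union_right, hval P S (subset_union_left.trans subset_union_left),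
    hval Q S (subset_union_right.trans subset_union_left), ← sum_add_distrib]
  exact sum_le_sum fun i _ => by rw [coeff_add]; exact abs_add_le _ _

lemma coeffL1_sum_le {ι : Type*} (S : Finset ι) (F : ι → ℝ[X]) :
    coeffL1 (∑ i ∈ S, F i) ≤ ∑ i ∈ S, coeffL1 (F i) :=
  Finset.le_sum_of_subadditive coeffL1 (by simp [coeffL1]) coeffL1_add_le S F

lemma coeffL1_mul_le (P Q : ℝ[X]) : coeffL1 (P * Q) ≤ coeffL1 P * coeffL1 Q := by
  conv_lhs => rw [P.as_sum_support, Q.as_sum_support, Finset.sum_mul_sum]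
  refine (coeffL1_sum_le _ _).trans ?_
  rw [coeffL1, Polynomial.sum_def, coeffL1, Polynomial.sum_def, Finset.sum_mul_sum]
  refine sum_le_sum fun i _ => (coeffL1_sum_le _ _).trans (sum_le_sum fun j _ => ?_)
  rw [monomial_mul_monomial, coeffL1_monomial, abs_mul]

lemma coeffL1_pow_le (P : ℝ[X]) {B : ℝ} (hB : coeffL1 P ≤ B) (r : ℕ) : coeffL1 (P ^ r) ≤ B ^ r := by
  induction r with
  | zero => rw [pow_zero, pow_zero, ← monomial_zero_one, coeffL1_monomial, abs_one]
  | succ k ih =>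
    rw [pow_succ, pow_succ]
    exact (coeffL1_mul_le _ _).trans (mul_le_mul ih hB (coeffL1_nonneg P)
      (pow_nonneg ((coeffL1_nonneg P).trans hB) k))

/-- The uniform average of the shifts `0, …, T - 1`. -/
def boxKernel (T : ℕ) : ℝ[X] := ∑ t ∈ range T, monomial t (1 / (T : ℝ))

/-- `1 - boxKernel T = (1 - X) * boxRest T`. -/
def boxRest (T : ℕ) : ℝ[X] := ∑ t ∈ range T, ∑ u ∈ range t, monomial u (1 / (T : ℝ))

lemma one_sub_boxKernel {T : ℕ} (hT : 0 < T) :
    1 - boxKernel T = (1 - Polynomial.X) * boxRest T := by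
  rw [boxKernel, boxRest, Finset.mul_sum]
  have h1 : (1 : ℝ[X]) = ∑ _t ∈ range T, monomial 0 (1 / (T : ℝ)) := by
    have hne : (T : ℝ) ≠ 0 := by positivity
    rw [sum_const, card_range, ← map_nsmul, nsmul_eq_mul, mul_one_div_cancel hne, monomial_zero_one]
  conv_lhs => rw [h1, ← sum_sub_distrib]
  refine sum_congr rfl fun t _ => ?_
  clear h1
  suffices ∀ t : ℕ, monomial 0 (1 / (T : ℝ)) - monomial t (1 / (T : ℝ)) =
      (1 - Polynomial.X) * ∑ u ∈ range t, monomial u (1 / (T : ℝ)) from this t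
  intro t
  induction t with
  | zero => simp
  | succ k ih =>
    rw [sum_range_succ, mul_add, ← ih, sub_mul, one_mul, Polynomial.X_mul_monomial]
    abel

lemma coeffL1_boxRest (T : ℕ) : coeffL1 (boxRest T) ≤ T := by
  refine (coeffL1_sum_le _ _).trans ?_
  calc ∑ t ∈ range T, coeffL1 (∑ u ∈ range t, monomial u (1 / (T : ℝ)))
      ≤ ∑ _t ∈ range T, (1 : ℝ) := sum_le_sum fun t ht => by
        refine (coeffL1_sum_le _ _).trans ?_
        simp only [coeffL1_monomial, sum_const, card_range, nsmul_eq_mul]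
        have htT : (t : ℝ) ≤ T := by exact_mod_cast (Finset.mem_range.1 ht).le
        rcases Nat.eq_zero_or_pos T with h0 | h0
        · simp [h0]
        · rw [abs_of_nonneg (by positivity), mul_one_div, div_le_one (by positivity)]; exact htT
    _ = T := by simp

lemma natDegree_boxRest (T : ℕ) : (boxRest T).natDegree ≤ T := by
  refine natDegree_sum_le_of_forall_le _ _ fun t ht => natDegree_sum_le_of_forall_le _ _ fun u hu => ?_
  exact (natDegree_monomial_le _).trans ((Finset.mem_range.1 hu).le.trans (Finset.mem_range.1 ht).le)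

end Vale.Agent.P321.Kernel
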