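import Vale.Agent.P321.Basic
import Vale.Agent.P321.KernelCore

/-!
# P321: translation kernels and iterated commutators

The estimates are proved in `KernelCore` for a ring seminorm; here they are read for the total
variation norm.
-/

open Finset

noncomputable section

namespace Vale.Agent.P321

namespace Kernel

/-- Total variation as a ring seminorm. -/
def tvSemi : RingSeminorm Meas where
  toFun := l1
  map_zero' := l1_zero
  add_le' := l1_add_le
  neg' := l1_neg
  mul_le' := l1_mul_le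

lemma tvSemi_apply (f : Meas) : tvSemi f = l1 f := rfl

lemma tvSemi_good : Good tvSemi where
  smul_le := l1_smul
  one_le := by rw [tvSemi_apply, pos_one.l1_eq, mass_one]

lemma tv_prob {G : Meas} (hG : Prob G) : tvSemi G ≤ 1 := by
  rw [tvSemi_apply, hG.1.l1_eq, hG.2]

lemma tv_pad_step {G : Meas} {g : ℝ} (hs : Smooth G g) {N : ℕ} (hN : 1 ≤ N) :
    tvSemi (G ^ N * (1 - G)) ≤ Real.sqrt (g / N) := by
  rw [tvSemi_apply, mul_sub, mul_one, ← pow_succ]
  exact hs N hN

variable {A : Type*} [Ring A] [Algebra ℝ A] {nu : RingSeminorm A}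

lemma Good.pow_shift_le (h : Good nu) {G : A} (hG : nu G ≤ 1) {phi : ℝ} {N : ℕ}
    (hphi : nu (G ^ N * (1 - G)) ≤ phi) (t : ℕ) :
    nu (G ^ N - G ^ (N + t)) ≤ t * phi := by
  induction t with
  | zero => simp
  | succ k ih =>
    have e : G ^ N - G ^ (N + (k + 1)) = (G ^ N - G ^ (N + k)) + G ^ (N + k) * (1 - G) := by
      rw [mul_sub, mul_one, ← pow_succ, ← add_assoc]; abel
    rw [e]
    refine (map_add_le_add nu _ _).trans ?_
    push_cast
    linarith [(h.pow_sub_le hG (Nat.le_add_right N k)).trans hphi]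

/-- One commutator with `G ^ t` inside pads gains `2 t phi`. -/
lemma Good.commutator_le (h : Good nu) {G : A} (hG : nu G ≤ 1) {phi : ℝ} {N : ℕ}
    (hphi : nu (G ^ N * (1 - G)) ≤ phi) {Y : A} {e : ℝ} {a b : ℕ}
    (hl : nu (G ^ a * Y * G ^ (b + N)) ≤ e) (hr : nu (G ^ (N + a) * Y * G ^ b) ≤ e) (t : ℕ) :
    nu (G ^ (N + a) * (Y * G ^ t - G ^ t * Y) * G ^ (b + N)) ≤ 2 * t * phi * e := by
  have e1 : G ^ (N + a) * (Y * G ^ t - G ^ t * Y) * G ^ (b + N) =
      (G ^ N - G ^ (N + t)) * (G ^ a * Y * G ^ (b + N)) -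
        G ^ (N + a) * Y * G ^ b * (G ^ N - G ^ (N + t)) := by
    rw [sub_mul, mul_sub (G ^ (N + a) * Y * G ^ b), mul_sub (G ^ (N + a)), sub_mul]
    simp only [← mul_assoc, ← pow_add]
    simp only [mul_assoc, ← pow_add]
    rw [show t + (b + N) = b + (N + t) by omega, show N + a + t = N + t + a by omega]
    abel
  rw [e1]
  refine (map_sub_le_add nu _ _).trans ?_
  have he0 : 0 ≤ e := (apply_nonneg nu _).trans hl
  have hd := h.pow_shift_le hG hphi t
  have hd0 : 0 ≤ (t : ℝ) * phi := (apply_nonneg nu _).trans hd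
  linarith [(map_mul_le_mul nu (G ^ N - G ^ (N + t)) _).trans
      (mul_le_mul hd hl (apply_nonneg nu _) hd0),
    (map_mul_le_mul nu (G ^ (N + a) * Y * G ^ b) _).trans
      (mul_le_mul hr hd (apply_nonneg nu _) he0)]

/-- Iterated commutators with the powers `2 ^ i`. -/
lemma Good.tm_le (h : Good nu) {G : A} (hG : nu G ≤ 1) {phi : ℝ} {N r : ℕ}
    (hphi : nu (G ^ N * (1 - G)) ≤ phi) (E : ℕ → A)
    (hE : ∀ i < r, E (i + 1) = E i * G ^ (2 ^ i) - G ^ (2 ^ i) * E i) :
    ∀ j ≤ r, ∀ a b, j * N ≤ a → j * N ≤ b →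
      nu (G ^ a * E j * G ^ b) ≤ (2 * 2 ^ r * phi) ^ j * nu (E 0) := by
  intro j
  induction j with
  | zero =>
    intro _ a b _ _
    rw [pow_zero, one_mul]
    exact (h.mul_pow_le hG _ b).trans ((map_mul_le_mul nu _ _).trans
      (mul_le_of_le_one_left (apply_nonneg nu _) (h.pow_le hG a)))
  | succ k ih =>
    intro hk a b ha hb
    rw [Nat.succ_mul] at ha hb
    obtain ⟨a', rfl⟩ : ∃ a', a = N + a' := ⟨a - N, by omega⟩
    obtain ⟨b', rfl⟩ : ∃ b', b = b' + N := ⟨b - N, by omega⟩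
    rw [hE k (by omega)]
    have hphi0 : 0 ≤ phi := (apply_nonneg nu _).trans hphi
    refine (h.commutator_le hG hphi (ih (by omega) a' (b' + N) (by omega) (by omega))
      (ih (by omega) (N + a') b' (by omega) (by omega)) _).trans ?_
    rw [pow_succ' (2 * 2 ^ r * phi) k, mul_assoc (2 * 2 ^ r * phi)]
    refine mul_le_mul_of_nonneg_right (mul_le_mul_of_nonneg_right ?_ hphi0)
      (mul_nonneg (by positivity) (apply_nonneg nu _))
    push_cast
    exact mul_le_mul_of_nonneg_left (pow_le_pow_right₀ one_le_two (by omega)) two_pos.le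

end Kernel

theorem smooth_shift {G : Meas} {g : ℝ} (hG : Prob G) (hs : Smooth G g) {N : ℕ} (hN : 1 ≤ N)
    (t : ℕ) : L1 (G ^ (N + t) - G ^ N) (t * Real.sqrt (g / N)) := by
  have := Kernel.tvSemi_good.pow_shift_le (G := G) (Kernel.tv_prob hG) (Kernel.tv_pad_step hs hN) t
  rw [← map_sub_rev] at this
  exact this

/-- Moving `X` by `t` units inside pads of length `N`. -/
theorem commutator_pad {G X : Meas} {g e : ℝ} (hG : Prob G) (hs : Smooth G g) {N : ℕ}
    (hN : 1 ≤ N) (he : 0 ≤ e) (hX : L1 X e) (t : ℕ) :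
    L1 (G ^ N * (G ^ t * X - X * G ^ t) * G ^ N) (2 * t * Real.sqrt (g / N) * e) := by
  have hG1 : Kernel.tvSemi G ≤ 1 := Kernel.tv_prob hG
  have hX1 : Kernel.tvSemi X ≤ e := hX
  have hb : ∀ a b : ℕ, Kernel.tvSemi (G ^ a * X * G ^ b) ≤ e := fun a b =>
    ((Kernel.tvSemi_good.mul_pow_le hG1 _ b).trans ((map_mul_le_mul _ _ _).trans
      (mul_le_of_le_one_left (apply_nonneg _ _) (Kernel.tvSemi_good.pow_le hG1 a)))).trans hX1
  have := Kernel.tvSemi_good.commutator_le hG1 (Kernel.tv_pad_step hs hN) (Y := X)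
    (a := 0) (b := 0) (hb _ _) (hb _ _) t
  simp only [add_zero, zero_add] at this
  rw [← map_neg_eq_map, ← neg_mul, ← mul_neg, neg_sub] at this
  exact this

/-- The Thue–Morse linear term is invisible inside pads. -/
theorem tm_linear {U : Meas} {g e : ℝ} (hU : Prob U) (hs : Smooth U g) {N r : ℕ} (hN : 1 ≤ N)
    (he : 0 ≤ e) (E : ℕ → Meas) (h0 : L1 (E 0) e)
    (hE : ∀ i < r, E (i + 1) = E i * U ^ (2 ^ i) - U ^ (2 ^ i) * E i) :
    L1 (U ^ (r * N) * E r * U ^ (r * N)) ((2 * 2 ^ r * Real.sqrt (g / N)) ^ r * e) := by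
  exact (Kernel.tvSemi_good.tm_le (Kernel.tv_prob hU) (Kernel.tv_pad_step hs hN) E hE r le_rfl
    _ _ le_rfl le_rfl).trans (mul_le_mul_of_nonneg_left h0 (by positivity))

namespace Kernel

open Polynomial

/-- The law of the sum of two independent uniform shifts below `T`. -/
def triKernel (T : ℕ) : ℝ[X] := boxKernel T * boxKernel T

lemma coeff_boxKernel (T s : ℕ) : (boxKernel T).coeff s = if s < T then 1 / (T : ℝ) else 0 := by
  simp [boxKernel, coeff_monomial, Finset.sum_ite_eq']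

lemma boxKernel_coeff_mem (T s : ℕ) :
    0 ≤ (boxKernel T).coeff s ∧ (boxKernel T).coeff s ≤ 1 / T := by
  rw [coeff_boxKernel]; split <;> constructor <;> first | positivity | exact le_rfl

lemma coeffL1_boxKernel (T : ℕ) : coeffL1 (boxKernel T) ≤ 1 := by
  refine (coeffL1_sum_le _ _).trans ?_
  simp only [coeffL1_monomial, sum_const, card_range, nsmul_eq_mul]
  rcases Nat.eq_zero_or_pos T with h0 | h0
  · simp [h0]
  · rw [abs_of_nonneg (by positivity), mul_one_div_cancel (by positivity)]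

lemma eval_boxKernel {T : ℕ} (hT : 0 < T) : (boxKernel T).eval 1 = 1 := by
  simp [boxKernel, eval_finsetSum, mul_inv_cancel₀ (Nat.cast_ne_zero.2 hT.ne' : (T : ℝ) ≠ 0)]

lemma natDegree_boxKernel (T : ℕ) : (boxKernel T).natDegree ≤ T - 1 :=
  natDegree_sum_le_of_forall_le _ _ fun t ht =>
    (natDegree_monomial_le _).trans (Nat.le_sub_one_of_lt (mem_range.1 ht))

/-- Sup norm of a product. -/
lemma abs_coeff_mul_le (P Q : ℝ[X]) {M : ℝ} (hM0 : 0 ≤ M) (hM : ∀ s, |P.coeff s| ≤ M) (n : ℕ) :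
    |(P * Q).coeff n| ≤ M * coeffL1 Q := by
  conv_lhs => rw [Q.as_sum_support, mul_sum, finsetSum_coeff]
  refine (abs_sum_le_sum_abs _ _).trans ?_
  rw [coeffL1, Polynomial.sum_def, mul_sum]
  refine sum_le_sum fun i _ => ?_
  rw [← C_mul_X_pow_eq_monomial, mul_left_comm, coeff_C_mul, abs_mul, mul_comm M,
    coeff_mul_X_pow']
  refine mul_le_mul_of_nonneg_left ?_ (abs_nonneg _)
  split
  · exact hM _
  · simpa using hM0

lemma sum_abs_coeff_le (P : ℝ[X]) (L : ℕ) : ∑ s ∈ range L, |P.coeff s| ≤ coeffL1 P := by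
  rw [coeffL1, Polynomial.sum_def]
  refine le_of_eq_of_le ?_ (sum_le_sum_of_subset_of_nonneg
    (Finset.inter_subset_left (s₁ := P.support) (s₂ := range L)) fun i _ _ => abs_nonneg _)
  refine (sum_subset inter_subset_right fun s hs hs' => ?_).symm
  rw [notMem_support_iff.1 fun h => hs' (mem_inter.2 ⟨h, hs⟩), abs_zero]

lemma sum_sq_coeff_le (P : ℝ[X]) {M B : ℝ} (hM0 : 0 ≤ M) (hM : ∀ s, |P.coeff s| ≤ M)
    (hB : coeffL1 P ≤ B) (L : ℕ) : ∑ s ∈ range L, P.coeff s ^ 2 ≤ M * B := by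
  refine le_trans ?_ (mul_le_mul_of_nonneg_left ((sum_abs_coeff_le P L).trans hB) hM0)
  rw [mul_sum]
  exact sum_le_sum fun s _ => by
    rw [← sq_abs, sq]; exact mul_le_mul_of_nonneg_right (hM s) (abs_nonneg _)

lemma shiftEval_eq_Tr (G X : Meas) (a c L : ℕ) (W : ℝ[X]) (hW : W.natDegree ≤ L) :
    shiftEval G X a (c + L) W = G ^ a * Tr G L (fun s => W.coeff s) X * G ^ c := by
  unfold shiftEval Tr
  refine (Polynomial.sum_over_range' W
    (f := fun i (t : ℝ) => t • (G ^ (a + i) * X * G ^ (c + L - i)))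
    (fun i => zero_smul _ _) (L + 1) (by omega)).trans ?_
  rw [mul_sum, sum_mul]
  refine sum_congr rfl fun s hs => ?_
  have hs' : s ≤ L := Nat.lt_succ_iff.1 (mem_range.1 hs)
  rw [mul_smul_comm, smul_mul_assoc]
  congr 1
  rw [show c + L - s = L - s + c by omega, pow_add, pow_add]
  simp only [mul_assoc]

end Kernel

open Kernel Polynomial in
/-- The kernel `1 - (1 - q) ^ r`, `q` the triangle distribution on `0..2T`, with all its
properties. -/
theorem exists_kernel (r T : ℕ) (hr : 1 ≤ r) (hT : 1 ≤ T) :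
    ∃ w : ℕ → ℝ,
      (∀ s, 2 * T * r < s → w s = 0) ∧
      (∑ s ∈ Finset.range (2 * T * r + 1), w s = 1) ∧
      (∑ s ∈ Finset.range (2 * T * r + 1), |w s| ≤ 2 ^ r) ∧
      (∀ s, |w s| ≤ 2 ^ r / T) ∧
      wsq (2 * T * r) w ≤ 2 ^ r / Real.sqrt T ∧
      wsq (2 * T * r + 1) (dker w) ≤ 2 * 2 ^ r / (T * Real.sqrt T) ∧
      (∑ s ∈ Finset.range (2 * T * r + 2), |dker w s| ≤ 2 * 2 ^ r / T) ∧
      ∀ (G X : Meas) (g e : ℝ) (N : ℕ), Prob G → Smooth G g → 1 ≤ N → 0 ≤ e → L1 X e →
        L1 (G ^ (r * N) * (X * G ^ (2 * T * r)) * G ^ (r * N) -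
            G ^ (r * N) * Tr G (2 * T * r) w X * G ^ (r * N))
          ((4 * T * Real.sqrt (g / N)) ^ r * e) := by
  have hT' : (0 : ℝ) < T := by exact_mod_cast hT
  set B := boxKernel T
  set P := triKernel T with hP
  set R := ∑ i ∈ range r, (1 - P) ^ i with hR
  set W := 1 - (1 - P) ^ r with hW
  have hWPR : W = P * R := by
    rw [hW, hR, ← mul_neg_geom_sum, sub_sub_cancel]
  have hBsup : ∀ s, |B.coeff s| ≤ 1 / T := fun s => by
    rw [abs_of_nonneg (boxKernel_coeff_mem T s).1]; exact (boxKernel_coeff_mem T s).2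
  have hP1 : coeffL1 P ≤ 1 := (coeffL1_mul_le _ _).trans
    (mul_le_one₀ (coeffL1_boxKernel T) (coeffL1_nonneg _) (coeffL1_boxKernel T))
  have h1P : coeffL1 (1 - P) ≤ 2 := by
    have e : (1 - P : ℝ[X]) = monomial 0 1 + monomial 0 (-1) * P := by
      rw [monomial_zero_one, monomial_zero_left, map_neg, map_one]; ring
    rw [e]
    refine (coeffL1_add_le _ _).trans ?_
    have := (coeffL1_mul_le (monomial 0 (-1 : ℝ)) P).trans
      (mul_le_of_le_one_right (coeffL1_nonneg _) hP1)
    rw [coeffL1_monomial, abs_neg, abs_one] at this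
    rw [coeffL1_monomial, abs_one]; linarith
  have hR1 : coeffL1 R ≤ 2 ^ r := by
    refine (coeffL1_sum_le _ _).trans ((sum_le_sum fun i _ => coeffL1_pow_le _ h1P i).trans ?_)
    rw [geom_sum_eq (by norm_num), show (2 : ℝ) - 1 = 1 by norm_num, div_one]; linarith
  have hPsup : ∀ s, |P.coeff s| ≤ 1 / T := fun s =>
    (abs_coeff_mul_le B B (by positivity) hBsup s).trans
      (mul_le_of_le_one_right (by positivity) (coeffL1_boxKernel T))
  have hW1 : coeffL1 W ≤ 2 ^ r := by
    rw [hWPR]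
    exact (coeffL1_mul_le _ _).trans ((mul_le_of_le_one_left (coeffL1_nonneg _) hP1).trans hR1)
  have hWsup : ∀ s, |W.coeff s| ≤ 2 ^ r / T := fun s => by
    rw [hWPR, div_eq_inv_mul, ← one_div]
    exact (abs_coeff_mul_le P R (by positivity) hPsup s).trans
      (mul_le_mul_of_nonneg_left hR1 (by positivity))
  -- the difference of the kernel and its shift
  set dB := (Polynomial.X - 1) * B with hdB'
  set D := (Polynomial.X ^ T - 1) * B with hD
  have hdB : dB = monomial 0 (1 / (T : ℝ)) * (Polynomial.X ^ T - 1) := by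
    rw [hdB', show B = boxKernel T from rfl, boxKernel, monomial_zero_left]
    rw [← mul_geom_sum (Polynomial.X : ℝ[X]) T, mul_left_comm (C _), Finset.mul_sum (range T) _ (C _)]
    simp only [C_mul_X_pow_eq_monomial]
  have hdW : (Polynomial.X - 1) * W = D * (monomial 0 (1 / (T : ℝ)) * R) := by
    rw [hWPR, hP, triKernel, hD]
    linear_combination (B * R) * hdB
  have hD1 : coeffL1 D ≤ 2 := by
    rw [hD, sub_mul, one_mul, sub_eq_add_neg]
    refine (coeffL1_add_le _ _).trans ?_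
    have a1 : coeffL1 ((Polynomial.X : ℝ[X]) ^ T * B) ≤ 1 := by
      refine (coeffL1_mul_le _ _).trans ?_
      rw [← monomial_one_right_eq_X_pow, coeffL1_monomial, abs_one, one_mul]
      exact coeffL1_boxKernel T
    have a2 : coeffL1 (-B) ≤ 1 := by
      rw [show -B = monomial 0 (-1 : ℝ) * B by rw [monomial_zero_left, map_neg, map_one]; ring]
      refine (coeffL1_mul_le _ _).trans ?_
      rw [coeffL1_monomial, abs_neg, abs_one, one_mul]
      exact coeffL1_boxKernel T
    linarith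
  have hDsup : ∀ s, |D.coeff s| ≤ 1 / T := fun s => by
    rw [hD, sub_mul, one_mul, coeff_sub, mul_comm, coeff_mul_X_pow']
    have h1 := boxKernel_coeff_mem T s
    have h2 := boxKernel_coeff_mem T (s - T)
    rw [abs_le]
    split <;> constructor <;> linarith [h1.1, h1.2, h2.1, h2.2]
  have hTR : coeffL1 (monomial 0 (1 / (T : ℝ)) * R) ≤ 2 ^ r / T := by
    refine (coeffL1_mul_le _ _).trans ?_
    rw [coeffL1_monomial, abs_of_nonneg (by positivity), one_div, ← div_eq_inv_mul]
    exact div_le_div_of_nonneg_right hR1 hT'.le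
  have hdW1 : coeffL1 ((Polynomial.X - 1) * W) ≤ 2 * (2 ^ r / T) := by
    rw [hdW]
    exact (coeffL1_mul_le _ _).trans (mul_le_mul hD1 hTR (coeffL1_nonneg _) zero_le_two)
  have hdWsup : ∀ s : ℕ, |((Polynomial.X - 1) * W).coeff s| ≤ 1 / (T : ℝ) * (2 ^ r / (T : ℝ)) := fun s => by
    rw [hdW]
    exact (abs_coeff_mul_le _ _ (by positivity) hDsup s).trans
      (mul_le_mul_of_nonneg_left hTR (by positivity))
  have hdker : ∀ s, dker (fun s => W.coeff s) s = ((Polynomial.X - 1) * W).coeff s := fun s => by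
    rw [sub_mul, one_mul, coeff_sub, dker]
    cases s with
    | zero => simp
    | succ k => simp [coeff_X_mul]
  -- degrees
  have hPd : P.natDegree ≤ 2 * T - 2 :=
    natDegree_mul_le.trans (by have := natDegree_boxKernel T; omega)
  have h1Pd : (1 - P).natDegree ≤ 2 * T := (natDegree_sub_le _ _).trans (by simp; omega)
  have hWd : W.natDegree ≤ 2 * T * r := by
    refine (natDegree_sub_le _ _).trans (max_le (by simp) (natDegree_pow_le.trans ?_))
    calc r * _ ≤ r * (2 * T) := Nat.mul_le_mul_left r h1Pd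
      _ = 2 * T * r := mul_comm _ _
  refine ⟨fun s => W.coeff s, fun s hs => coeff_eq_zero_of_natDegree_lt (by omega), ?_,
    (sum_abs_coeff_le W _).trans hW1, hWsup, ?_, ?_, ?_, ?_⟩
  · have e := eval_eq_sum_range' (Nat.lt_succ_of_le hWd) (1 : ℝ)
    simp only [one_pow, mul_one] at e
    rw [← e, hW, hP]
    simp [triKernel, eval_boxKernel hT, zero_pow (by omega : r ≠ 0)]
  · refine (Real.sqrt_le_sqrt (sum_sq_coeff_le W (by positivity) hWsup hW1 _)).trans (le_of_eq ?_)
    rw [div_mul_eq_mul_div, Real.sqrt_div' _ hT'.le, Real.sqrt_mul_self (by positivity)]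
  · simp only [wsq, hdker]
    refine (Real.sqrt_le_sqrt (sum_sq_coeff_le _ (by positivity) hdWsup hdW1 _)).trans ?_
    refine (Real.sqrt_le_left (by positivity)).2 ?_
    rw [div_pow, mul_pow (T : ℝ), Real.sq_sqrt hT'.le]
    have h4 : (0 : ℝ) ≤ (2 ^ r) ^ 2 / (T : ℝ) ^ 3 := by positivity
    calc (1 : ℝ) / T * (2 ^ r / T) * (2 * (2 ^ r / T)) = 2 * ((2 ^ r) ^ 2 / (T : ℝ) ^ 3) := by ring
      _ ≤ 4 * ((2 ^ r) ^ 2 / (T : ℝ) ^ 3) := by linarith
      _ = _ := by ring
  · simp only [hdker]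
    exact (sum_abs_coeff_le _ _).trans (hdW1.trans_eq (by ring))
  · intro G X g e N hG hs hN he hX
    have h0 := shiftEval_eq_Tr G X (r * N) (r * N) (2 * T * r) W hWd
    set Q := (boxRest T * (1 + B)) ^ r with hQ
    have hfac : (1 - P) ^ r = (1 - Polynomial.X) ^ r * Q := by
      rw [hQ, ← mul_pow, ← mul_assoc, ← one_sub_boxKernel hT, hP, triKernel]; ring
    have hQ1 : coeffL1 Q ≤ (2 * T) ^ r := by
      refine coeffL1_pow_le _ ?_ r
      refine (coeffL1_mul_le _ _).trans ?_
      rw [mul_comm (2 : ℝ)]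
      refine mul_le_mul (coeffL1_boxRest T) ((coeffL1_add_le _ _).trans ?_) (coeffL1_nonneg _)
        hT'.le
      rw [← monomial_zero_one, coeffL1_monomial, abs_one]
      linarith [coeffL1_boxKernel T]
    have hQd : r * N + Q.natDegree + r ≤ r * N + 2 * T * r := by
      have h1 : (boxRest T * (1 + B)).natDegree + 1 ≤ 2 * T := by
        have := natDegree_mul_le (p := boxRest T) (q := 1 + B)
        have h2 : (1 + B).natDegree ≤ T - 1 :=
          (natDegree_add_le _ _).trans (by simp [natDegree_boxKernel T, B])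
        have := natDegree_boxRest T
        omega
      have h2 : Q.natDegree + r ≤ 2 * T * r := by
        have := natDegree_pow_le (p := boxRest T * (1 + B)) (n := r)
        calc Q.natDegree + r ≤ r * (boxRest T * (1 + B)).natDegree + r := Nat.add_le_add_right this r
          _ = r * ((boxRest T * (1 + B)).natDegree + 1) := by ring
          _ ≤ r * (2 * T) := Nat.mul_le_mul_left r h1
          _ = _ := mul_comm _ _
      omega
    have hmain := tvSemi_good.shiftEval_le (G := G) (X := X) (a := r * N)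
      (b := r * N + 2 * T * r) (tv_prob hG) (tv_pad_step hs hN) r Q le_rfl hQd
    have hone : shiftEval G X (r * N) (r * N + 2 * T * r) 1 =
        G ^ (r * N) * (X * G ^ (2 * T * r)) * G ^ (r * N) := by
      rw [← monomial_zero_one, shiftEval_monomial, one_smul, add_zero, Nat.sub_zero,
        add_comm (r * N) (2 * T * r), pow_add]
      simp only [mul_assoc]
    rw [← hfac, show (1 - P) ^ r = 1 - W by rw [hW, sub_sub_cancel], shiftEval_sub, h0, hone]
      at hmain
    refine hmain.trans ?_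
    rw [show (4 : ℝ) * T * Real.sqrt (g / N) = 2 * Real.sqrt (g / N) * (2 * T) by ring,
      mul_pow (2 * Real.sqrt (g / N)) (2 * (T : ℝ))]
    exact mul_le_mul (mul_le_mul_of_nonneg_left hQ1 (by positivity)) hX
      (apply_nonneg tvSemi X) (by positivity)

end Vale.Agent.P321
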