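import Vale.Agent.P321.Smoothing

/-!
# P321: small tools for the overlap of powers of the first base word
-/

noncomputable section

open Finset

namespace Vale.Agent.P321.BO

lemma ev_add (f g : Meas) (F : Word → ℝ) : ev (f + g) F = ev f F + ev g F := E_add f g F

lemma ev_smul (a : ℝ) (f : Meas) (F : Word → ℝ) : ev (a • f) F = a * ev f F := E_smul a f F

lemma ev_sub (f g : Meas) (F : Word → ℝ) : ev (f - g) F = ev f F - ev g F := E_sub f g F

lemma ev_one (F : Word → ℝ) : ev 1 F = F 1 := E_one F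

lemma ev_swap (f g : Meas) (H : Word → Word → ℝ) :
    ev f (fun u => ev g (fun v => H u v)) = ev g (fun v => ev f (fun u => H u v)) := E_swap f g H

lemma ev_ext {f g : Meas} (h : ∀ F, ev f F = ev g F) : f = g := by
  refine MonoidAlgebra.coeff_injective (Finsupp.ext fun w => ?_)
  rw [coeff_eq_E, coeff_eq_E]
  exact h _

/-- Total mass as a ring homomorphism. -/
def massHom : Meas →+* ℝ where
  toFun := mass
  map_one' := mass_one
  map_mul' := mass_mul
  map_zero' := mass_zero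
  map_add' := mass_add

lemma massHom_apply (f : Meas) : massHom f = mass f := rfl

/-! ### Positivity and `L1` -/

lemma pos_add {f g : Meas} (hf : Pos f) (hg : Pos g) : Pos (f + g) := hf.add hg

lemma pos_smul {f : Meas} (hf : Pos f) {a : ℝ} (ha : 0 ≤ a) : Pos (a • f) := hf.smul ha

lemma pos_mul {f g : Meas} (hf : Pos f) (hg : Pos g) : Pos (f * g) := hf.mul hg

lemma pos_sum {ι : Type*} {s : Finset ι} {f : ι → Meas} (h : ∀ i ∈ s, Pos (f i)) :
    Pos (∑ i ∈ s, f i) := Pos.sum h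

lemma pos_L1 {f : Meas} (hf : Pos f) : L1 f (mass f) := hf.l1_eq.le

lemma prob_L1 {f : Meas} (hf : Prob f) : L1 f 1 := (hf.1.l1_eq.trans hf.2).le

lemma prob_pow {f : Meas} (hf : Prob f) (n : ℕ) : Prob (f ^ n) := hf.pow n

lemma L1_zero : L1 (0 : Meas) 0 := le_of_eq l1_zero

lemma L1_mono {f : Meas} {a b : ℝ} (h : L1 f a) (hab : a ≤ b) : L1 f b := le_trans h hab

lemma L1_neg {f : Meas} {a : ℝ} (h : L1 f a) : L1 (-f) a := le_trans (le_of_eq (l1_neg f)) h

lemma L1_sub {f g : Meas} {a b : ℝ} (hf : L1 f a) (hg : L1 g b) : L1 (f - g) (a + b) :=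
  (l1_sub_le f g).trans (add_le_add hf hg)

lemma L1_smul {f : Meas} {a : ℝ} (h : L1 f a) (t : ℝ) : L1 (t • f) (|t| * a) :=
  (l1_smul t f).trans (mul_le_mul_of_nonneg_left h (abs_nonneg t))

lemma L1_sum {ι : Type*} {s : Finset ι} {f : ι → Meas} {a : ι → ℝ}
    (h : ∀ i ∈ s, L1 (f i) (a i)) : L1 (∑ i ∈ s, f i) (∑ i ∈ s, a i) :=
  (l1_sum_le s f).trans (Finset.sum_le_sum h)

/-- Two measures with a common part of mass `s` are within `2 - 2 s`. -/
lemma L1_of_common {a b c : Meas} (ha : Prob a) (hb : Prob b) (hac : Pos (a - c))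
    (hbc : Pos (b - c)) {s : ℝ} (hs : mass c = s) : L1 (a - b) (2 - 2 * s) := by
  have e1 : mass (a - c) = 1 - s := by rw [mass_sub, ha.2, hs]
  have e2 : mass (b - c) = 1 - s := by rw [mass_sub, hb.2, hs]
  have h := L1_sub (pos_L1 hac) (pos_L1 hbc)
  rw [e1, e2, sub_sub_sub_cancel_right] at h
  exact L1_mono h (by linarith)

/-- Common parts multiply. -/
lemma pos_mul_sub {a b c d : Meas} (hb : Pos b) (hc : Pos c) (hac : Pos (a - c))
    (hbd : Pos (b - d)) : Pos (a * b - c * d) := by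
  have e : a * b - c * d = (a - c) * b + c * (b - d) := by noncomm_ring
  rw [e]; exact pos_add (pos_mul hac hb) (pos_mul hc hbd)

/-! ### Quadratic bounds -/

lemma Nle_smul {f W : Meas} {a : ℝ} (h : Nle f W a) (t : ℝ) : Nle (t • f) W (|t| * a) := by
  have := NB.smul h t
  rwa [← sq_abs t, ← mul_pow] at this

lemma Nle_self {W : Meas} (hW : Prob W) : Nle W W 1 := hW.nle_self

lemma Nle_dom {c W : Meas} {C : ℝ} (hc : Pos c) (hW : Prob W) (hC : 0 ≤ C)
    (h : Pos (C • W - c)) : Nle (c - W) W (C + 1) := by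
  have hd : Dom c W C := fun w => by
    rw [abs_of_nonneg (hc w)]
    have := h w
    simp only [MonoidAlgebra.coeff_sub, MonoidAlgebra.coeff_smul, Finsupp.sub_apply,
      Finsupp.smul_apply, smul_eq_mul] at this
    linarith
  have h1 : Nle c W C := by
    have := hd.nb hW.1
    rwa [hW.2, mul_one] at this
  have h2 : Nle (-W) W 1 := NB.neg hW.nle_self
  rw [sub_eq_add_neg]
  exact Nle.add hW.1 hC zero_le_one h1 h2

/-! ### Shifted binomial weights -/

lemma bnw_nonneg {θ : ℝ} (h0 : 0 ≤ θ) (h1 : θ ≤ 1) (N k : ℕ) : 0 ≤ bnw N θ k := by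
  have : 0 ≤ 1 - θ := by linarith
  unfold bnw; positivity

lemma bnw_eq_zero {θ : ℝ} {N k : ℕ} (h : N < k) : bnw N θ k = 0 := by
  simp [bnw, Nat.choose_eq_zero_of_lt h]

lemma bnw_total (θ : ℝ) (N : ℕ) : ∑ k ∈ range (N + 1), bnw N θ k = 1 := by
  have h := add_pow θ (1 - θ) N
  rw [add_sub_cancel, one_pow] at h
  rw [h]
  exact Finset.sum_congr rfl fun k _ => by unfold bnw; ring

lemma bnw_sum_le {θ : ℝ} (h0 : 0 ≤ θ) (h1 : θ ≤ 1) (N : ℕ) (S : Finset ℕ) :
    ∑ k ∈ S, bnw N θ k ≤ 1 := by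
  calc ∑ k ∈ S, bnw N θ k ≤ ∑ k ∈ S ∪ range (N + 1), bnw N θ k :=
        sum_le_sum_of_subset_of_nonneg subset_union_left fun k _ _ => bnw_nonneg h0 h1 N k
    _ = ∑ k ∈ range (N + 1), bnw N θ k := (sum_subset subset_union_right fun k _ hk => by
        exact bnw_eq_zero (by simp only [Finset.mem_range] at hk; omega)).symm
    _ = 1 := bnw_total θ N

/-- The weight of `i + Bin(G, θ)` at `r`. -/
def pp (θ : ℝ) (G i r : ℕ) : ℝ := if i ≤ r then bnw G θ (r - i) else 0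

variable {θ : ℝ}

lemma pp_nonneg (h0 : 0 ≤ θ) (h1 : θ ≤ 1) (G i r : ℕ) : 0 ≤ pp θ G i r := by
  unfold pp; split
  · exact bnw_nonneg h0 h1 _ _
  · rfl

lemma pp_le (h0 : 0 < θ) (h1 : θ < 1) (G i r : ℕ) :
    pp θ G i r ≤ 1 / Real.sqrt ((G + 1) * (θ * (1 - θ))) := by
  unfold pp; split
  · exact bnw_le h0 h1 G (r - i)
  · positivity

lemma pp_sum_le (h0 : 0 ≤ θ) (h1 : θ ≤ 1) (G i : ℕ) (S : Finset ℕ) :
    ∑ r ∈ S, pp θ G i r ≤ 1 := by
  unfold pp
  rw [← sum_filter]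
  refine le_of_eq_of_le ?_ (bnw_sum_le h0 h1 G ((S.filter fun r => i ≤ r).image (· - i)))
  rw [sum_image]
  intro a ha b hb h
  simp only [coe_filter, Set.mem_setOf_eq] at ha hb
  simp only at h
  omega

lemma pp_sq_sum_le (h0 : 0 < θ) (h1 : θ < 1) (G i : ℕ) (S : Finset ℕ) :
    ∑ r ∈ S, pp θ G i r ^ 2 ≤ 1 / Real.sqrt ((G + 1) * (θ * (1 - θ))) := by
  calc ∑ r ∈ S, pp θ G i r ^ 2
      ≤ ∑ r ∈ S, pp θ G i r * (1 / Real.sqrt ((G + 1) * (θ * (1 - θ)))) :=
        sum_le_sum fun r _ => by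
          rw [sq]; exact mul_le_mul_of_nonneg_left (pp_le h0 h1 G i r) (pp_nonneg h0.le h1.le G i r)
    _ ≤ _ := by
        rw [← sum_mul]
        exact mul_le_of_le_one_left (by positivity) (pp_sum_le h0.le h1.le G i S)

lemma pp_tail (h0 : 0 < θ) (h1 : θ < 1) (G i : ℕ) {R : ℝ} (hR : 0 < R) (S : Finset ℕ) :
    ∑ r ∈ S.filter (fun r : ℕ => R ≤ |(r : ℝ) - (i + θ * G)|), pp θ G i r ≤ G * (θ * (1 - θ)) / R ^ 2 := by
  unfold pp
  rw [← sum_filter, filter_filter]
  refine le_of_eq_of_le ?_ (bnw_tail h0 h1 G hR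
    ((S.filter fun r : ℕ => R ≤ |(r : ℝ) - (i + θ * G)| ∧ i ≤ r).image (· - i)) ?_)
  · rw [sum_image]
    intro a ha b hb h
    simp only [coe_filter, Set.mem_setOf_eq] at ha hb
    simp only at h
    omega
  · intro k hk
    simp only [mem_image, mem_filter] at hk
    obtain ⟨r, ⟨-, hr, hir⟩, rfl⟩ := hk
    rw [Nat.cast_sub hir]
    rwa [sub_sub]

/-- Overlap of two weights with separated centres. -/
lemma pp_inner_le (h0 : 0 < θ) (h1 : θ < 1) (G i G' j : ℕ) {R u u' : ℝ} (hR : 0 < R)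
    (hu : ∀ r, pp θ G i r ≤ u) (hu' : ∀ r, pp θ G' j r ≤ u')
    (hsep : 2 * R ≤ |((i : ℝ) + θ * G) - (j + θ * G')|) (S : Finset ℕ) :
    ∑ r ∈ S, pp θ G i r * pp θ G' j r
      ≤ G * (θ * (1 - θ)) / R ^ 2 * u' + G' * (θ * (1 - θ)) / R ^ 2 * u := by
  have hp := pp_nonneg h0.le h1.le G i
  have hq := pp_nonneg h0.le h1.le G' j
  have hu0 : 0 ≤ u := (hp 0).trans (hu 0)
  have hu0' : 0 ≤ u' := (hq 0).trans (hu' 0)
  refine le_trans (sum_le_sum (g := fun r : ℕ =>
    (if R ≤ |(r : ℝ) - (i + θ * G)| then pp θ G i r * u' else 0)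
      + (if R ≤ |(r : ℝ) - (j + θ * G')| then pp θ G' j r * u else 0)) fun r _ => ?_) ?_
  · have hsplit : R ≤ |(r : ℝ) - (i + θ * G)| ∨ R ≤ |(r : ℝ) - (j + θ * G')| := by
      by_contra hc
      push Not at hc
      have := abs_sub_le ((i : ℝ) + θ * G) r (j + θ * G')
      rw [abs_sub_comm ((i : ℝ) + θ * G) r] at this
      linarith [hc.1, hc.2]
    rcases hsplit with h | h
    · rw [if_pos h]
      refine le_add_of_le_of_nonneg (mul_le_mul_of_nonneg_left (hu' r) (hp r)) ?_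
      split
      · exact mul_nonneg (hq r) hu0
      · rfl
    · rw [if_pos h]
      refine le_add_of_nonneg_of_le ?_ (by
        rw [mul_comm]; exact mul_le_mul_of_nonneg_left (hu r) (hq r))
      split
      · exact mul_nonneg (hp r) hu0'
      · rfl
  · rw [sum_add_distrib, ← sum_filter, ← sum_filter, ← sum_mul, ← sum_mul]
    exact add_le_add (mul_le_mul_of_nonneg_right (pp_tail h0 h1 G i hR S) hu0')
      (mul_le_mul_of_nonneg_right (pp_tail h0 h1 G' j hR S) hu0)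

end Vale.Agent.P321.BO
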