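import Vale.Agent.P321.Collision

/-!
# P321: a run of cells with a long free end is close in total variation to the background
-/

noncomputable section

open Finset

namespace Vale.Agent.P321.BO

lemma sum_inv_sq (n : ℕ) : ∑ k ∈ range n, (1 : ℝ) / ((k : ℝ) + 1) ^ 2 ≤ 2 := by
  suffices key : ∀ m : ℕ, 1 ≤ m →
      ∑ k ∈ range m, (1 : ℝ) / ((k : ℝ) + 1) ^ 2 ≤ 2 - 1 / (m : ℝ) by
    rcases Nat.eq_zero_or_pos n with rfl | hn
    · simp
    · exact (key n hn).trans (sub_le_self _ (by positivity))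
  intro m hm
  induction m, hm using Nat.le_induction with
  | base => norm_num
  | succ m hm ihm =>
    rw [sum_range_succ]
    have hm' : (0 : ℝ) < m := by exact_mod_cast hm
    have : 1 / ((m : ℝ) + 1) ^ 2 ≤ 1 / (m : ℝ) - 1 / ((m : ℝ) + 1) := by
      rw [div_sub_div _ _ hm'.ne' (by positivity), div_le_div_iff₀ (by positivity) (by positivity)]
      nlinarith
    push_cast
    linarith

lemma sum_dist_inv_sq (n i : ℕ) :
    ∑ j ∈ range n, (if i = j then 0 else 1 / ((i : ℝ) - j) ^ 2) ≤ 4 := by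
  have h : ∀ j ∈ range n, (if i = j then 0 else 1 / ((i : ℝ) - j) ^ 2)
      ≤ (if j < i then 1 / (((i - j - 1 : ℕ) : ℝ) + 1) ^ 2 else 0)
        + (if i < j then 1 / (((j - i - 1 : ℕ) : ℝ) + 1) ^ 2 else 0) := by
    intro j _
    rcases lt_trichotomy j i with h | h | h
    · rw [if_neg (by omega), if_pos h, if_neg (by omega), add_zero,
        show ((i - j - 1 : ℕ) : ℝ) + 1 = (i : ℝ) - j by
          rw [Nat.cast_sub (by omega), Nat.cast_sub h.le]; push_cast; ring]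
    · subst h; simp
    · rw [if_neg (by omega), if_neg (by omega), if_pos h, zero_add,
        show ((j - i - 1 : ℕ) : ℝ) + 1 = -((i : ℝ) - j) by
          rw [Nat.cast_sub (by omega), Nat.cast_sub h.le]; push_cast; ring, neg_sq]
  refine (sum_le_sum h).trans ?_
  rw [sum_add_distrib, ← sum_filter, ← sum_filter]
  have b : ∀ m, ∑ k ∈ range m, (1 : ℝ) / ((k : ℝ) + 1) ^ 2 ≤ 2 := fun m =>
    sum_inv_sq m
  have h1 : ∑ j ∈ (range n).filter (fun j => j < i), (1 : ℝ) / (((i - j - 1 : ℕ) : ℝ) + 1) ^ 2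
      ≤ 2 := by
    rw [← sum_image (f := fun k : ℕ => (1 : ℝ) / ((k : ℝ) + 1) ^ 2) (g := fun j => i - j - 1) (by
      intro a ha b hb h; simp only [coe_filter, Set.mem_ofPred_eq] at ha hb; simp only at h; omega)]
    refine le_trans (sum_le_sum_of_subset_of_nonneg ?_ fun k _ _ => by positivity) (b (i + 1))
    intro k hk
    simp only [mem_image, mem_filter] at hk
    obtain ⟨j, ⟨-, hj⟩, rfl⟩ := hk
    rw [mem_range]; omega
  have h2 : ∑ j ∈ (range n).filter (fun j => i < j), (1 : ℝ) / (((j - i - 1 : ℕ) : ℝ) + 1) ^ 2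
      ≤ 2 := by
    rw [← sum_image (f := fun k : ℕ => (1 : ℝ) / ((k : ℝ) + 1) ^ 2) (g := fun j => j - i - 1) (by
      intro a ha b hb h; simp only [coe_filter, Set.mem_ofPred_eq] at ha hb; simp only at h; omega)]
    refine le_trans (sum_le_sum_of_subset_of_nonneg ?_ fun k _ _ => by positivity) (b n)
    intro k hk
    simp only [mem_image, mem_filter, mem_range] at hk
    obtain ⟨j, ⟨hjn, hj⟩, rfl⟩ := hk
    rw [mem_range]; omega
  linarith

lemma sum_inv_sqrt (n : ℕ) :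
    ∑ i ∈ range n, 1 / Real.sqrt ((i : ℝ) + 1) ≤ 2 * Real.sqrt n := by
  induction n with
  | zero => simp
  | succ n ih =>
    rw [sum_range_succ]
    push_cast
    have h1 : 0 < Real.sqrt ((n : ℝ) + 1) := Real.sqrt_pos.2 (by positivity)
    have h2 := Real.sqrt_nonneg (n : ℝ)
    have s1 := Real.sq_sqrt (by positivity : (0 : ℝ) ≤ (n : ℝ) + 1)
    have s2 := Real.sq_sqrt (by positivity : (0 : ℝ) ≤ (n : ℝ))
    have : 1 / Real.sqrt ((n : ℝ) + 1) ≤ 2 * Real.sqrt ((n : ℝ) + 1) - 2 * Real.sqrt n := by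
      rw [div_le_iff₀ h1]
      nlinarith [sq_nonneg (Real.sqrt ((n : ℝ) + 1) - Real.sqrt n)]
    linarith

variable {θ C Cs : ℝ} {Q c X : Meas}

/-- The collision constant. -/
def lamK (θ : ℝ) : ℝ := (1 + 40 * (θ * (1 - θ)) / θ ^ 2) * 2 * Real.sqrt (3 / (θ * (1 - θ)))

lemma collision_le (h0 : 0 < θ) (h1 : θ < 1) {h M g : ℕ} {cc : ℝ} (hh : 0 < h) (hg : h ≤ 3 * g)
    (hg' : g ≤ 3 * h) (hM : (M : ℝ) ≤ cc * h) (hcc : cc ≤ 1) (n : ℕ) (hn : n ≤ M) (R : ℕ) :
    ∑ i ∈ range n, ∑ j ∈ range n, ∑ r ∈ range R,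
        pp θ (g + 2 * h * i) i r * pp θ (g + 2 * h * j) j r ≤ lamK θ * Real.sqrt cc := by
  rcases Nat.eq_zero_or_pos n with rfl | hn0
  · simp only [range_zero, sum_empty]
    unfold lamK
    have : 0 < θ * (1 - θ) := mul_pos h0 (by linarith)
    positivity
  set σ := θ * (1 - θ) with hσdef
  have hσ : 0 < σ := mul_pos h0 (by linarith)
  have hh' : (0 : ℝ) < h := by exact_mod_cast hh
  set u : ℕ → ℝ := fun i => Real.sqrt (3 / (σ * h)) * (1 / Real.sqrt ((i : ℝ) + 1)) with hu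
  have hu0 : ∀ i, 0 ≤ u i := fun i => by rw [hu]; positivity
  have pu : ∀ i r, pp θ (g + 2 * h * i) i r ≤ u i := by
    intro i r
    refine (pp_le h0 h1 _ i r).trans (le_of_le_of_eq (b := Real.sqrt (3 / (σ * h * ((i : ℝ) + 1)))) ?_ ?_)
    · rw [one_div, ← Real.sqrt_inv]
      refine Real.sqrt_le_sqrt ?_
      rw [inv_le_iff_one_le_mul₀ (by positivity), ← hσdef]
      have hg3 : (h : ℝ) * ((i : ℝ) + 1) ≤ 3 * (((g + 2 * h * i : ℕ) : ℝ) + 1) := by
        have : (h : ℝ) ≤ 3 * g := by exact_mod_cast hg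
        push_cast
        nlinarith [mul_nonneg hh'.le (Nat.cast_nonneg (α := ℝ) i)]
      rw [div_mul_eq_mul_div, le_div_iff₀ (by positivity)]
      nlinarith [mul_le_mul_of_nonneg_left hg3 hσ.le]
    · simp only [hu]
      rw [one_div, ← Real.sqrt_inv, ← Real.sqrt_mul (by positivity)]
      congr 1
      field_simp
  have pu' := pu
  set A := 5 * (M : ℝ) * σ / (θ ^ 2 * h) with hA
  have hA0 : 0 ≤ A := by rw [hA]; positivity
  set D : ℕ → ℕ → ℝ := fun i j => if i = j then 0 else 1 / ((i : ℝ) - j) ^ 2 with hD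
  have hGle : ∀ i < n, ((g + 2 * h * i : ℕ) : ℝ) ≤ 5 * h * M := fun i hi => by
    have : g + 2 * h * i ≤ 5 * h * M := by
      have h5 : 2 * h * i ≤ 2 * h * M := Nat.mul_le_mul_left _ (by omega)
      have h6 : 3 * h ≤ 3 * h * M := Nat.le_mul_of_pos_right _ (by omega)
      have h7 : 5 * h * M = 2 * h * M + 3 * h * M := by ring
      omega
    exact_mod_cast this
  have hpair : ∀ i ∈ range n, ∀ j ∈ range n, ∑ r ∈ range R,
      pp θ (g + 2 * h * i) i r * pp θ (g + 2 * h * j) j r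
        ≤ (if i = j then u i else 0) + A * D i j * (u i + u j) := by
    intro i hi j hj
    by_cases hij : i = j
    · subst hij
      simp only [hD, if_pos, mul_zero, zero_mul, add_zero]
      refine (sum_le_sum fun r _ => mul_le_mul_of_nonneg_left (pu i r)
        (pp_nonneg h0.le h1.le _ i r)).trans ?_
      rw [← sum_mul]
      exact mul_le_of_le_one_left (hu0 i) (pp_sum_le h0.le h1.le _ i _)
    · rw [if_neg hij, zero_add]
      simp only [hD, if_neg hij]
      have hne : ((i : ℝ) - j) ≠ 0 := sub_ne_zero.2 (by exact_mod_cast hij)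
      have habs : 0 < |(i : ℝ) - j| := abs_pos.2 hne
      refine (pp_inner_le h0 h1 _ i _ j (R := θ * h * |(i : ℝ) - j|) (by positivity) (pu i) (pu' j)
        ?_ _).trans ?_
      · push_cast
        rw [show (i : ℝ) + θ * (g + 2 * h * i) - (j + θ * (g + 2 * h * j))
          = ((i : ℝ) - j) * (1 + 2 * θ * h) by ring, abs_mul,
          abs_of_nonneg (by positivity : (0 : ℝ) ≤ 1 + 2 * θ * h)]
        nlinarith
      · have key : ∀ l < n, ((g + 2 * h * l : ℕ) : ℝ) * σ / (θ * h * |(i : ℝ) - j|) ^ 2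
            ≤ A * (1 / ((i : ℝ) - j) ^ 2) := fun l hl => by
          rw [mul_pow, sq_abs, hA]
          refine (div_le_div_of_nonneg_right (mul_le_mul_of_nonneg_right (hGle l hl) hσ.le)
            (by positivity)).trans (le_of_eq ?_)
          field_simp
        rw [mul_add]
        refine (add_le_add (mul_le_mul_of_nonneg_right (key i (mem_range.1 hi)) (hu0 j))
          (mul_le_mul_of_nonneg_right (key j (mem_range.1 hj)) (hu0 i))).trans (le_of_eq ?_)
        ring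
  refine (sum_le_sum fun i hi => sum_le_sum fun j hj => hpair i hi j hj).trans ?_
  have hsym : ∑ i ∈ range n, ∑ j ∈ range n, A * D i j * u j
      = ∑ i ∈ range n, ∑ j ∈ range n, A * D i j * u i := by
    rw [sum_comm]
    refine sum_congr rfl fun i _ => sum_congr rfl fun j _ => ?_
    simp only [hD, eq_comm (a := j), ← neg_sub (i : ℝ) (j : ℝ), neg_sq]
  have hrow : ∀ i ∈ range n, ∑ j ∈ range n, A * D i j * u i ≤ 4 * A * u i := fun i _ => by
    rw [← sum_mul, ← mul_sum]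
    refine mul_le_mul_of_nonneg_right ?_ (hu0 i)
    rw [mul_comm 4 A]
    exact mul_le_mul_of_nonneg_left (sum_dist_inv_sq n i) hA0
  have htot : ∑ i ∈ range n, ∑ j ∈ range n,
      ((if i = j then u i else 0) + A * D i j * (u i + u j)) ≤ (1 + 8 * A) * ∑ i ∈ range n, u i := by
    simp only [mul_add, sum_add_distrib, sum_ite_eq]
    rw [hsym, sum_congr rfl fun i (hi : i ∈ range n) => if_pos hi]
    have hh := sum_le_sum hrow
    rw [← mul_sum] at hh
    linarith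
  refine htot.trans ?_
  have hsum : ∑ i ∈ range n, u i ≤ Real.sqrt (3 / σ) * 2 * Real.sqrt cc := by
    rw [hu, ← mul_sum]
    refine (mul_le_mul_of_nonneg_left (sum_inv_sqrt n) (Real.sqrt_nonneg _)).trans ?_
    rw [mul_comm 2 (Real.sqrt _), ← mul_assoc, ← Real.sqrt_mul (by positivity),
      mul_right_comm (Real.sqrt (3 / σ)), ← Real.sqrt_mul (by positivity)]
    refine mul_le_mul_of_nonneg_right (Real.sqrt_le_sqrt ?_) zero_le_two
    have : (n : ℝ) ≤ M := by exact_mod_cast hn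
    calc 3 / (σ * h) * n = 3 / σ * ((n : ℝ) / h) := by field_simp
      _ ≤ 3 / σ * cc := mul_le_mul_of_nonneg_left (by rw [div_le_iff₀ hh']; linarith) (by positivity)
  have hA' : 8 * A ≤ 40 * σ / θ ^ 2 := by
    have : (M : ℝ) ≤ h := hM.trans (mul_le_of_le_one_left hh'.le hcc)
    rw [hA]
    calc 8 * (5 * (M : ℝ) * σ / (θ ^ 2 * h)) = 40 * σ / θ ^ 2 * ((M : ℝ) / h) := by ring
      _ ≤ 40 * σ / θ ^ 2 * 1 :=
        mul_le_mul_of_nonneg_left (by rw [div_le_one hh']; exact this) (by positivity)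
      _ = _ := mul_one _
  refine (mul_le_mul (by linarith : 1 + 8 * A ≤ 1 + 40 * σ / θ ^ 2) hsum
    (sum_nonneg fun i _ => hu0 i) (by positivity)).trans (le_of_eq ?_)
  rw [lamK, ← hσdef]; ring

/-- The graded measures with positive coefficients. -/
def PosC (f : Polynomial Meas) : Prop := ∀ K, Pos (f.coeff K)

lemma PosC.mul {f g : Polynomial Meas} (hf : PosC f) (hg : PosC g) : PosC (f * g) := fun K => by
  rw [Polynomial.coeff_mul]; exact pos_sum fun x _ => pos_mul (hf _) (hg _)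

lemma PosC_C {a : Meas} (ha : Pos a) : PosC (Polynomial.C a) := fun K => by
  rw [Polynomial.coeff_C]; split <;> [exact ha; exact pos_zero]

lemma PosC_X : PosC Polynomial.X := fun K => by
  rw [Polynomial.coeff_X]; split <;> [exact pos_one; exact pos_zero]

lemma PosC_psi (hQ : Prob Q) {p : Polynomial ℝ} (hp : ∀ K, 0 ≤ p.coeff K) : PosC (psi Q p) :=
  fun K => by rw [psi_coeff]; exact pos_smul (prob_pow hQ K).1 (hp K)

lemma pos_run (hb : Bg θ C Cs Q c X) (g d L n : ℕ) : PosC (run θ Q c g d L n) := by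
  have hp : ∀ G, PosC (psi Q (pB θ ^ G)) := fun G => PosC_psi hb.probQ fun K => by
    rw [pB_pow_coeff]; exact bnw_nonneg hb.θ0.le hb.θ1.le _ _
  have hc : PosC (Polynomial.C c * Polynomial.X) := (PosC_C hb.probc.1).mul PosC_X
  have hpow : ∀ k, PosC ((psi Q (pB θ ^ d) * (Polynomial.C c * Polynomial.X)) ^ k) := by
    intro k
    induction k with
    | zero => rw [pow_zero, ← Polynomial.C_1]; exact PosC_C pos_one
    | succ k ih => rw [pow_succ]; exact ih.mul ((hp d).mul hc)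
  exact ((hp g).mul hc).mul ((hpow n).mul (hp L))

lemma map_psi (hQ : Prob Q) (p : Polynomial ℝ) : (psi Q p).map massHom = p := by
  ext K
  rw [Polynomial.coeff_map, psi_coeff, massHom_apply, mass_smul, (prob_pow hQ K).2, mul_one]

lemma mass_run (hb : Bg θ C Cs Q c X) (g d L n K : ℕ) :
    mass ((run θ Q c g d L n).coeff K) = pp θ (g + d * n + L) (n + 1) K := by
  have h : (run θ Q c g d L n).map massHom
      = pB θ ^ (g + d * n + L) * Polynomial.X ^ (n + 1) := by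
    simp only [run, sfx, Polynomial.map_mul, Polynomial.map_pow, map_psi hb.probQ,
      Polynomial.map_C, Polynomial.map_X, massHom_apply, hb.probc.2, Polynomial.C_1, one_mul]
    ring
  have := congrArg (fun p => p.coeff K) h
  simpa [Polynomial.coeff_map, massHom_apply, pp_coeff] using this

lemma card_window (S : Finset ℕ) (μ : ℝ) {R : ℝ} (hR : 0 ≤ R) :
    ((S.filter fun K : ℕ => |(K : ℝ) - μ| < R).card : ℝ) ≤ 2 * R + 1 := by
  rcases (S.filter fun K : ℕ => |(K : ℝ) - μ| < R).eq_empty_or_nonempty with he | hne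
  · rw [he]; simp; linarith
  set W := S.filter fun K : ℕ => |(K : ℝ) - μ| < R
  have hsub : W ⊆ Finset.Icc (W.min' hne) (W.max' hne) := fun K hK =>
    mem_Icc.2 ⟨min'_le _ _ hK, le_max' _ _ hK⟩
  have hc := card_le_card hsub
  rw [Nat.card_Icc] at hc
  have h1 := (mem_filter.1 (W.min'_mem hne)).2
  have h2 := (mem_filter.1 (W.max'_mem hne)).2
  have hmm : W.min' hne ≤ W.max' hne + 1 := (W.min'_le_max' hne).trans (Nat.le_succ _)
  rw [abs_lt] at h1 h2
  have : (W.card : ℝ) ≤ ((W.max' hne + 1 - W.min' hne : ℕ) : ℝ) := by exact_mod_cast hc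
  rw [Nat.cast_sub hmm] at this
  push_cast at this
  linarith [h1.1, h2.2]

lemma bg_pow_prob (hb : Bg θ C Cs Q c X) : Prob X := by
  have hθ : 0 ≤ 1 - θ := by linarith [hb.θ1]
  rw [hb.hX]
  refine ⟨pos_add (pos_smul pos_one hθ) (pos_smul hb.probQ.1 hb.θ0.le), ?_⟩
  rw [mass_add, mass_smul, mass_smul, hb.probQ.2, mass_one]
  ring

lemma unit_swap (hb : Bg θ C Cs Q c X) {N : ℕ} (hN : 1 ≤ N) (M : ℕ) :
    L1 (X ^ N * Q ^ M - X ^ (N + M)) (M * ((1 - θ) / θ * Real.sqrt (Cs / N))) := by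
  have hPX := bg_pow_prob hb
  induction M with
  | zero => simpa using L1_zero
  | succ M ih =>
    have e : X ^ N * Q ^ (M + 1) - X ^ (N + (M + 1))
        = (X ^ N * Q ^ M - X ^ (N + M)) * Q + X ^ (N + M) * (Q - X) := by
      rw [pow_succ, ← add_assoc, pow_succ, mul_sub, sub_mul, mul_assoc]
      abel
    have e2 : X ^ (N + M) * (Q - X)
        = (-((1 - θ) / θ)) • (X ^ (N + M) - X ^ (N + M + 1)) := by
      have hθ := hb.θ0.ne'
      have : Q - X = (-((1 - θ) / θ)) • (1 - X) := by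
        rw [hb.hX]
        match_scalars <;> field_simp <;> ring
      rw [this, mul_smul_comm, mul_sub, mul_one, pow_succ X (N + M)]
    rw [e]
    refine L1_mono ((ih.mul (prob_L1 hb.probQ)).add (e2 ▸ L1_smul (hb.smooth (N + M) (by omega)) _)) ?_
    rw [mul_one, abs_neg, abs_of_nonneg (div_nonneg (by linarith [hb.θ1]) hb.θ0.le)]
    have : Real.sqrt (Cs / ((N + M : ℕ) : ℝ)) ≤ Real.sqrt (Cs / N) :=
      Real.sqrt_le_sqrt (div_le_div_of_nonneg_left hb.Cs0 (by exact_mod_cast hN)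
        (by exact_mod_cast Nat.le_add_right N M))
    have := mul_le_mul_of_nonneg_left this
      (div_nonneg (by linarith [hb.θ1] : (0 : ℝ) ≤ 1 - θ) hb.θ0.le)
    push_cast at *
    linarith

lemma window_le (hb : Bg θ C Cs Q c X) {B l t : ℝ} (hB1 : 1 ≤ B) (hl : 0 ≤ l) (ht : 0 ≤ t)
    {L N : ℕ} (hN1 : 1 ≤ N) (hNL : N ≤ 31 * L) {μ R : ℝ} {W : Finset ℕ} {f : Polynomial Meas}
    (a : ℕ → ℝ) (a0 : ∀ K, 0 ≤ a K) (an : ∀ K, Nle (f.coeff K) (Q ^ K) (a K))
    (as : ∀ T : Finset ℕ, ∑ K ∈ T, a K ^ 2 ≤ ((C + 1) * Real.sqrt (l * t ^ 2) *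
      (2 * Real.sqrt (1 / Real.sqrt (((L : ℝ) + 1) * (θ * (1 - θ)))))) ^ 2)
    (hR : R = B * Real.sqrt N) {S : Finset ℕ}
    (hW : W = S.filter fun K : ℕ => |(K : ℝ) - μ| < R) :
    L1 (∑ K ∈ W, f.coeff K)
      (Real.sqrt (12 * B * (C + 1) ^ 2 * l * Real.sqrt (31 / (θ * (1 - θ)))) * t) := by
  refine L1_mono (L1_sum fun K _ => Nle.toL1 (prob_pow hb.probQ K) (a0 K) (an K)) ?_
  set σ := θ * (1 - θ) with hσdef
  have hσ : 0 < σ := mul_pos hb.θ0 (by linarith [hb.θ1])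
  have hR0 : 0 ≤ R := by rw [hR]; positivity
  have h3 : 2 * R + 1 ≤ 3 * B * Real.sqrt N := by
    have h4 : 1 ≤ Real.sqrt N := Real.one_le_sqrt.2 (by exact_mod_cast hN1)
    have := one_le_mul_of_one_le_of_one_le hB1 h4
    rw [hR]; linarith
  have hcard : (W.card : ℝ) ≤ 3 * B * Real.sqrt N := by
    rw [hW]; exact (card_window S μ hR0).trans h3
  set A := 1 / Real.sqrt (((L : ℝ) + 1) * σ) with hA
  have h5 : Real.sqrt N * A ≤ Real.sqrt (31 / σ) := by
    rw [hA, mul_one_div, ← Real.sqrt_div (by positivity)]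
    refine Real.sqrt_le_sqrt ?_
    rw [div_le_div_iff₀ (by positivity) hσ]
    have : (N : ℝ) ≤ 31 * L := by exact_mod_cast hNL
    nlinarith
  have hA0 : 0 ≤ A := by rw [hA]; positivity
  have h1 : (∑ K ∈ W, a K) ^ 2
      ≤ (Real.sqrt (12 * B * (C + 1) ^ 2 * l * Real.sqrt (31 / σ)) * t) ^ 2 := by
    refine sq_sum_le_card_mul_sum_sq.trans ((mul_le_mul hcard (as W)
      (sum_nonneg fun K _ => sq_nonneg _) (by positivity)).trans ?_)
    rw [mul_pow ((C + 1) * Real.sqrt _), mul_pow (C + 1), mul_pow 2 (Real.sqrt A),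
      Real.sq_sqrt hA0, Real.sq_sqrt (by positivity), mul_pow _ t, Real.sq_sqrt (by positivity)]
    calc 3 * B * Real.sqrt N * ((C + 1) ^ 2 * (l * t ^ 2) * (2 ^ 2 * A))
        = 12 * B * (C + 1) ^ 2 * l * t ^ 2 * (Real.sqrt N * A) := by ring
      _ ≤ 12 * B * (C + 1) ^ 2 * l * t ^ 2 * Real.sqrt (31 / σ) :=
          mul_le_mul_of_nonneg_left h5 (by positivity)
      _ = _ := by ring
  exact (le_abs_self _).trans (abs_le_of_sq_le_sq h1 (by positivity))

lemma outside_le (hb : Bg θ C Cs Q c X) (g d L n : ℕ) (S : Finset ℕ) {B : ℝ}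
    (hN1 : 1 ≤ g + d * n + L) (hB : 0 < B) :
    L1 (∑ K ∈ S.filter (fun K : ℕ => ¬ |(K : ℝ) - (((n + 1 : ℕ) : ℝ) + θ * (g + d * n + L : ℕ))|
        < B * Real.sqrt (g + d * n + L : ℕ)),
      (run θ Q c g d L n - psi Q (pB θ ^ (g + d * n + L) * Polynomial.X ^ (n + 1))).coeff K)
      (2 * (θ * (1 - θ)) / B ^ 2) := by
  set N := g + d * n + L with hN
  have hm : ∀ K, mass ((psi Q (pB θ ^ N * Polynomial.X ^ (n + 1))).coeff K)
      = pp θ N (n + 1) K := fun K => by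
    rw [psi_coeff, pp_coeff, mass_smul, (prob_pow hb.probQ K).2, mul_one]
  have hpos : PosC (psi Q (pB θ ^ N * Polynomial.X ^ (n + 1))) := PosC_psi hb.probQ fun K => by
    rw [pp_coeff]; exact pp_nonneg hb.θ0.le hb.θ1.le _ _ _
  refine L1_mono (L1_sum fun K _ => le_of_eq_of_le (congrArg l1 (Polynomial.coeff_sub _ _ K))
    (L1_sub (pos_L1 (pos_run hb g d L n K)) (pos_L1 (hpos K)))) ?_
  have hN0 : (0 : ℝ) < N := by exact_mod_cast hN1
  simp only [mass_run hb, hm, ← hN, ← two_mul, ← mul_sum]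
  simp only [not_lt]
  rw [mul_div_assoc]
  refine mul_le_mul_of_nonneg_left
    ((pp_tail hb.θ0 hb.θ1 N (n + 1) (by positivity) S).trans (le_of_eq ?_)) zero_le_two
  rw [mul_pow, Real.sq_sqrt hN0.le]
  field_simp

lemma swap_le (hb : Bg θ C Cs Q c X) {h g n N : ℕ} {t : ℝ} (hh : 0 < h) (hg : h ≤ 3 * g)
    (ht : 0 ≤ t) (ht1 : t ≤ 1) (hM : ((n + 1 : ℕ) : ℝ) ≤ t ^ 4 * h) (hN1 : 1 ≤ N)
    (hN : g + 2 * h * n ≤ N) :
    L1 (X ^ N * Q ^ (n + 1) - X ^ (N + (n + 1))) ((1 - θ) / θ * Real.sqrt (3 * Cs) * t) := by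
  refine L1_mono (unit_swap hb hN1 (n + 1)) ?_
  rw [mul_left_comm, mul_assoc ((1 - θ) / θ)]
  refine mul_le_mul_of_nonneg_left ?_ (div_nonneg (by linarith [hb.θ1]) hb.θ0.le)
  have hh' : (0 : ℝ) < h := by exact_mod_cast hh
  have hN0 : (0 : ℝ) < N := by exact_mod_cast hN1
  have hNlow : (h : ℝ) * ((n + 1 : ℕ) : ℝ) ≤ 3 * N := by
    have h1 : (h : ℝ) ≤ 3 * g := by exact_mod_cast hg
    have h2 : ((g + 2 * h * n : ℕ) : ℝ) ≤ N := by exact_mod_cast hN
    push_cast at h2 ⊢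
    nlinarith [mul_nonneg hh'.le (Nat.cast_nonneg (α := ℝ) n)]
  have hCs := hb.Cs0
  calc ((n + 1 : ℕ) : ℝ) * Real.sqrt (Cs / N)
      = Real.sqrt (((n + 1 : ℕ) : ℝ) ^ 2 * (Cs / N)) := by
        rw [Real.sqrt_mul (sq_nonneg _), Real.sqrt_sq (Nat.cast_nonneg _)]
    _ ≤ Real.sqrt (3 * Cs * (t ^ 2) ^ 2) := by
        refine Real.sqrt_le_sqrt ?_
        rw [mul_div_assoc', div_le_iff₀ hN0]
        calc ((n + 1 : ℕ) : ℝ) ^ 2 * Cs = Cs * ((n + 1 : ℕ) : ℝ) * ((n + 1 : ℕ) : ℝ) := by ring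
          _ ≤ Cs * ((n + 1 : ℕ) : ℝ) * (t ^ 4 * h) :=
              mul_le_mul_of_nonneg_left hM (by positivity)
          _ = Cs * t ^ 4 * ((h : ℝ) * ((n + 1 : ℕ) : ℝ)) := by ring
          _ ≤ Cs * t ^ 4 * (3 * N) := mul_le_mul_of_nonneg_left hNlow (by positivity)
          _ = _ := by ring
    _ = Real.sqrt (3 * Cs) * t ^ 2 := by
        rw [Real.sqrt_mul (by positivity), Real.sqrt_sq (sq_nonneg t)]
    _ ≤ Real.sqrt (3 * Cs) * t :=
        mul_le_mul_of_nonneg_left (by nlinarith) (Real.sqrt_nonneg _)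

/-- A run of cells with a free end is close to the background. -/
theorem run_close (hb : Bg θ C Cs Q c X) {ε : ℝ} (hε : 0 < ε) :
    ∃ cc : ℝ, 0 < cc ∧ cc ≤ 1 ∧ ∀ h g n L : ℕ, 0 < h → ((n + 1 : ℕ) : ℝ) ≤ cc * h → h ≤ 3 * g →
      g ≤ 3 * h → g + 2 * h * n ≤ 30 * L →
      L1 (X ^ g * c * (X ^ (2 * h) * c) ^ n * X ^ L - X ^ (g + 2 * h * n + L + (n + 1))) ε := by
  set σ := θ * (1 - θ) with hσdef
  have hσ : 0 < σ := mul_pos hb.θ0 (by linarith [hb.θ1])
  have hlam : 0 < lamK θ := by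
    rw [lamK, ← hσdef]
    have := hb.θ0
    positivity
  set B := Real.sqrt (6 * σ / ε) + 1 with hB
  have hB1 : 1 ≤ B := le_add_of_nonneg_left (Real.sqrt_nonneg _)
  have hB2 : 2 * σ / B ^ 2 ≤ ε / 3 := by
    have h6 : 6 * σ / ε ≤ B ^ 2 := by
      rw [hB]
      nlinarith [Real.sq_sqrt (by positivity : (0 : ℝ) ≤ 6 * σ / ε), Real.sqrt_nonneg (6 * σ / ε)]
    rw [div_le_iff₀ hε] at h6
    rw [div_le_iff₀ (by positivity)]
    linarith
  have hC1 : 0 < C + 1 := by linarith [hb.C0]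
  set K2 := Real.sqrt (12 * B * (C + 1) ^ 2 * lamK θ * Real.sqrt (31 / σ)) with hK2
  set K3 := (1 - θ) / θ * Real.sqrt (3 * Cs) with hK3
  have hK3' : 0 ≤ K3 := by
    rw [hK3]; exact mul_nonneg (div_nonneg (by linarith [hb.θ1]) hb.θ0.le) (Real.sqrt_nonneg _)
  set K4 := (C + 1) * Real.sqrt (lamK θ) with hK4
  have hK4' : 0 ≤ K4 := by positivity
  set t := min 1 (min (ε / (3 * (K2 + 1))) (min (ε / (3 * (K3 + 1))) (1 / (2 * (K4 + 1))))) with ht
  have ht0 : 0 < t := by rw [ht]; positivity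
  have ht1 : t ≤ 1 := min_le_left _ _
  have tb : ∀ K x : ℝ, 0 ≤ K → t ≤ x / (K + 1) → K * t ≤ x := fun K x hK h => by
    rw [le_div_iff₀ (by linarith)] at h
    nlinarith
  have ha : K2 * t ≤ ε / 3 := tb _ _ (Real.sqrt_nonneg _) (by
    refine ((min_le_right _ _).trans (min_le_left _ _)).trans (le_of_eq ?_)
    field_simp)
  have hb' : K3 * t ≤ ε / 3 := tb _ _ hK3' (by
    refine (((min_le_right _ _).trans (min_le_right _ _)).trans (min_le_left _ _)).trans (le_of_eq ?_)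
    field_simp)
  have hc' : K4 * t ≤ 1 / 2 := tb _ _ hK4' (by
    refine (((min_le_right _ _).trans (min_le_right _ _)).trans (min_le_right _ _)).trans (le_of_eq ?_)
    field_simp)
  refine ⟨t ^ 4, by positivity, pow_le_one₀ ht0.le ht1, fun h g n L hh hM hg hg' hL => ?_⟩
  have hsq : Real.sqrt (t ^ 4) = t ^ 2 := by
    rw [show t ^ 4 = (t ^ 2) ^ 2 by ring, Real.sqrt_sq (by positivity)]
  set Λ := lamK θ * t ^ 2 with hΛdef
  have hΛs : Real.sqrt Λ = Real.sqrt (lamK θ) * t := by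
    rw [hΛdef, Real.sqrt_mul hlam.le, Real.sqrt_sq ht0.le]
  set N := g + 2 * h * n + L with hN
  have hL1 : 1 ≤ L := by omega
  have hN1 : 1 ≤ N := by omega
  have hN0 : (0 : ℝ) < N := by exact_mod_cast hN1
  set S := 1 / Real.sqrt (((L : ℝ) + 1) * σ) with hS
  have hp : ∀ n' ≤ n, ∀ g' ∈ ({g, 2 * h} : Finset ℕ), ∀ R,
      ∑ i ∈ range (n' + 1), ∑ j ∈ range (n' + 1),
      ∑ r ∈ range R, pp θ (g' + 2 * h * i) i r * pp θ (g' + 2 * h * j) j r ≤ Λ := by
    intro n' hn' g' hg'' R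
    rw [hΛdef, ← hsq]
    refine collision_le hb.θ0 hb.θ1 hh ?_ ?_ hM (pow_le_one₀ ht0.le ht1) _ (by omega) R
    · simp only [mem_insert, mem_singleton] at hg''; omega
    · simp only [mem_insert, mem_singleton] at hg''; omega
  have hGB := GB_run hb (N := n) (g := g) (d := 2 * h) (L := L) (S := S) (Λ := Λ) le_rfl
    (by rw [hΛs, ← mul_assoc, ← hK4]; exact hc') hp
  obtain ⟨a, a0, an, as⟩ := hGB
  set D := run θ Q c g (2 * h) L n - psi Q (pB θ ^ N * Polynomial.X ^ (n + 1)) with hD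
  have hflat : flat D = X ^ g * c * (X ^ (2 * h) * c) ^ n * X ^ L - X ^ N * Q ^ (n + 1) := by
    simp only [hD, run, sfx, map_sub, map_mul, map_pow, flat_psi_pB hb.hX, flat_psi_X, flat_C,
      flat_X, mul_one, one_mul, mul_assoc]
  set μ := ((n + 1 : ℕ) : ℝ) + θ * N with hμ
  set R := B * Real.sqrt N with hR
  have hR0 : 0 < R := by rw [hR]; positivity
  have hin : L1 (∑ K ∈ D.support.filter (fun K : ℕ => |(K : ℝ) - μ| < R), D.coeff K) (K2 * t) :=
    window_le hb hB1 hlam.le ht0.le hN1 (by omega) a a0 an as hR rfl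
  have hout : L1 (∑ K ∈ D.support.filter (fun K : ℕ => ¬ |(K : ℝ) - μ| < R), D.coeff K) (ε / 3) :=
    L1_mono (outside_le hb g (2 * h) L n _ (by omega) (lt_of_lt_of_le one_pos hB1)) hB2
  have hsw : L1 (X ^ N * Q ^ (n + 1) - X ^ (N + (n + 1))) (ε / 3) :=
    L1_mono (swap_le hb hh hg ht0.le ht1 hM hN1 (by omega)) hb'
  have htot := (hin.add hout).add hsw
  rw [sum_filter_add_sum_filter_not, ← flat_eq_sum, hflat, sub_add_sub_cancel] at htot
  exact L1_mono htot (by linarith)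

end Vale.Agent.P321.BO
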