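import Vale.Agent.P321.Basic
import Vale.Agent.P321.Gain
import Vale.Agent.P321.Kernel

/-!
# P321: a window of one step

`D * X` inside pads of units `U` spreads: a short core gains from the translation in units `G`, the
replacement of the pads costs a second-order correction.
-/

noncomputable section

namespace Vale.Agent.P321

lemma pow_one_add_le {x : ℝ} (hx : 0 ≤ x) (n : ℕ) (hn : (n : ℝ) * x ≤ 1 / 2) :
    (1 + x) ^ n - 1 ≤ 2 * (n * x) := by
  induction n with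
  | zero => simp
  | succ n ih =>
    push_cast at hn
    have h1 := ih (by nlinarith)
    have h2 : ((1 + x) ^ n - 1) * x ≤ (2 * (n * x)) * x := mul_le_mul_of_nonneg_right h1 hx
    have h3 : (2 * ((n : ℝ) * x)) * x ≤ x := mul_le_of_le_one_left hx (by nlinarith)
    push_cast; rw [pow_succ]; nlinarith

lemma Dom.trans {f V W : Meas} {a b : ℝ} (h : Dom f V a) (_hV : Pos V) (ha : 0 ≤ a)
    (h' : Dom V W b) : Dom f W (a * b) := fun w => by
  refine (h w).trans ?_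
  rw [mul_assoc]
  refine mul_le_mul_of_nonneg_left ?_ ha
  exact le_trans (le_abs_self _) (h' w)

lemma l1_pad_le {A B X : Meas} (hA : Prob A) (hB : Prob B) : l1 (A * X * B) ≤ l1 X := by
  refine (l1_mul_le _ _).trans ?_
  rw [hB.1.l1_eq, hB.2, mul_one]
  refine (l1_mul_le _ _).trans ?_
  rw [hA.1.l1_eq, hA.2, one_mul]

lemma mass_Tr (G : Meas) (L : ℕ) (w : ℕ → ℝ) {X : Meas} (hX : mass X = 0) :
    mass (Tr G L w X) = 0 := by
  rw [Tr, mass_sum]
  exact Finset.sum_eq_zero fun s _ => by rw [mass_smul, mass_mul, mass_mul, hX]; ring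

lemma Tr_sub (G : Meas) (L : ℕ) (w : ℕ → ℝ) (X Y : Meas) :
    Tr G L w X - Tr G L w Y = Tr G L w (X - Y) := by
  simp only [Tr, ← Finset.sum_sub_distrib]
  exact Finset.sum_congr rfl fun s _ => by rw [← smul_sub, mul_sub, sub_mul]

lemma l1_Tr_le {G : Meas} (hG : Prob G) (L : ℕ) (w : ℕ → ℝ) (X : Meas) :
    l1 (Tr G L w X) ≤ (∑ s ∈ Finset.range (L + 1), |w s|) * l1 X := by
  rw [Finset.sum_mul]
  refine (l1_sum_le _ _).trans (Finset.sum_le_sum fun s _ => (l1_smul _ _).trans ?_)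
  exact mul_le_mul_of_nonneg_left (l1_pad_le (hG.pow s) (hG.pow _)) (abs_nonneg _)

/-- The constant of a window. -/
def winC (r : ℕ) : ℝ :=
  64 * ((2 : ℝ) ^ r + 3) * 2 ^ (2 ^ r + 2) * 2 ^ r

/-- The error constant of a window. -/
def winE (r : ℕ) : ℝ := (8 * Real.sqrt r) ^ r + 2 ^ r

lemma one_le_winC (r : ℕ) : 1 ≤ winC r := by
  unfold winC
  have h1 : (1 : ℝ) ≤ 2 ^ r := one_le_pow₀ one_le_two
  have h2 : (1 : ℝ) ≤ 2 ^ (2 ^ r + 2) := one_le_pow₀ one_le_two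
  nlinarith [mul_le_mul h2 h1 zero_le_one (by linarith)]

lemma one_le_winE (r : ℕ) : 1 ≤ winE r := by
  unfold winE
  have h1 : (1 : ℝ) ≤ 2 ^ r := one_le_pow₀ one_le_two
  have h2 : (0 : ℝ) ≤ (8 * Real.sqrt r) ^ r := by positivity
  linarith

/-- The translated core of a window. -/
theorem window_core (r : ℕ) (hr : 1 ≤ r) {G D X : Meas} {m B T j : ℕ}
    {g lam φd ε bx ex : ℝ} (hG : Prob G) (hs : Smooth G g) (hDd : Bd D (G ^ m) lam)
    (hsp : Spread G m D φd ε) (hg : 0 ≤ g) (hl2 : lam ≤ 1 / 2) (hφ : 0 ≤ φd)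
    (hε : 0 ≤ ε) (hbx : 0 ≤ bx) (hB : 2 ≤ B) (hT : 1 ≤ T) (hm : 4 * r * T ≤ m)
    (hX : Nle X ((G ^ m) ^ j) bx) (hX1 : L1 X ex) :
    ∃ ghat : Meas, mass ghat = 0 ∧
      NB ghat ((G ^ m) ^ (j + 3)) ((2 ^ r * (φd / Real.sqrt T) * bx) ^ 2) ∧
      l1 ((G ^ m) ^ B * (D * X) * (G ^ m) ^ B - (G ^ m) ^ (B - 1) * ghat * (G ^ m) ^ (B - 1)) ≤
        winE r * ex * (((T : ℝ) * Real.sqrt (g / (m * B))) ^ r + ε) := by
  have hex : 0 ≤ ex := (l1_nonneg _).trans hX1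
  obtain ⟨w, -, -, hw1, -, hw2, -, -, hker⟩ := exists_kernel r T hr hT
  obtain ⟨D', hD'e, hD'm, hD'sp⟩ := hsp
  obtain ⟨B', rfl⟩ : ∃ B', B = B' + 1 := ⟨B - 1, by omega⟩
  set L := 2 * T * r with hL
  have hLm : 2 * L ≤ m := by rw [hL]; linarith
  have hrT : r ≤ T * r := Nat.le_mul_of_pos_left r (by omega)
  -- the core
  set Phi0 := φd * wsq L w * bx with hPhi0
  have hP0 : 0 ≤ Phi0 := mul_nonneg (mul_nonneg hφ (Real.sqrt_nonneg _)) hbx
  set ghat := G ^ m * Tr G L w (D' * X) * G ^ (m - L) with hghat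
  have mghat : mass ghat = 0 := by
    rw [hghat, mass_mul, mass_mul, mass_Tr G L w (by rw [mass_mul, hD'm, zero_mul])]; ring
  have hghatNB : NB ghat ((G ^ m) ^ (j + 3)) (Phi0 ^ 2) := by
    have h0 : Nle (Tr G L w (D' * X)) (G ^ (L + m + m * j)) Phi0 :=
      hD'sp L w X (m * j) bx hbx (by rw [pow_mul]; exact hX)
    have h1 := NB.mul (hG.1.pow m) (hG.1.pow _) (hG.1.pow m).mass_nonneg (nb_self (hG.1.pow m)) h0
    rw [mass_pow, hG.2, one_pow, one_mul] at h1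
    have h2 := NB.mul ((hG.1.pow m).mul (hG.1.pow _)) (hG.1.pow (m - L)) (sq_nonneg _) h1
      (nb_self (hG.1.pow (m - L)))
    rw [mass_pow, hG.2, one_pow, mul_one, ← pow_add, ← pow_add] at h2
    rw [← pow_mul, show m * (j + 3) = m + (L + m + m * j) + (m - L) by
      rw [mul_add]; omega]
    exact h2
  -- translation
  set N := m * (B' + 1) / (2 * r) with hN
  have hmB : 4 * r ≤ m * (B' + 1) := by
    have h1 : 4 * r ≤ 4 * r * T := Nat.le_mul_of_pos_right _ (by omega)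
    have h2 : m ≤ m * (B' + 1) := Nat.le_mul_of_pos_right _ (by omega)
    omega
  have hN1 : 1 ≤ N := (Nat.one_le_div_iff (by omega)).2 (by omega)
  have hrN : 2 * (r * N) ≤ m * (B' + 1) := by
    rw [hN, ← mul_assoc]; exact Nat.mul_div_le _ _
  have hN4 : m * (B' + 1) ≤ 4 * r * N := by
    have h1 := Nat.div_add_mod (m * (B' + 1)) (2 * r)
    have h2 := Nat.mod_lt (m * (B' + 1)) (show 2 * r > 0 by omega)
    have h3 : 2 * r ≤ 2 * r * N := Nat.le_mul_of_pos_right _ hN1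
    have h4 : 4 * r * N = 2 * r * N + 2 * r * N := by ring
    rw [← hN] at h1
    omega
  have hNR : Real.sqrt (g / N) ≤ 2 * Real.sqrt r * Real.sqrt (g / (m * (B' + 1 : ℕ))) := by
    have h4 : (2 : ℝ) = Real.sqrt 4 := by
      rw [show (4 : ℝ) = 2 ^ 2 by norm_num, Real.sqrt_sq zero_le_two]
    rw [h4, ← Real.sqrt_mul (by norm_num), ← Real.sqrt_mul (by positivity)]
    refine Real.sqrt_le_sqrt ?_
    have hm0 : (0 : ℝ) < m * (B' + 1 : ℕ) := by
      exact_mod_cast (show 0 < m * (B' + 1) by omega)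
    rw [← mul_div_assoc, div_le_div_iff₀ (by exact_mod_cast hN1) hm0]
    have h5 : (m : ℝ) * (B' + 1 : ℕ) ≤ 4 * r * N := by exact_mod_cast hN4
    calc g * ((m : ℝ) * (B' + 1 : ℕ)) ≤ g * (4 * r * N) := mul_le_mul_of_nonneg_left h5 hg
      _ = 4 * r * g * N := by ring
  have hmm : m ≤ m * (B' + 1) := Nat.le_mul_of_pos_right _ (by omega)
  set x1 := (T : ℝ) * Real.sqrt (g / (m * (B' + 1 : ℕ))) with hx1
  have hk : (4 * T * Real.sqrt (g / N)) ^ r ≤ (8 * Real.sqrt r) ^ r * x1 ^ r := by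
    rw [← mul_pow]
    refine pow_le_pow_left₀ (by positivity) ?_ r
    calc 4 * (T : ℝ) * Real.sqrt (g / N)
        ≤ 4 * T * (2 * Real.sqrt r * Real.sqrt (g / (m * (B' + 1 : ℕ)))) :=
          mul_le_mul_of_nonneg_left hNR (by positivity)
      _ = 8 * Real.sqrt r * x1 := by rw [hx1]; ring
  have hDX1 : l1 (D * X) ≤ ex := by
    refine (l1_mul_le _ _).trans ((mul_le_of_le_one_left (l1_nonneg _) ?_).trans hX1)
    refine (Dom.l1_le hDd).trans ?_
    rw [mass_pow, hG.2, one_pow, mul_one]; linarith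
  set kap := winE r * ex * (x1 ^ r + ε) with hkap
  have htr : l1 ((G ^ m) ^ (B' + 1) * (D * X) * (G ^ m) ^ (B' + 1) -
      (G ^ m) ^ B' * ghat * (G ^ m) ^ B') ≤ kap := by
    have e1 : (G ^ m) ^ (B' + 1) * (D * X) * (G ^ m) ^ (B' + 1) =
        G ^ (m * (B' + 1)) * ((D * X) * G ^ L) * G ^ (m * (B' + 1) - L) := by
      rw [← pow_mul, ← mul_assoc (G ^ (m * (B' + 1))) (D * X) (G ^ L),
        mul_assoc (G ^ (m * (B' + 1)) * (D * X)) (G ^ L), ← pow_add,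
        Nat.add_sub_cancel' (by omega)]
    have e2 : (G ^ m) ^ B' * ghat * (G ^ m) ^ B' =
        G ^ (m * (B' + 1)) * Tr G L w (D' * X) * G ^ (m * (B' + 1) - L) := by
      rw [hghat, ← pow_mul]
      simp only [← mul_assoc]
      rw [← pow_add, mul_assoc (_ * Tr G L w (D' * X)), ← pow_add, mul_add, mul_one]
      congr 2; omega
    rw [e1, e2]
    refine (l1_triangle _ (G ^ (m * (B' + 1)) * Tr G L w (D * X) * G ^ (m * (B' + 1) - L)) _).trans ?_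
    have t1 : l1 (G ^ (m * (B' + 1)) * ((D * X) * G ^ L) * G ^ (m * (B' + 1) - L) -
        G ^ (m * (B' + 1)) * Tr G L w (D * X) * G ^ (m * (B' + 1) - L)) ≤
        (8 * Real.sqrt r) ^ r * x1 ^ r * ex := by
      have hk2 := hker G (D * X) g ex N hG hs hN1 hex hDX1
      rw [← sub_mul, ← mul_sub] at hk2 ⊢
      have e3 : ∀ Z, G ^ (m * (B' + 1)) * Z * G ^ (m * (B' + 1) - L) =
          G ^ (m * (B' + 1) - r * N) * (G ^ (r * N) * Z * G ^ (r * N)) *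
            G ^ (m * (B' + 1) - L - r * N) := by
        intro Z
        simp only [← mul_assoc]
        rw [← pow_add, mul_assoc (_ * Z) (G ^ (r * N)), ← pow_add]
        rw [show m * (B' + 1) - r * N + r * N = m * (B' + 1) by omega,
          show r * N + (m * (B' + 1) - L - r * N) = m * (B' + 1) - L by omega]
      rw [e3]
      refine (l1_pad_le (hG.pow _) (hG.pow _)).trans (le_trans hk2 ?_)
      exact mul_le_mul_of_nonneg_right hk hex
    have t2 : l1 (G ^ (m * (B' + 1)) * Tr G L w (D * X) * G ^ (m * (B' + 1) - L) -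
        G ^ (m * (B' + 1)) * Tr G L w (D' * X) * G ^ (m * (B' + 1) - L)) ≤ 2 ^ r * (ε * ex) := by
      rw [← sub_mul, ← mul_sub, Tr_sub, ← sub_mul]
      refine (l1_pad_le (hG.pow _) (hG.pow _)).trans ((l1_Tr_le hG _ _ _).trans ?_)
      exact mul_le_mul hw1 ((l1_mul_le _ _).trans (mul_le_mul hD'e hX1 (l1_nonneg _) hε))
        (l1_nonneg _) (by positivity)
    refine (add_le_add t1 t2).trans ?_
    have h8 : 0 ≤ (8 * Real.sqrt r) ^ r := by positivity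
    have h2 : (0 : ℝ) ≤ 2 ^ r := by positivity
    have hx : 0 ≤ x1 ^ r := by positivity
    rw [hkap, winE]
    nlinarith [mul_nonneg (mul_nonneg h8 hε) hex, mul_nonneg (mul_nonneg h2 hx) hex]
  have hPQ : Phi0 ≤ 2 ^ r * (φd / Real.sqrt T) * bx := by
    rw [hPhi0]
    refine mul_le_mul_of_nonneg_right ?_ hbx
    calc φd * wsq L w ≤ φd * (2 ^ r / Real.sqrt T) := mul_le_mul_of_nonneg_left hw2 hφ
      _ = 2 ^ r * (φd / Real.sqrt T) := by ring
  exact ⟨ghat, mghat, hghatNB.mono ((hG.1.pow m).pow _) (pow_le_pow_left₀ hP0 hPQ 2),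
    by simpa using htr⟩

lemma window_corr_scalar {Br a R d Q p bx E2 : ℝ} {n : ℕ} (hn : (n : ℝ) = Br) (hB : 2 ≤ Br)
    (ha : 0 ≤ a) (hBa : a * Br ^ 2 ≤ 1) (hR : 0 ≤ R) (hR2 : R ≤ 2) (hd : 0 ≤ d) (hQ : 0 ≤ Q)
    (hp : 0 ≤ p) (_hbx : 0 ≤ bx) (hE : 1 ≤ E2) {Rp : ℝ} (hRp0 : 0 ≤ Rp) (hRp : Rp ≤ E2) :
    4 * (((1 + a ^ 2 * R) ^ n - 1) * (2 + ((1 + a ^ 2 * R) ^ n - 1))) *
        (d ^ 2 * bx ^ 2 + (p * Q * bx) ^ 2) * Rp ≤
      (7 * E2 * Real.sqrt Br * a * bx * (d + p * Q)) ^ 2 := by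
  have hB0 : 0 ≤ Br := le_trans zero_le_two hB
  have hBa2 : Br * a ≤ 1 / 2 := by
    have : Br * a * 2 ≤ Br * a * Br := mul_le_mul_of_nonneg_left hB (mul_nonneg hB0 ha)
    nlinarith
  have ha1 : a ≤ 1 := by nlinarith
  have hBa3 : 0 ≤ Br * a ^ 2 := by positivity
  have hBaa : Br * a ^ 2 ≤ 1 / 4 := by
    have h1 : 2 * a ≤ 1 / 2 := le_trans (mul_le_mul_of_nonneg_right hB ha) hBa2
    nlinarith
  have h1 : Br * (a ^ 2 * R) ≤ 2 * (Br * a ^ 2) := by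
    nlinarith [mul_le_mul_of_nonneg_left hR2 hBa3]
  have h2 := pow_one_add_le (mul_nonneg (sq_nonneg a) hR) n (by rw [hn]; linarith)
  rw [hn] at h2
  have h0 : 0 ≤ (1 + a ^ 2 * R) ^ n - 1 :=
    sub_nonneg.2 (one_le_pow₀ (by linarith [mul_nonneg (sq_nonneg a) hR]))
  generalize (1 + a ^ 2 * R) ^ n - 1 = e at *
  have he : e ≤ 4 * (Br * a ^ 2) := by linarith
  have h3 : 4 * (e * (2 + e)) ≤ 49 * (Br * a ^ 2) := by nlinarith
  have h4 : d ^ 2 * bx ^ 2 + (p * Q * bx) ^ 2 ≤ (bx * (d + p * Q)) ^ 2 := by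
    have h5 : 0 ≤ bx ^ 2 * d * (p * Q) := by positivity
    nlinarith
  calc 4 * (e * (2 + e)) * (d ^ 2 * bx ^ 2 + (p * Q * bx) ^ 2) * Rp
      ≤ 49 * (Br * a ^ 2) * (bx * (d + p * Q)) ^ 2 * E2 ^ 2 := by
        refine mul_le_mul (mul_le_mul h3 h4 (by positivity) (by positivity))
          (hRp.trans (le_self_pow₀ hE two_ne_zero)) hRp0 (by positivity)
    _ = (7 * E2 * Real.sqrt Br * a * bx * (d + p * Q)) ^ 2 := by
        simp only [mul_pow, Real.sq_sqrt hB0]; ring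

lemma window_sum_scalar {K3 E2 bx Q Br a d p q1 q2 : ℝ} (hB : 2 ≤ Br) (ha : 0 ≤ a)
    (hBa : a * Br ^ 2 ≤ 1) (hd : 0 ≤ d) (hQ : 0 ≤ Q) (hp : 1 ≤ p) (hbx : 0 ≤ bx) (hK : 0 ≤ K3)
    (hE : 0 ≤ E2) (h1 : q1 ≤ K3) (h2 : q2 ≤ K3 * Real.sqrt Br) :
    q1 * (E2 * p * Q * bx) + q2 * (7 * E2 * Real.sqrt Br * a * bx * (d + p * Q)) ≤
      64 * K3 * E2 * p * bx * (Q + Br ^ 2 * a * d) := by
  have hB0 : 0 ≤ Br := le_trans zero_le_two hB
  have hp0 : 0 ≤ p := le_trans zero_le_one hp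
  have hBa2 : Br * a ≤ 1 / 2 := by
    have : Br * a * 2 ≤ Br * a * Br := mul_le_mul_of_nonneg_left hB (mul_nonneg hB0 ha)
    nlinarith
  have k1 : Br * a * (p * Q) ≤ 1 / 2 * (p * Q) :=
    mul_le_mul_of_nonneg_right hBa2 (mul_nonneg hp0 hQ)
  have k2 : Br * a * d ≤ p * (Br ^ 2 * a * d) := by
    calc Br * a * d = 1 * (Br * a * d) := (one_mul _).symm
      _ ≤ (p * Br) * (Br * a * d) :=
          mul_le_mul_of_nonneg_right (one_le_mul_of_one_le_of_one_le hp (by linarith))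
            (by positivity)
      _ = p * (Br ^ 2 * a * d) := by ring
  have k3 : 0 ≤ p * Q := mul_nonneg hp0 hQ
  have k4 : 0 ≤ p * (Br ^ 2 * a * d) := by positivity
  calc q1 * (E2 * p * Q * bx) + q2 * (7 * E2 * Real.sqrt Br * a * bx * (d + p * Q))
      ≤ K3 * (E2 * p * Q * bx) +
        (K3 * Real.sqrt Br) * (7 * E2 * Real.sqrt Br * a * bx * (d + p * Q)) :=
        add_le_add (mul_le_mul_of_nonneg_right h1 (by positivity))
          (mul_le_mul_of_nonneg_right h2 (by positivity))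
    _ = K3 * E2 * bx * (p * Q + 7 * (Br * a) * (d + p * Q)) := by
        linear_combination (7 * K3 * E2 * a * bx * (d + p * Q)) * Real.mul_self_sqrt hB0
    _ ≤ K3 * E2 * bx * (64 * p * (Q + Br ^ 2 * a * d)) :=
        mul_le_mul_of_nonneg_left (by nlinarith) (by positivity)
    _ = 64 * K3 * E2 * p * bx * (Q + Br ^ 2 * a * d) := by ring

/-- Core and correction, put back inside the pads. -/
lemma window_assemble {U Y ghat corr : Meas} {a k o e : ℕ} {c0 c1 kap : ℝ} (hU : Prob U)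
    (h0 : 0 ≤ c0) (h1 : 0 ≤ c1) (hk : 3 ≤ k) (mg : mass ghat = 0) (mc : mass corr = 0)
    (hg : Nle ghat (U ^ k) c0) (hc : Nle corr (U ^ (a + k + a)) c1) (ho : a + 1 ≤ o)
    (he : a + 1 ≤ e)
    (hclose : l1 (U ^ (a + 1) * Y * U ^ (a + 1) - (U ^ a * ghat * U ^ a + corr)) ≤ kap) :
    Spread U (o + (k - 2) + e) (U ^ o * Y * U ^ e)
      (Real.sqrt k * c0 + Real.sqrt (a + k + a : ℕ) * c1) kap := by
  have s1 := spread_single (G := U) hU (o := o - 1) (len := k) (k := e - 1) (by omega) h0 mg hg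
  have s2 := spread_single (G := U) hU (o := o - (a + 1)) (len := a + k + a) (k := e - (a + 1))
    (by omega) h1 mc hc
  rw [show o - 1 + k + (e - 1) = o + (k - 2) + e by omega] at s1
  rw [show o - (a + 1) + (a + k + a) + (e - (a + 1)) = o + (k - 2) + e by omega] at s2
  have s12 := Spread.add hU (mul_nonneg (Real.sqrt_nonneg _) h0)
    (mul_nonneg (Real.sqrt_nonneg _) h1) s1 s2
  have hd : l1 (U ^ o * Y * U ^ e -
      (U ^ (o - 1) * ghat * U ^ (e - 1) + U ^ (o - (a + 1)) * corr * U ^ (e - (a + 1)))) ≤ kap := by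
    refine le_trans (le_of_eq (congrArg l1 ?_))
      ((l1_pad_le (hU.pow (o - (a + 1))) (hU.pow (e - (a + 1)))).trans hclose)
    simp only [mul_sub, sub_mul, mul_add, add_mul, ← mul_assoc]
    rw [← pow_add, ← pow_add, Nat.sub_add_cancel ho,
      show o - (a + 1) + a = o - 1 by omega]
    simp only [mul_assoc]
    rw [← pow_add, ← pow_add, Nat.add_sub_cancel' he,
      show a + (e - (a + 1)) = e - 1 by omega]
  simpa using s12.of_close hd

lemma sqrt_window_len {r j B' : ℕ} (hj : j + 1 ≤ 2 ^ r) (hB : 2 ≤ B' + 1) :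
    Real.sqrt ((j + 3 : ℕ) : ℝ) ≤ 2 ^ r + 3 ∧
    Real.sqrt ((B' + (j + 3) + B' : ℕ) : ℝ) ≤
      (2 ^ r + 3) * Real.sqrt ((B' + 1 : ℕ) : ℝ) := by
  have hj' : ((j : ℝ)) + 1 ≤ 2 ^ r := by exact_mod_cast hj
  have hB' : (1 : ℝ) ≤ B' := by exact_mod_cast (show 1 ≤ B' by omega)
  have hj0 : (0 : ℝ) ≤ j := Nat.cast_nonneg j
  have h1 : (1 : ℝ) ≤ 2 ^ r := one_le_pow₀ one_le_two
  constructor
  · rw [Real.sqrt_le_left (by linarith)]; push_cast; nlinarith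
  · rw [Real.sqrt_le_left (mul_nonneg (by linarith) (Real.sqrt_nonneg _)), mul_pow,
      Real.sq_sqrt (Nat.cast_nonneg _)]
    push_cast
    nlinarith [mul_le_mul_of_nonneg_right (show (16 : ℝ) ≤ (2 ^ r + 3) ^ 2 by nlinarith)
      (show (0 : ℝ) ≤ (B' : ℝ) by linarith)]

theorem window (r : ℕ) (hr : 1 ≤ r) {G U D X : Meas} {m B T o e j : ℕ}
    {g lam a d φd ε bx ex : ℝ} (hG : Prob G) (hs : Smooth G g) (hU : Prob U) (mD : mass D = 0)
    (hUd : Bd (U - G ^ m) (G ^ m) lam) (hDd : Bd D (G ^ m) lam)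
    (hu : Nle (U - G ^ m) (G ^ m) a) (hD : Nle D (G ^ m) d) (hsp : Spread G m D φd ε)
    (hg : 0 ≤ g) (hl : 0 ≤ lam) (hl2 : lam ≤ 1 / 2) (ha : 0 ≤ a) (hd : 0 ≤ d) (hφ : 0 ≤ φd)
    (hε : 0 ≤ ε) (hbx : 0 ≤ bx) (hB : 2 ≤ B) (hT : 1 ≤ T) (hm : 4 * r * T ≤ m)
    (hj : j + 1 ≤ 2 ^ r) (haB : a * (B : ℝ) ^ 2 ≤ 1) (ho : B ≤ o) (he : B ≤ e)
    (hX : Nle X ((G ^ m) ^ j) bx) (hX1 : L1 X ex) :
    Spread U (o + (j + 1) + e) (U ^ o * (D * X) * U ^ e)
      (winC r * bx * (φd / Real.sqrt T + (B : ℝ) ^ 2 * a * d))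
      (winE r * ex * (((T : ℝ) * Real.sqrt (g / (m * B))) ^ r + ε)) := by
  obtain ⟨ghat, mghat, hghatNB, htr⟩ :=
    window_core r hr hG hs hDd hsp hg hl2 hφ hε hbx hB hT hm hX hX1
  obtain ⟨B', rfl⟩ : ∃ B', B = B' + 1 := ⟨B - 1, by omega⟩
  simp only [Nat.add_sub_cancel] at htr
  have hQ0 : 0 ≤ φd / Real.sqrt T := div_nonneg hφ (Real.sqrt_nonneg _)
  have hR0 : 0 ≤ 1 / (1 - lam) := div_nonneg zero_le_one (by linarith)
  have hR2 : 1 / (1 - lam) ≤ 2 := by rw [div_le_iff₀ (by linarith)]; linarith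
  have huU : NB (G ^ m - U) U (a ^ 2 * (1 / (1 - lam))) := by
    have h1 : NB (G ^ m - U) (G ^ m) (a ^ 2) := by simpa using hu.neg
    exact h1.change (sq_nonneg a) (Dom.of_sub hUd (hG.1.pow m) (by linarith))
  obtain ⟨corr, mcorr, hgU, hcorr, hclose⟩ := gain (G := G) (U := U) (D := D) (X := X) (a := B')
    (j := j) (h := d ^ 2) (B := bx ^ 2) hG.1 hG.2 hl (by linarith) hU.2 hUd
    (mul_nonneg (sq_nonneg _) hR0) huU (sq_nonneg _) hD mD (sq_nonneg _) hX (sq_nonneg _)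
    mghat hghatNB htr
  have hE1 : (1 : ℝ) ≤ 2 ^ (2 ^ r + 2) := one_le_pow₀ one_le_two
  have hRp : (1 / (1 - lam)) ^ (j + 3) ≤ (2 : ℝ) ^ (2 ^ r + 2) :=
    (pow_le_pow_left₀ hR0 hR2 _).trans (pow_le_pow_right₀ one_le_two (by omega))
  have hp1 : (1 : ℝ) ≤ 2 ^ r := one_le_pow₀ one_le_two
  have hB2 : (2 : ℝ) ≤ ((B' + 1 : ℕ) : ℝ) := by exact_mod_cast hB
  have hcore : Nle ghat (U ^ (j + 3))
      (2 ^ (2 ^ r + 2) * 2 ^ r * (φd / Real.sqrt T) * bx) := by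
    refine NB.mono hgU (hU.1.pow _) ?_
    calc (2 ^ r * (φd / Real.sqrt T) * bx) ^ 2 * (1 / (1 - lam)) ^ (j + 3)
        ≤ (2 ^ r * (φd / Real.sqrt T) * bx) ^ 2 * ((2 : ℝ) ^ (2 ^ r + 2)) ^ 2 :=
          mul_le_mul_of_nonneg_left (hRp.trans (le_self_pow₀ hE1 two_ne_zero)) (sq_nonneg _)
      _ = _ := by ring
  have hcorrN := NB.mono hcorr (hU.1.pow _)
    (window_corr_scalar (n := B' + 1) rfl hB2 ha haB hR0 hR2 hd hQ0 (le_trans zero_le_one hp1)
      hbx hE1 (pow_nonneg hR0 _) hRp)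
  have sp := window_assemble (Y := D * X) (o := o) (e := e) hU (by positivity) (by positivity)
    (by omega) mghat mcorr hcore hcorrN ho he hclose
  rw [show o + (j + 3 - 2) + e = o + (j + 1) + e by omega] at sp
  obtain ⟨q1, q2⟩ := sqrt_window_len hj hB
  refine sp.mono hU (by positivity) ?_ le_rfl
  refine (window_sum_scalar hB2 ha haB hd hQ0 hp1 hbx (by positivity) (by positivity) q1 q2).trans
    (le_of_eq ?_)
  rw [winC]

end Vale.Agent.P321
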